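import Mathlib
import Vale.Agent.P321.Algebra

/-!
Densities relative to a positive measure, and push-forward along concatenation.
-/

open scoped BigOperators
open Finset

noncomputable section

namespace Vale.Agent.P321

theorem ev_congr_on {φ ψ : W → ℝ} {X : A} (h : ∀ z, X.coeff z ≠ 0 → φ z = ψ z) :
    ev φ X = ev ψ X := by
  simp only [ev_apply]
  exact Finset.sum_congr rfl fun z hz => by rw [h z (Finsupp.mem_support_iff.1 hz)]

open Classical in
/-- The indicator of a single word. -/
def delta (z : W) : W → ℝ := fun x => if x = z then 1 else 0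

theorem delta_nonneg (z x : W) : 0 ≤ delta z x := by
  unfold delta
  split <;> simp

theorem coeff_eq_ev (X : A) (z : W) : X.coeff z = ev (delta z) X := by
  classical
  rw [ev_apply]
  simp [delta]

/-- The measure with density `f` relative to `X`. -/
def tilt (f : W → ℝ) (X : A) : A :=
  ∑ z ∈ X.coeff.support, MonoidAlgebra.single z (f z * X.coeff z)

theorem coeff_tilt (f : W → ℝ) (X : A) (z : W) : (tilt f X).coeff z = f z * X.coeff z := by
  classical
  rw [tilt, MonoidAlgebra.coeff_sum, Finsupp.finsetSum_apply]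
  simp only [MonoidAlgebra.coeff_single, Finsupp.single_apply]
  rw [Finset.sum_ite_eq']
  split
  · rfl
  next h => simp [Finsupp.notMem_support_iff.1 h]

theorem ev_tilt (φ f : W → ℝ) (X : A) : ev φ (tilt f X) = ev (fun z => f z * φ z) X := by
  rw [tilt, map_sum, ev_apply]
  exact Finset.sum_congr rfl fun z _ => by rw [ev_single]; ring

theorem tilt_add (f g : W → ℝ) (X : A) : tilt (fun z => f z + g z) X = tilt f X + tilt g X := by
  ext z; simp [coeff_tilt, add_mul]

theorem tilt_sum {ι : Type*} (s : Finset ι) (f : ι → W → ℝ) (X : A) :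
    tilt (fun z => ∑ i ∈ s, f i z) X = ∑ i ∈ s, tilt (f i) X := by
  ext z; simp [coeff_tilt, Finset.sum_mul]

theorem tilt_smul (r : ℝ) (f : W → ℝ) (X : A) : tilt (fun z => r * f z) X = r • tilt f X := by
  ext z; simp [coeff_tilt, mul_assoc]

theorem tilt_one (X : A) : tilt (fun _ => 1) X = X := by ext z; simp [coeff_tilt]

theorem tilt_zero (X : A) : tilt (fun _ => 0) X = 0 := by ext z; simp [coeff_tilt]

theorem tilt_const (r : ℝ) (X : A) : tilt (fun _ => r) X = r • X := by ext z; simp [coeff_tilt]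

theorem l1_tilt {f : W → ℝ} {X : A} (hX : Pos X) : l1 (tilt f X) ≤ ev (fun z => |f z|) X := by
  refine l1_le_of_forall fun φ hφ => ?_
  rw [ev_tilt]
  refine ev_mono hX fun z => ?_
  calc f z * φ z ≤ |f z| * |φ z| := by rw [← abs_mul]; exact le_abs_self _
    _ ≤ |f z| * 1 := mul_le_mul_of_nonneg_left (hφ z) (abs_nonneg _)
    _ = |f z| := mul_one _

/-- Double integral. -/
def ev2 (F : W → W → ℝ) (P Q : A) : ℝ := ev (fun u => ev (F u) Q) P

theorem ev2_eq (F : W → W → ℝ) (P Q : A) :
    ev2 F P Q = ∑ u ∈ P.coeff.support, ∑ v ∈ Q.coeff.support,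
      P.coeff u * Q.coeff v * F u v := by
  unfold ev2
  simp only [ev_apply, Finset.mul_sum]
  exact Finset.sum_congr rfl fun u _ => Finset.sum_congr rfl fun v _ => by ring

theorem ev2_mono {F G : W → W → ℝ} {P Q : A} (hP : Pos P) (hQ : Pos Q)
    (h : ∀ u v, F u v ≤ G u v) : ev2 F P Q ≤ ev2 G P Q :=
  ev_mono hP fun u => ev_mono hQ (h u)

theorem ev2_nonneg {F : W → W → ℝ} {P Q : A} (hP : Pos P) (hQ : Pos Q)
    (h : ∀ u v, 0 ≤ F u v) : 0 ≤ ev2 F P Q :=
  ev_nonneg hP fun u => ev_nonneg hQ (h u)

theorem ev2_prod (φ : W → ℝ) (P Q : A) : ev φ (P * Q) = ev2 (fun u v => φ (u * v)) P Q := by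
  rw [ev_mul]; rfl

/-- Jensen's inequality for an even power and finitely many weights. -/
theorem sum_pow_le_even {ι : Type*} (s : Finset ι) (w F : ι → ℝ) (hw : ∀ i ∈ s, 0 ≤ w i)
    (k : ℕ) : (∑ i ∈ s, w i * F i) ^ (2 * (k + 1))
      ≤ (∑ i ∈ s, w i) ^ (2 * (k + 1) - 1) * ∑ i ∈ s, w i * F i ^ (2 * (k + 1)) := by
  rcases (Finset.sum_nonneg hw).eq_or_lt with h | h
  · have hz : ∀ i ∈ s, w i = 0 := (Finset.sum_eq_zero_iff_of_nonneg hw).1 h.symm
    rw [Finset.sum_eq_zero fun i hi => by simp [hz i hi],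
      zero_pow (by omega), ← h, zero_pow (by omega), zero_mul]
  · set S := ∑ i ∈ s, w i with hS
    have := Real.pow_arith_mean_le_arith_mean_pow_of_even s (fun i => w i / S) F
      (fun i hi => div_nonneg (hw i hi) h.le) (by rw [← Finset.sum_div, div_self h.ne'])
      (n := 2 * (k + 1)) (even_two_mul _)
    have e1 : (∑ i ∈ s, w i * F i) = S * ∑ i ∈ s, w i / S * F i := by
      rw [Finset.mul_sum]; refine Finset.sum_congr rfl fun i _ => ?_
      field_simp
    have e2 : (∑ i ∈ s, w i / S * F i ^ (2 * (k + 1)))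
        = (∑ i ∈ s, w i * F i ^ (2 * (k + 1))) / S := by
      rw [Finset.sum_div]; exact Finset.sum_congr rfl fun i _ => by ring
    rw [e1, mul_pow]
    refine (mul_le_mul_of_nonneg_left this (by positivity)).trans_eq ?_
    rw [e2]
    have : S ^ (2 * (k + 1)) = S ^ (2 * (k + 1) - 1) * S := by
      rw [← pow_succ]; congr 1
    rw [this]
    field_simp

/-- Push a function of two pieces forward to a density on the concatenation. -/
theorem exists_push {P Q : A} (hP : Pos P) (hQ : Pos Q) (F : W → W → ℝ) :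
    ∃ h : W → ℝ, (∀ φ : W → ℝ, ev φ (tilt h (P * Q)) = ev2 (fun u v => F u v * φ (u * v)) P Q) ∧
      ∀ k : ℕ, ev (fun z => h z ^ (2 * (k + 1))) (P * Q)
        ≤ ev2 (fun u v => F u v ^ (2 * (k + 1))) P Q := by
  classical
  set M : W → ℝ := fun z => ev2 (fun u v => F u v * delta z (u * v)) P Q with hM
  set h : W → ℝ := fun z => M z / (P * Q).coeff z with hh
  have hPQ : ∀ z, (P * Q).coeff z = ev2 (fun u v => delta z (u * v)) P Q := fun z => by
    rw [coeff_eq_ev, ev2_prod]
  set Z : Finset W := (P.coeff.support ×ˢ Q.coeff.support).image fun x => x.1 * x.2 with hZ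
  have hmem : ∀ u ∈ P.coeff.support, ∀ v ∈ Q.coeff.support, u * v ∈ Z := fun u hu v hv =>
    Finset.mem_image.2 ⟨(u, v), Finset.mem_product.2 ⟨hu, hv⟩, rfl⟩
  have hsub : (P * Q).coeff.support ⊆ Z := by
    intro z hz
    by_contra hz'
    refine Finsupp.mem_support_iff.1 hz ?_
    rw [hPQ, ev2_eq]
    refine Finset.sum_eq_zero fun u hu => Finset.sum_eq_zero fun v hv => ?_
    have : u * v ≠ z := fun e => hz' (e ▸ hmem u hu v hv)
    simp [delta, this]
  have hjen : ∀ (k : ℕ) (z : W), M z ^ (2 * (k + 1)) ≤ (P * Q).coeff z ^ (2 * (k + 1) - 1)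
      * ev2 (fun u v => F u v ^ (2 * (k + 1)) * delta z (u * v)) P Q := by
    intro k z
    have := sum_pow_le_even (P.coeff.support ×ˢ Q.coeff.support)
      (fun x => P.coeff x.1 * Q.coeff x.2 * delta z (x.1 * x.2)) (fun x => F x.1 x.2)
      (fun x _ => mul_nonneg (mul_nonneg (hP _) (hQ _)) (delta_nonneg _ _)) k
    rw [hPQ]
    simp only [hM, ev2_eq]
    simp only [Finset.sum_product] at this
    refine le_trans (le_of_eq ?_) (this.trans (le_of_eq ?_))
    · congr 1
      refine Finset.sum_congr rfl fun u _ => Finset.sum_congr rfl fun v _ => ?_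
      ring
    · congr 1
      refine Finset.sum_congr rfl fun u _ => Finset.sum_congr rfl fun v _ => ?_
      ring
  have hcancel : ∀ z, h z * (P * Q).coeff z = M z := by
    intro z
    rcases eq_or_ne ((P * Q).coeff z) 0 with h0 | h0
    · have h1 := hjen 0 z
      rw [h0, zero_pow (by norm_num), zero_mul] at h1
      have : M z = 0 := by
        have h2 : M z ^ 2 = 0 := le_antisymm (by simpa using h1) (sq_nonneg _)
        exact pow_eq_zero_iff two_ne_zero |>.1 h2
      rw [this, h0, mul_zero]
    · simp [hh, div_mul_cancel₀ _ h0]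
  refine ⟨h, fun φ => ?_, fun k => ?_⟩
  · rw [ev_tilt, ev_apply_of_subset _ _ Z hsub]
    have : ∀ z ∈ Z, (P * Q).coeff z * (h z * φ z) = M z * φ z := fun z _ => by
      rw [← mul_assoc, mul_comm _ (h z), hcancel]
    rw [Finset.sum_congr rfl this]
    simp only [hM, ev2_eq, Finset.sum_mul]
    rw [Finset.sum_comm]
    refine Finset.sum_congr rfl fun u hu => ?_
    rw [Finset.sum_comm]
    refine Finset.sum_congr rfl fun v hv => ?_
    rw [Finset.sum_eq_single (u * v)]
    · simp [delta]; ring
    · intro z _ hz; simp [delta, Ne.symm hz]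
    · intro hcon; exact absurd (hmem u hu v hv) hcon
  · rw [ev_apply_of_subset _ _ Z hsub]
    calc ∑ z ∈ Z, (P * Q).coeff z * h z ^ (2 * (k + 1))
        ≤ ∑ z ∈ Z, ev2 (fun u v => F u v ^ (2 * (k + 1)) * delta z (u * v)) P Q := by
          refine Finset.sum_le_sum fun z _ => ?_
          have hev : 0 ≤ ev2 (fun u v => F u v ^ (2 * (k + 1)) * delta z (u * v)) P Q :=
            ev2_nonneg hP hQ fun u v =>
              mul_nonneg ((even_two_mul _).pow_nonneg _) (delta_nonneg _ _)
          rcases eq_or_lt_of_le ((hP.mul hQ) z) with h0 | h0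
          · rw [← h0, zero_mul]; exact hev
          · refine le_of_mul_le_mul_left ?_ (pow_pos h0 (2 * (k + 1) - 1))
            calc _ = (h z * (P * Q).coeff z) ^ (2 * (k + 1)) := by
                  rw [mul_pow, ← mul_assoc, ← pow_succ,
                    show 2 * (k + 1) - 1 + 1 = 2 * (k + 1) by omega, mul_comm]
              _ ≤ _ := by rw [hcancel]; exact hjen k z
      _ = _ := by
          simp only [ev2_eq]
          rw [Finset.sum_comm]
          refine Finset.sum_congr rfl fun u hu => ?_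
          rw [Finset.sum_comm]
          refine Finset.sum_congr rfl fun v hv => ?_
          rw [Finset.sum_eq_single (u * v)]
          · simp [delta]
          · intro z _ hz; simp [delta, Ne.symm hz]
          · intro hcon; exact absurd (hmem u hu v hv) hcon

end Vale.Agent.P321
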