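import Mathlib
import Vale.Agent.P321.Algebra
import Vale.Agent.P321.Ortho
import Vale.Agent.P321.Super.Tilt

/-!
Even moments of densities relative to a positive measure of mass one.
-/

open scoped BigOperators
open Finset

noncomputable section

namespace Vale.Agent.P321

/-- The `2(k+1)`-th moment of `f` relative to `P` is at most that of the constant `γ`. -/
def Mom (k : ℕ) (P : A) (f : W → ℝ) (γ : ℝ) : Prop :=
  ev (fun z => f z ^ (2 * (k + 1))) P ≤ γ ^ (2 * (k + 1))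

/-- `X` has, up to `τ` in `ℓ¹`, a density with moment bound `γ` relative to `P`. -/
def Dens (k : ℕ) (P : A) (γ τ : ℝ) (X : A) : Prop :=
  ∃ f : W → ℝ, Mom k P f γ ∧ l1 (X - tilt f P) ≤ τ

/-- As `Dens`, with a density of mean zero. -/
def Dens0 (k : ℕ) (P : A) (γ τ : ℝ) (X : A) : Prop :=
  ∃ f : W → ℝ, ev f P = 0 ∧ Mom k P f γ ∧ l1 (X - tilt f P) ≤ τ

theorem ev2_swap (F : W → W → ℝ) (P Q : A) : ev2 F P Q = ev2 (fun v u => F u v) Q P := by
  simp only [ev2_eq]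
  rw [Finset.sum_comm]
  exact Finset.sum_congr rfl fun v _ => Finset.sum_congr rfl fun u _ => by ring

theorem ev2_mul (f g : W → ℝ) (P Q : A) :
    ev2 (fun u v => f u * g v) P Q = ev f P * ev g Q := by
  unfold ev2
  simp only [ev_smul_test]
  rw [mul_comm, ← ev_smul_test]
  exact congrArg (fun φ => ev φ P) (funext fun u => mul_comm _ _)

theorem ext_ev {X Y : A} (h : ∀ φ : W → ℝ, ev φ X = ev φ Y) : X = Y := by
  ext z
  rw [coeff_eq_ev, coeff_eq_ev, h]

theorem sqrt_pow_two_mul {x : ℝ} (hx : 0 ≤ x) (k : ℕ) :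
    Real.sqrt x ^ (2 * (k + 1)) = x ^ (k + 1) := by
  rw [pow_mul, Real.sq_sqrt hx]

theorem pow_two_mul_eq (x : ℝ) (k : ℕ) : x ^ (2 * (k + 1)) = (x ^ 2) ^ (k + 1) := pow_mul x 2 _

variable {k : ℕ} {P Q : A} {γ τ : ℝ} {X : A}

theorem Mom.mono {f : W → ℝ} {γ' : ℝ} (h : Mom k P f γ) (hγ : 0 ≤ γ) (hle : γ ≤ γ') :
    Mom k P f γ' :=
  le_trans h (pow_le_pow_left₀ hγ hle _)

theorem mom_const (h1 : mass P = 1) (r : ℝ) : Mom k P (fun _ => r) |r| := by
  unfold Mom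
  rw [ev_const, h1, mul_one, (even_two_mul _).pow_abs]

theorem Mom.smul {f : W → ℝ} (h : Mom k P f γ) (r : ℝ) :
    Mom k P (fun z => r * f z) (|r| * γ) := by
  unfold Mom at *
  simp only [mul_pow]
  rw [ev_smul_test, (even_two_mul _).pow_abs]
  exact mul_le_mul_of_nonneg_left h ((even_two_mul _).pow_nonneg _)

/-- The triangle inequality for moments. -/
theorem Mom.sum {ι : Type*} (hP : Pos P) (s : Finset ι) (f : ι → W → ℝ) (γ : ι → ℝ)
    (hγ : ∀ i ∈ s, 0 < γ i) (h : ∀ i ∈ s, Mom k P (f i) (γ i)) :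
    Mom k P (fun z => ∑ i ∈ s, f i z) (∑ i ∈ s, γ i) := by
  unfold Mom
  set S := ∑ i ∈ s, γ i with hS
  have hS0 : 0 ≤ S := Finset.sum_nonneg fun i hi => (hγ i hi).le
  have key : ∀ z, (∑ i ∈ s, f i z) ^ (2 * (k + 1)) ≤
      S ^ (2 * (k + 1) - 1) * ∑ i ∈ s, γ i * (f i z / γ i) ^ (2 * (k + 1)) := by
    intro z
    have hz := sum_pow_le_even s γ (fun i => f i z / γ i) (fun i hi => (hγ i hi).le) k
    rwa [Finset.sum_congr rfl fun i hi => mul_div_cancel₀ (f i z) (hγ i hi).ne'] at hz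
  calc ev (fun z => (∑ i ∈ s, f i z) ^ (2 * (k + 1))) P
      ≤ S ^ (2 * (k + 1) - 1) *
          ∑ i ∈ s, γ i / γ i ^ (2 * (k + 1)) * ev (fun z => f i z ^ (2 * (k + 1))) P := by
        refine (ev_mono hP key).trans (le_of_eq ?_)
        rw [ev_smul_test, ev_sum_test]
        congr 1
        refine Finset.sum_congr rfl fun i _ => ?_
        rw [← ev_smul_test]
        refine ev_congr_on fun z _ => ?_
        rw [div_pow]; ring
    _ ≤ S ^ (2 * (k + 1) - 1) * ∑ i ∈ s, γ i := by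
        refine mul_le_mul_of_nonneg_left (Finset.sum_le_sum fun i hi => ?_) (pow_nonneg hS0 _)
        have hg := hγ i hi
        refine (mul_le_mul_of_nonneg_left (h i hi) (by positivity)).trans_eq ?_
        field_simp
    _ = S ^ (2 * (k + 1)) := by
        rw [← hS, ← pow_succ]; congr 1

theorem Mom.add (hP : Pos P) {f g : W → ℝ} {σ : ℝ} (hγ : 0 < γ) (hσ : 0 < σ)
    (hf : Mom k P f γ) (hg : Mom k P g σ) : Mom k P (fun z => f z + g z) (γ + σ) := by
  have := Mom.sum (k := k) hP (Finset.univ : Finset Bool) (fun b => if b then f else g)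
    (fun b => if b then γ else σ) (fun b _ => by cases b <;> simpa)
    fun b _ => by cases b <;> simpa
  simpa using this

theorem Mom.abs_le (hP : Pos P) (h1 : mass P = 1) {f : W → ℝ} (hγ : 0 ≤ γ) (h : Mom k P f γ) :
    ev (fun z => |f z|) P ≤ γ := by
  have hj := sum_pow_le_even P.coeff.support (fun z => P.coeff z) (fun z => |f z|)
    (fun z _ => hP z) k
  have hm : ∑ z ∈ P.coeff.support, P.coeff z = 1 := by
    rw [← h1, mass, ev_apply]; simp
  rw [hm, one_pow, one_mul] at hj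
  simp only [(even_two_mul (k + 1)).pow_abs] at hj
  rw [← ev_apply, ← ev_apply] at hj
  exact le_of_pow_le_pow_left₀ (by omega) hγ (hj.trans h)

theorem l1_tilt_le (hP : Pos P) (h1 : mass P = 1) {f : W → ℝ} (hγ : 0 ≤ γ) (h : Mom k P f γ) :
    l1 (tilt f P) ≤ γ :=
  (l1_tilt hP).trans (h.abs_le hP h1 hγ)

theorem Dens.mono {γ' τ' : ℝ} (h : Dens k P γ τ X) (hγ : 0 ≤ γ) (h1 : γ ≤ γ') (h2 : τ ≤ τ') :
    Dens k P γ' τ' X := by
  obtain ⟨f, hf, hX⟩ := h
  exact ⟨f, hf.mono hγ h1, hX.trans h2⟩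

theorem Dens.nonneg (h : Dens k P γ τ X) : 0 ≤ τ := by
  obtain ⟨f, -, hX⟩ := h
  exact (l1_nonneg _).trans hX

theorem dens_self (h1 : mass P = 1) : Dens k P 1 0 P :=
  ⟨fun _ => 1, by simpa using mom_const (k := k) h1 1, by simp [tilt_one, l1_zero]⟩

theorem dens_zero (hγ : 0 ≤ γ) (hτ : 0 ≤ τ) : Dens k P γ τ 0 :=
  ⟨fun _ => 0, by
    unfold Mom
    simp only
    rw [show (0 : ℝ) ^ (2 * (k + 1)) = 0 from zero_pow (by omega), ev_const, zero_mul]
    positivity, by simpa [tilt_zero, l1_zero] using hτ⟩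

theorem Dens.smul (h : Dens k P γ τ X) (r : ℝ) : Dens k P (|r| * γ) (|r| * τ) (r • X) := by
  obtain ⟨f, hf, hX⟩ := h
  refine ⟨fun z => r * f z, hf.smul r, ?_⟩
  rw [tilt_smul, ← smul_sub]
  exact (l1_smul _ _).trans (mul_le_mul_of_nonneg_left hX (abs_nonneg r))

theorem Dens.sum {ι : Type*} (hP : Pos P) (s : Finset ι) (X : ι → A) (γ τ : ι → ℝ)
    (hγ : ∀ i ∈ s, 0 < γ i) (h : ∀ i ∈ s, Dens k P (γ i) (τ i) (X i)) :
    Dens k P (∑ i ∈ s, γ i) (∑ i ∈ s, τ i) (∑ i ∈ s, X i) := by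
  classical
  choose! f hf hX using h
  refine ⟨fun z => ∑ i ∈ s, f i z, Mom.sum hP s f γ hγ hf, ?_⟩
  rw [tilt_sum, ← Finset.sum_sub_distrib]
  exact (l1_sum _ _).trans (Finset.sum_le_sum hX)

theorem Dens.add (hP : Pos P) {Y : A} {σ η : ℝ} (hγ : 0 < γ) (hσ : 0 < σ)
    (hX : Dens k P γ τ X) (hY : Dens k P σ η Y) : Dens k P (γ + σ) (τ + η) (X + Y) := by
  obtain ⟨f, hf, hfX⟩ := hX
  obtain ⟨g, hg, hgY⟩ := hY
  refine ⟨fun z => f z + g z, hf.add hP hγ hσ hg, ?_⟩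
  rw [tilt_add, add_sub_add_comm]
  exact (l1_add _ _).trans (add_le_add hfX hgY)

theorem Dens.congr_l1 {Y : A} {η : ℝ} (h : Dens k P γ τ X) (hY : l1 (Y - X) ≤ η) :
    Dens k P γ (η + τ) Y := by
  obtain ⟨f, hf, hX⟩ := h
  refine ⟨f, hf, ?_⟩
  rw [← sub_add_sub_cancel Y X (tilt f P)]
  exact (l1_add _ _).trans (add_le_add hY hX)

theorem Dens.l1_le (hP : Pos P) (h1 : mass P = 1) (hγ : 0 ≤ γ) (h : Dens k P γ τ X) :
    l1 X ≤ γ + τ := by
  obtain ⟨f, hf, hX⟩ := h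
  have := l1_add (X - tilt f P) (tilt f P)
  rw [sub_add_cancel] at this
  linarith [l1_tilt_le hP h1 hγ hf]

/-- Densities multiply along concatenation; the right factor only enters through its norm. -/
theorem Dens.mul (hP : Pos P) (hP1 : mass P = 1) (hQ : Pos Q) {Y : A} {σ η : ℝ} (hγ : 0 ≤ γ)
    (hX : Dens k P γ τ X) (hY : Dens k Q σ η Y) :
    Dens k (P * Q) (γ * σ) (τ * l1 Y + γ * η) (X * Y) := by
  obtain ⟨f, hf, hfX⟩ := hX
  obtain ⟨g, hg, hgY⟩ := hY
  obtain ⟨h, hh, hmom⟩ := exists_push hP hQ fun u v => f u * g v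
  refine ⟨h, ?_, ?_⟩
  · refine (hmom k).trans ?_
    simp only [mul_pow]
    rw [ev2_mul]
    exact mul_le_mul hf hg (ev_nonneg hQ fun z => (even_two_mul _).pow_nonneg _)
      ((even_two_mul _).pow_nonneg _)
  · have e : tilt h (P * Q) = tilt f P * tilt g Q := by
      refine ext_ev fun φ => ?_
      rw [hh, ev_mul, ev_tilt]
      unfold ev2
      refine ev_congr_on fun u _ => ?_
      rw [ev_tilt, ← ev_smul_test]
      refine ev_congr_on fun v _ => ?_
      ring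
    rw [e, show X * Y - tilt f P * tilt g Q
      = (X - tilt f P) * Y + tilt f P * (Y - tilt g Q) by rw [sub_mul, mul_sub]; abel]
    refine (l1_add _ _).trans (add_le_add ((l1_mul _ _).trans ?_) ((l1_mul _ _).trans ?_))
    · exact mul_le_mul_of_nonneg_right hfX (l1_nonneg _)
    · exact mul_le_mul (l1_tilt_le hP hP1 hγ hf) hgY (l1_nonneg _) hγ

theorem Dens.to0 (hP : Pos P) (h1 : mass P = 1) (hγ : 0 < γ) (h : Dens k P γ τ X)
    (hX : mass X = 0) : Dens0 k P (2 * (γ + τ)) (2 * τ) X := by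
  obtain ⟨f, hf, hfX⟩ := h
  have hτ := (l1_nonneg _).trans hfX
  set c := ev f P with hc
  have hcle : |c| ≤ τ := by
    have e : c = -ev (fun _ => 1) (X - tilt f P) := by
      rw [map_sub, ev_tilt, show ev (fun _ => (1 : ℝ)) X = mass X from rfl, hX]; simp [hc]
    rw [e, abs_neg]
    calc |ev (fun _ => (1 : ℝ)) (X - tilt f P)| ≤ 1 * l1 (X - tilt f P) :=
          abs_ev_le fun _ => by simp
      _ ≤ τ := by rw [one_mul]; exact hfX
  refine ⟨fun z => f z + -c, ?_, ?_, ?_⟩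
  · rw [ev_congr_add, ev_const, h1]; ring
  · have hc' : Mom k P (fun _ => -c) (γ + τ) :=
      (mom_const h1 (-c)).mono (abs_nonneg _) (by rw [abs_neg]; linarith)
    exact (hf.add hP hγ (by linarith) hc').mono (by linarith) (by linarith)
  · rw [tilt_add, tilt_const, ← sub_sub]
    refine (l1_sub _ _).trans ?_
    have := l1_smul (-c) P
    rw [abs_neg, l1_eq_mass hP, h1, mul_one] at this
    linarith

theorem Dens0.toDens (h : Dens0 k P γ τ X) : Dens k P γ τ X := by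
  obtain ⟨f, -, hf, hX⟩ := h
  exact ⟨f, hf, hX⟩

/-- Jensen for a power and nonnegative values. -/
theorem sum_pow_le_nonneg {ι : Type*} (s : Finset ι) (w F : ι → ℝ) (hw : ∀ i ∈ s, 0 ≤ w i)
    (hF : ∀ i ∈ s, 0 ≤ F i) (k : ℕ) : (∑ i ∈ s, w i * F i) ^ (k + 1)
      ≤ (∑ i ∈ s, w i) ^ k * ∑ i ∈ s, w i * F i ^ (k + 1) := by
  rcases (Finset.sum_nonneg hw).eq_or_lt with h | h
  · have hz : ∀ i ∈ s, w i = 0 := (Finset.sum_eq_zero_iff_of_nonneg hw).1 h.symm
    rw [Finset.sum_eq_zero fun i hi => by simp [hz i hi],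
      zero_pow (by omega)]
    exact mul_nonneg (pow_nonneg (Finset.sum_nonneg hw) _)
      (Finset.sum_nonneg fun i hi => mul_nonneg (hw i hi) (pow_nonneg (hF i hi) _))
  · set S := ∑ i ∈ s, w i with hS
    have := Real.pow_arith_mean_le_arith_mean_pow s (fun i => w i / S) F
      (fun i hi => div_nonneg (hw i hi) h.le) (by rw [← Finset.sum_div, div_self h.ne']) hF
      (k + 1)
    have e1 : (∑ i ∈ s, w i * F i) = S * ∑ i ∈ s, w i / S * F i := by
      rw [Finset.mul_sum]; refine Finset.sum_congr rfl fun i _ => ?_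
      field_simp
    have e2 : (∑ i ∈ s, w i / S * F i ^ (k + 1))
        = (∑ i ∈ s, w i * F i ^ (k + 1)) / S := by
      rw [Finset.sum_div]; exact Finset.sum_congr rfl fun i _ => by ring
    rw [e1, mul_pow]
    refine (mul_le_mul_of_nonneg_left this (by positivity)).trans_eq ?_
    rw [e2, pow_succ]
    field_simp

/-- Moments of the square function of finitely many functions. -/
theorem mom_sumsq {ι : Type*} (hP : Pos P) (s : Finset ι) (g : ι → W → ℝ) (σ : ι → ℝ)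
    (hσ : ∀ i ∈ s, 0 < σ i) (h : ∀ i ∈ s, Mom k P (g i) (σ i)) :
    ev (fun z => (∑ i ∈ s, g i z ^ 2) ^ (k + 1)) P ≤ (∑ i ∈ s, σ i ^ 2) ^ (k + 1) := by
  set S := ∑ i ∈ s, σ i ^ 2 with hS
  have hS0 : 0 ≤ S := Finset.sum_nonneg fun i _ => sq_nonneg _
  have key : ∀ z, (∑ i ∈ s, g i z ^ 2) ^ (k + 1) ≤
      S ^ k * ∑ i ∈ s, σ i ^ 2 * (g i z ^ 2 / σ i ^ 2) ^ (k + 1) := by
    intro z
    have hz := sum_pow_le_nonneg s (fun i => σ i ^ 2) (fun i => g i z ^ 2 / σ i ^ 2)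
      (fun i _ => sq_nonneg _) (fun i _ => by positivity) k
    rwa [Finset.sum_congr rfl fun i hi =>
      mul_div_cancel₀ (g i z ^ 2) (pow_ne_zero 2 (hσ i hi).ne')] at hz
  calc ev (fun z => (∑ i ∈ s, g i z ^ 2) ^ (k + 1)) P
      ≤ S ^ k * ∑ i ∈ s, σ i ^ 2 / (σ i ^ 2) ^ (k + 1) *
          ev (fun z => g i z ^ (2 * (k + 1))) P := by
        refine (ev_mono hP key).trans (le_of_eq ?_)
        rw [ev_smul_test, ev_sum_test]
        congr 1
        refine Finset.sum_congr rfl fun i _ => ?_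
        rw [← ev_smul_test]
        refine ev_congr_on fun z _ => ?_
        rw [div_pow, pow_two_mul_eq]; ring
    _ ≤ S ^ k * ∑ i ∈ s, σ i ^ 2 := by
        refine mul_le_mul_of_nonneg_left (Finset.sum_le_sum fun i hi => ?_) (pow_nonneg hS0 _)
        have hg := hσ i hi
        refine (mul_le_mul_of_nonneg_left (h i hi) (by positivity)).trans_eq ?_
        rw [pow_two_mul_eq]
        field_simp
    _ = S ^ (k + 1) := by rw [← hS, ← pow_succ]

/-- The constant of the orthogonality inequality. -/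
def orc (k : ℕ) : ℝ := 3 * 16 ^ (k + 1)

theorem one_le_orc (k : ℕ) : 1 ≤ orc k := by
  unfold orc
  have : (1 : ℝ) ≤ 16 ^ (k + 1) := one_le_pow₀ (by norm_num)
  linarith

theorem rem_small (a b : ℝ) (h : |b| ≤ |a|) : ∀ n : ℕ,
    |(a + b) ^ (n + 2) - a ^ (n + 2) - ((n : ℝ) + 2) * a ^ (n + 1) * b|
      ≤ 4 ^ (n + 2) * (|a| ^ n * b ^ 2)
  | 0 => by
    have : (a + b) ^ (0 + 2) - a ^ (0 + 2) - (((0 : ℕ) : ℝ) + 2) * a ^ (0 + 1) * b = b ^ 2 := by
      push_cast; ring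
    rw [this, abs_of_nonneg (sq_nonneg b), pow_zero]
    norm_num
    nlinarith [sq_nonneg b]
  | n + 1 => by
    have ih := rem_small a b h n
    have e : (a + b) ^ (n + 1 + 2) - a ^ (n + 1 + 2) - (((n + 1 : ℕ) : ℝ) + 2) * a ^ (n + 1 + 1) * b
        = (a + b) * ((a + b) ^ (n + 2) - a ^ (n + 2) - ((n : ℝ) + 2) * a ^ (n + 1) * b)
          + ((n : ℝ) + 2) * (a ^ (n + 1) * b ^ 2) := by
      push_cast; ring
    rw [e]
    refine (abs_add_le _ _).trans ?_
    rw [abs_mul, abs_mul, abs_mul, abs_pow, abs_pow b 2, sq_abs b,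
      abs_of_nonneg (by positivity : (0 : ℝ) ≤ (n : ℝ) + 2)]
    have h2 : |a + b| ≤ 2 * |a| := (abs_add_le a b).trans (by linarith)
    have h3 : ((n : ℝ) + 2) ≤ 2 * 4 ^ (n + 2) := by
      have h4 : ((n + 2 : ℕ) : ℝ) ≤ ((4 ^ (n + 2) : ℕ) : ℝ) :=
        Nat.cast_le.2 (Nat.lt_pow_self (by norm_num)).le
      push_cast at h4
      have : (0 : ℝ) ≤ 4 ^ (n + 2) := by positivity
      linarith
    calc _ ≤ 2 * |a| * (4 ^ (n + 2) * (|a| ^ n * b ^ 2))
          + 2 * 4 ^ (n + 2) * (|a| ^ (n + 1) * b ^ 2) := by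
          refine add_le_add (mul_le_mul h2 ih (abs_nonneg _) (by positivity)) ?_
          exact mul_le_mul_of_nonneg_right h3 (by positivity)
      _ = _ := by ring

theorem pow_add_le (a b : ℝ) (k : ℕ) : (a + b) ^ (2 * (k + 1)) ≤ a ^ (2 * (k + 1))
    + 2 * ((k : ℝ) + 1) * a ^ (2 * k + 1) * b
    + 16 ^ (k + 1) * (a ^ (2 * k) * b ^ 2 + b ^ (2 * (k + 1))) := by
  have key : |(a + b) ^ (2 * (k + 1)) - a ^ (2 * (k + 1)) - 2 * ((k : ℝ) + 1) * a ^ (2 * k + 1) * b|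
      ≤ 4 ^ (2 * (k + 1)) * (a ^ (2 * k) * b ^ 2 + b ^ (2 * (k + 1))) := by
    rcases le_total |b| |a| with h | h
    · have := rem_small a b h (2 * k)
      rw [(even_two_mul k).pow_abs, show 2 * k + 2 = 2 * (k + 1) by ring,
        show ((2 * k : ℕ) : ℝ) + 2 = 2 * ((k : ℝ) + 1) by push_cast; ring] at this
      refine this.trans (mul_le_mul_of_nonneg_left ?_ (by positivity))
      exact le_add_of_nonneg_right ((even_two_mul _).pow_nonneg _)
    · have hp : ∀ j : ℕ, |a| ^ j ≤ |b| ^ j := fun j => pow_le_pow_left₀ (abs_nonneg a) h j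
      have h0 : 0 ≤ a ^ (2 * k) * b ^ 2 :=
        mul_nonneg ((even_two_mul _).pow_nonneg _) (sq_nonneg _)
      have hb : |b| ^ (2 * (k + 1)) = b ^ (2 * (k + 1)) := (even_two_mul _).pow_abs b
      have hbn : 0 ≤ b ^ (2 * (k + 1)) := (even_two_mul _).pow_nonneg _
      have h2 : |a + b| ^ (2 * (k + 1)) ≤ 2 ^ (2 * (k + 1)) * b ^ (2 * (k + 1)) := by
        rw [← hb, ← mul_pow]
        exact pow_le_pow_left₀ (abs_nonneg _) ((abs_add_le a b).trans (by linarith)) _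
      have h3 : |2 * ((k : ℝ) + 1) * a ^ (2 * k + 1) * b|
          ≤ 2 * ((k : ℝ) + 1) * b ^ (2 * (k + 1)) := by
        rw [abs_mul, abs_mul, abs_pow, abs_of_nonneg (by positivity : (0 : ℝ) ≤ 2 * ((k : ℝ) + 1)),
          ← hb, show 2 * (k + 1) = 2 * k + 1 + 1 by ring, pow_succ |b|, mul_assoc]
        gcongr
      have h4 : (2 : ℝ) ^ (2 * (k + 1)) + 1 + 2 * ((k : ℝ) + 1) ≤ 4 ^ (2 * (k + 1)) := by
        have e1 : ((2 * (k + 1) : ℕ) : ℝ) + 1 ≤ ((2 ^ (2 * (k + 1)) : ℕ) : ℝ) := by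
          exact_mod_cast Nat.lt_pow_self (by norm_num)
        push_cast at e1
        have e2 : (4 : ℝ) ^ (2 * (k + 1)) = 2 ^ (2 * (k + 1)) * 2 ^ (2 * (k + 1)) := by
          rw [← mul_pow]; norm_num
        have e3 : (2 : ℝ) ≤ 2 ^ (2 * (k + 1)) := le_self_pow₀ (by norm_num) (by omega)
        nlinarith
      refine (abs_sub _ _).trans ?_
      refine (add_le_add (abs_sub _ _) le_rfl).trans ?_
      rw [abs_pow, abs_pow a, (even_two_mul (k + 1)).pow_abs a]
      have ha : a ^ (2 * (k + 1)) ≤ b ^ (2 * (k + 1)) := by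
        rw [← (even_two_mul (k + 1)).pow_abs a, ← hb]; exact hp _
      calc _ ≤ (2 ^ (2 * (k + 1)) + 1 + 2 * ((k : ℝ) + 1)) * b ^ (2 * (k + 1)) := by linarith
        _ ≤ _ := mul_le_mul h4 (by linarith) hbn (by positivity)
  have h16 : (4 : ℝ) ^ (2 * (k + 1)) = 16 ^ (k + 1) := by rw [pow_mul]; norm_num
  rw [h16] at key
  linarith [le_abs_self ((a + b) ^ (2 * (k + 1)) - a ^ (2 * (k + 1))
    - 2 * ((k : ℝ) + 1) * a ^ (2 * k + 1) * b)]

theorem young {x y : ℝ} (hx : 0 ≤ x) (hy : 0 ≤ y) (k : ℕ) :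
    x ^ k * y ≤ x ^ (k + 1) + y ^ (k + 1) := by
  rcases le_total x y with h | h
  · calc x ^ k * y ≤ y ^ k * y := mul_le_mul_of_nonneg_right (pow_le_pow_left₀ hx h k) hy
      _ = y ^ (k + 1) := (pow_succ _ _).symm
      _ ≤ _ := le_add_of_nonneg_left (pow_nonneg hx _)
  · calc x ^ k * y ≤ x ^ k * x := mul_le_mul_of_nonneg_left h (pow_nonneg hx k)
      _ = x ^ (k + 1) := (pow_succ _ _).symm
      _ ≤ _ := le_add_of_nonneg_right (pow_nonneg hy _)

/-- Adding a term of conditional mean zero adds the squared norms, up to a constant. -/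
theorem ev2_add_le (hP : Pos P) (hQ : Pos Q) (hQ1 : mass Q = 1) (f : W → ℝ) (G : W → W → ℝ)
    {U Y : ℝ} (hU : 0 ≤ U) (hY : 0 < Y) (hG0 : ∀ u, ev (G u) Q = 0)
    (hf : ev (fun u => f u ^ (2 * (k + 1))) P ≤ U ^ (k + 1))
    (hG : ev2 (fun u v => G u v ^ (2 * (k + 1))) P Q ≤ Y ^ (k + 1)) :
    ev2 (fun u v => (f u + G u v) ^ (2 * (k + 1))) P Q ≤ (U + orc k * Y) ^ (k + 1) := by
  set B : ℝ := 16 ^ (k + 1) with hB
  have hB1 : 1 ≤ B := one_le_pow₀ (by norm_num)
  set U' := U + Y with hU'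
  have hU'0 : 0 < U' := by linarith
  have hpt : ∀ u v, (f u + G u v) ^ (2 * (k + 1)) ≤
      f u ^ (2 * (k + 1)) * 1 + 2 * ((k : ℝ) + 1) * f u ^ (2 * k + 1) * G u v
      + (B * (U' ^ k * Y / U' ^ (k + 1)) * f u ^ (2 * (k + 1))
        + B * (U' ^ k * Y / Y ^ (k + 1) + 1) * G u v ^ (2 * (k + 1))) := by
    intro u v
    refine (pow_add_le _ _ k).trans ?_
    rw [mul_one, ← hB]
    refine add_le_add le_rfl ?_
    have hy := young (div_nonneg (sq_nonneg (f u)) hU'0.le) (div_nonneg (sq_nonneg (G u v)) hY.le) k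
    have e : f u ^ (2 * k) * G u v ^ 2
        = U' ^ k * Y * ((f u ^ 2 / U') ^ k * (G u v ^ 2 / Y)) := by
      rw [pow_mul, div_pow (f u ^ 2)]; field_simp
    rw [e]
    calc B * (U' ^ k * Y * ((f u ^ 2 / U') ^ k * (G u v ^ 2 / Y)) + G u v ^ (2 * (k + 1)))
        ≤ B * (U' ^ k * Y * ((f u ^ 2 / U') ^ (k + 1) + (G u v ^ 2 / Y) ^ (k + 1))
            + G u v ^ (2 * (k + 1))) := by
          gcongr
      _ = _ := by simp only [div_pow, pow_two_mul_eq]; ring
  refine (ev2_mono hP hQ hpt).trans ?_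
  have hexp : ev2 (fun u v => f u ^ (2 * (k + 1)) * 1
      + 2 * ((k : ℝ) + 1) * f u ^ (2 * k + 1) * G u v
      + (B * (U' ^ k * Y / U' ^ (k + 1)) * f u ^ (2 * (k + 1))
        + B * (U' ^ k * Y / Y ^ (k + 1) + 1) * G u v ^ (2 * (k + 1)))) P Q
      = (1 + B * (U' ^ k * Y / U' ^ (k + 1))) * ev (fun u => f u ^ (2 * (k + 1))) P
        + B * (U' ^ k * Y / Y ^ (k + 1) + 1) * ev2 (fun u v => G u v ^ (2 * (k + 1))) P Q := by
    unfold ev2
    simp only [ev_congr_add, ev_smul_test, ev_const, hQ1, hG0, mul_one, mul_zero]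
    ring
  rw [hexp]
  have hdiv : U ^ (k + 1) ≤ U' ^ (k + 1) := pow_le_pow_left₀ hU (by linarith) _
  have hc : 0 ≤ B * (U' ^ k * Y / U' ^ (k + 1)) := by positivity
  calc _ ≤ (1 + B * (U' ^ k * Y / U' ^ (k + 1))) * U ^ (k + 1)
        + B * (U' ^ k * Y / Y ^ (k + 1) + 1) * Y ^ (k + 1) :=
        add_le_add (mul_le_mul_of_nonneg_left hf (by linarith))
          (mul_le_mul_of_nonneg_left hG (by positivity))
    _ ≤ U ^ (k + 1) + B * (U' ^ k * Y) + (B * (U' ^ k * Y) + B * Y ^ (k + 1)) := by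
        refine add_le_add ?_ (le_of_eq ?_)
        · rw [add_mul, one_mul]
          refine add_le_add le_rfl ?_
          calc B * (U' ^ k * Y / U' ^ (k + 1)) * U ^ (k + 1)
              ≤ B * (U' ^ k * Y / U' ^ (k + 1)) * U' ^ (k + 1) :=
                mul_le_mul_of_nonneg_left hdiv hc
            _ = _ := by field_simp
        · field_simp
    _ ≤ U ^ (k + 1) + orc k * (U' ^ k * Y) := by
        have : Y ^ (k + 1) ≤ U' ^ k * Y := by
          rw [pow_succ]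
          exact mul_le_mul_of_nonneg_right (pow_le_pow_left₀ hY.le (by linarith) k) hY.le
        have : B * Y ^ (k + 1) ≤ B * (U' ^ k * Y) :=
          mul_le_mul_of_nonneg_left this (by linarith)
        unfold orc
        rw [← hB]
        linarith
    _ ≤ _ := by
        have hc1 := one_le_orc k
        set T := U + orc k * Y with hT
        have h1 : U' ≤ T := by rw [hU', hT]; nlinarith
        have h2 : U ^ k ≤ T ^ k := pow_le_pow_left₀ hU (by linarith) k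
        have h3 : U' ^ k ≤ T ^ k := pow_le_pow_left₀ hU'0.le h1 k
        calc U ^ (k + 1) + orc k * (U' ^ k * Y) ≤ T ^ k * U + orc k * (T ^ k * Y) := by
              rw [pow_succ]; gcongr
          _ = T ^ (k + 1) := by rw [hT]; ring

end Vale.Agent.P321
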