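import Mathlib
import Vale.Agent.P321.Algebra
import Vale.Agent.P321.Binomial
import Vale.Agent.P321.DipoleBound

/-!
Smoothing: powers of a law change little when the exponent changes by one.
-/

open scoped BigOperators
open Finset fwdDiff

noncomputable section

namespace Vale.Agent.P321

/-- The powers of `α` move by at most `√(S/a)` in `ℓ¹` when `a` grows by one. -/
def Sm (α : A) (S : ℝ) : Prop := ∀ a : ℕ, 1 ≤ a → l1 (α ^ a * (α - 1)) ≤ Real.sqrt (S / a)

/-- Coefficients of the averaged finite difference identity. -/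
def cb (m i : ℕ) : ℝ := (-1) ^ i * (m.choose (i + 1) : ℝ)

theorem abs_cb_le (m i : ℕ) : |cb m i| ≤ 2 ^ m := by
  rw [cb, abs_mul, abs_pow, abs_neg, abs_one, one_pow, one_mul, Nat.abs_cast]
  exact_mod_cast Nat.choose_le_two_pow m (i + 1)

theorem mass_pow_one {α : A} (h1 : mass α = 1) (n : ℕ) : mass (α ^ n) = 1 := by
  rw [mass_pow, h1, one_pow]

theorem l1_pow {α : A} (hα : Pos α) (h1 : mass α = 1) (n : ℕ) : l1 (α ^ n) = 1 := by
  rw [l1_eq_mass (hα.pow n), mass_pow_one h1]

theorem l1_mul_pow_le {α : A} (hα : Pos α) (h1 : mass α = 1) (X : A) (n : ℕ) :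
    l1 (X * α ^ n) ≤ l1 X := by
  simpa [l1_pow hα h1] using l1_mul X (α ^ n)

theorem l1_pow_mul_le {α : A} (hα : Pos α) (h1 : mass α = 1) (X : A) (n : ℕ) :
    l1 (α ^ n * X) ≤ l1 X := by
  simpa [l1_pow hα h1] using l1_mul (α ^ n) X

variable {α : A} {S : ℝ}

theorem Sm.mono {S' : ℝ} (h : Sm α S) (hle : S ≤ S') : Sm α S' := fun a ha =>
  (h a ha).trans (Real.sqrt_le_sqrt (by gcongr))

theorem Sm.shift (h : Sm α S) (hα : Pos α) (h1 : mass α = 1) {a : ℕ} (ha : 1 ≤ a) :
    ∀ u : ℕ, l1 (α ^ (a + u) - α ^ a) ≤ u * Real.sqrt (S / a)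
  | 0 => by simp [l1_zero]
  | u + 1 => by
    have e : α ^ (a + (u + 1)) - α ^ a
        = (α ^ (a + u) - α ^ a) + α ^ u * (α ^ a * (α - 1)) := by
      rw [mul_sub, mul_one, mul_sub, ← pow_succ, ← pow_add, ← pow_add,
        show u + (a + 1) = a + (u + 1) by ring, show u + a = a + u by ring]
      abel
    rw [e]
    refine (l1_add _ _).trans ?_
    push_cast
    linarith [h.shift hα h1 ha u, (l1_pow_mul_le hα h1 (α ^ a * (α - 1)) u).trans (h a ha)]

theorem Sm.sandwich (h : Sm α S) (hα : Pos α) (h1 : mass α = 1) {a : ℕ} (ha : 1 ≤ a) (u : ℕ)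
    (U : A) : l1 (α ^ (a + u) * U * α ^ a - α ^ a * U * α ^ (a + u))
      ≤ 2 * u * Real.sqrt (S / a) * l1 U := by
  have e : α ^ (a + u) * U * α ^ a - α ^ a * U * α ^ (a + u)
      = (α ^ (a + u) - α ^ a) * U * α ^ a - α ^ a * U * (α ^ (a + u) - α ^ a) := by noncomm_ring
  rw [e]
  have hs := h.shift hα h1 ha u
  have hU := l1_nonneg U
  have A1 : l1 ((α ^ (a + u) - α ^ a) * U * α ^ a) ≤ u * Real.sqrt (S / a) * l1 U :=
    ((l1_mul_pow_le hα h1 _ a).trans (l1_mul _ _)).trans (mul_le_mul_of_nonneg_right hs hU)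
  have A2 : l1 (α ^ a * U * (α ^ (a + u) - α ^ a)) ≤ u * Real.sqrt (S / a) * l1 U := by
    refine ((l1_mul _ _).trans (mul_le_mul (l1_pow_mul_le hα h1 U a) hs (l1_nonneg _) hU)).trans ?_
    rw [mul_comm]
  linarith [l1_sub ((α ^ (a + u) - α ^ a) * U * α ^ a) (α ^ a * U * (α ^ (a + u) - α ^ a))]

theorem pow_split (α : A) {a b c : ℕ} (h : a = b + c) : α ^ a = α ^ b * α ^ c := by
  rw [h, pow_add]

theorem Sm.fd (h : Sm α S) (hα : Pos α) (h1 : mass α = 1) {a : ℕ} (ha : 1 ≤ a) (u : ℕ) :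
    ∀ (j : ℕ) (x y : ℕ) (U : A), j * a ≤ x → j * a + j * u ≤ y →
      l1 (((Δ_[u])^[j] fun r => α ^ (x + r) * U * α ^ (y - r)) 0)
        ≤ (2 * u * Real.sqrt (S / a)) ^ j * l1 U
  | 0, x, y, U, _, _ => by
    simpa using (l1_mul_pow_le hα h1 _ _).trans (l1_pow_mul_le hα h1 U _)
  | j + 1, x, y, U, hx, hy => by
    have hx' : j * a + a ≤ x := by rw [← Nat.succ_mul]; exact hx
    have hy' : j * a + a + (j * u + u) ≤ y := by rw [← Nat.succ_mul, ← Nat.succ_mul]; exact hy
    set U' := α ^ (a + u) * U * α ^ a - α ^ a * U * α ^ (a + u) with hU'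
    have ih := h.fd hα h1 ha u j (x - a) (y - a - u) U' (by omega) (by omega)
    have hagree : ((Δ_[u])^[j] (Δ_[u] fun r => α ^ (x + r) * U * α ^ (y - r))) 0
        = ((Δ_[u])^[j] fun r => α ^ (x - a + r) * U' * α ^ (y - a - u - r)) 0 := by
      rw [fwdDiff_iter_eq_sum_shift, fwdDiff_iter_eq_sum_shift]
      refine Finset.sum_congr rfl fun i hi => ?_
      have hi' : i ≤ j := by simp at hi; omega
      congr 1
      have hiu : i * u ≤ j * u := Nat.mul_le_mul_right u hi'
      simp only [fwdDiff, zero_add, smul_eq_mul]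
      rw [hU', mul_sub, sub_mul,
        pow_split α (show x + (i * u + u) = (x - a + i * u) + (a + u) by omega),
        pow_split α (show y - (i * u + u) = a + (y - a - u - i * u) by omega),
        pow_split α (show x + i * u = (x - a + i * u) + a by omega),
        pow_split α (show y - i * u = (a + u) + (y - a - u - i * u) by omega)]
      simp only [mul_assoc]
    rw [Function.iterate_succ_apply, hagree, pow_succ]
    refine ih.trans ?_
    refine (mul_le_mul_of_nonneg_left (h.sandwich hα h1 ha u U)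
      (pow_nonneg (mul_nonneg (mul_nonneg zero_le_two (Nat.cast_nonneg u)) (Real.sqrt_nonneg (S / a))) j)).trans_eq ?_
    ring

/-- A translate is an average of translates, up to a remainder of high order. -/
theorem Sm.average (h : Sm α S) (hα : Pos α) (h1 : mass α = 1) {a : ℕ} (ha : 1 ≤ a)
    {m w : ℕ} (hw : 1 ≤ w) {x y : ℕ} (hx : m * a ≤ x) (hy : m * a + m * w ≤ y) (U : A) :
    l1 (α ^ x * U * α ^ y - ∑ i ∈ range m, (cb m i / w) •
        ∑ v ∈ range w, α ^ (x + (i + 1) * (v + 1)) * U * α ^ (y - (i + 1) * (v + 1)))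
      ≤ (2 * w * Real.sqrt (S / a)) ^ m * l1 U := by
  set T : ℕ → A := fun r => α ^ (x + r) * U * α ^ (y - r) with hT
  have hone : ∀ v < w, l1 (T 0 - ∑ i ∈ range m, cb m i • T ((i + 1) * (v + 1)))
      ≤ (2 * w * Real.sqrt (S / a)) ^ m * l1 U := by
    intro v hv
    have hmv : m * (v + 1) ≤ m * w := Nat.mul_le_mul_left m hv
    have hb := h.fd hα h1 ha (v + 1) m x y U hx (by omega)
    have e : T 0 - ∑ i ∈ range m, cb m i • T ((i + 1) * (v + 1))
        = ((-1 : ℝ) ^ m) • ((Δ_[v + 1])^[m] T) 0 := by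
      rw [fwdDiff_iter_eq_sum_shift, Finset.smul_sum, Finset.sum_range_succ', sub_eq_add_neg,
        ← Finset.sum_neg_distrib, add_comm]
      congr 1
      · refine Finset.sum_congr rfl fun i hi => ?_
        have hi' : i + 1 ≤ m := by simp at hi; omega
        rw [← neg_smul, zero_add, smul_eq_mul, ← Int.cast_smul_eq_zsmul ℝ, smul_smul]
        congr 1
        push_cast
        rw [cb, ← mul_assoc]
        congr 1
        obtain ⟨c, hc⟩ := Nat.exists_eq_add_of_le hi'
        rw [hc, show i + 1 + c - (i + 1) = c by omega, ← pow_add,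
          show i + 1 + c + c = i + 1 + 2 * c by ring, pow_add, pow_mul]
        simp [pow_succ]
      · rw [zero_smul, add_zero, Nat.choose_zero_right, Nat.sub_zero, ← Int.cast_smul_eq_zsmul ℝ,
          smul_smul]
        push_cast
        rw [mul_one, ← mul_pow]
        simp
    rw [e]
    refine (l1_smul _ _).trans ?_
    rw [abs_pow, abs_neg, abs_one, one_pow, one_mul]
    refine hb.trans (mul_le_mul_of_nonneg_right (pow_le_pow_left₀ (by positivity) ?_ m) (l1_nonneg _))
    have : ((v + 1 : ℕ) : ℝ) ≤ w := by exact_mod_cast hv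
    gcongr
  have hw' : (0 : ℝ) < w := by exact_mod_cast hw
  have e : α ^ x * U * α ^ y - ∑ i ∈ range m, (cb m i / w) • ∑ v ∈ range w,
        α ^ (x + (i + 1) * (v + 1)) * U * α ^ (y - (i + 1) * (v + 1))
      = (1 / (w : ℝ)) • ∑ v ∈ range w, (T 0 - ∑ i ∈ range m, cb m i • T ((i + 1) * (v + 1))) := by
    have e0 : T 0 = α ^ x * U * α ^ y := by simp only [hT, add_zero, Nat.sub_zero]
    have e1 : ∀ i v, α ^ (x + (i + 1) * (v + 1)) * U * α ^ (y - (i + 1) * (v + 1))
        = T ((i + 1) * (v + 1)) := fun i v => rfl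
    simp only [e1, ← e0]
    clear_value T
    clear e1 e0 hone hT
    rw [Finset.sum_sub_distrib, smul_sub (1 / (w : ℝ)), Finset.sum_const, Finset.card_range,
      ← Nat.cast_smul_eq_nsmul ℝ, smul_smul, one_div_mul_cancel hw'.ne', one_smul,
      Finset.sum_comm, Finset.smul_sum]
    refine congrArg (fun X : A => T 0 - X) (Finset.sum_congr rfl fun i _ => ?_)
    rw [← Finset.smul_sum, smul_smul, one_div_mul_eq_div]
  rw [e]
  refine (l1_smul _ _).trans ?_
  rw [abs_of_pos (by positivity : (0 : ℝ) < 1 / w)]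
  calc 1 / (w : ℝ) * l1 (∑ v ∈ range w, (T 0 - ∑ i ∈ range m, cb m i • T ((i + 1) * (v + 1))))
      ≤ 1 / (w : ℝ) * ∑ _v ∈ range w, (2 * w * Real.sqrt (S / a)) ^ m * l1 U := by
        refine mul_le_mul_of_nonneg_left ((l1_sum _ _).trans ?_) (by positivity)
        exact Finset.sum_le_sum fun v hv => hone v (Finset.mem_range.1 hv)
    _ = _ := by
        rw [Finset.sum_const, Finset.card_range, nsmul_eq_mul]
        field_simp

/-- Neighbouring binomial weights are close in `ℓ¹`. -/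
theorem sum_abs_bp_sub {w : ℝ} (h0 : 0 < w) (h1 : w < 1) (n : ℕ) :
    ∑ i ∈ range (n + 2), |bs w n i - bp w n i| ≤ 1 / Real.sqrt ((n + 1) * (w * (1 - w))) := by
  set c := ((n : ℝ) + 1) * (w * (1 - w)) with hc
  have hc0 : 0 < c := by
    have : 0 < 1 - w := by linarith
    positivity
  have e : ∀ i, |bs w n i - bp w n i| * c
      = bp w (n + 1) i * |(i : ℝ) - (n + 1 : ℕ) * w| := by
    intro i
    rw [← abs_of_pos hc0, ← abs_mul, ← abs_of_nonneg (bp_nonneg w h0.le h1.le (n + 1) i), ← abs_mul]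
    congr 1
    have a1 := bp_succ_mul w n i
    have a2 := bp_succ_mul_sub w n i
    rw [hc]; push_cast
    linear_combination (-(1 - w)) * a1 + w * a2
  have hm := (bp_moments w (n + 1) (n + 2) (by omega)).2.1
  have hs : ∑ i ∈ range (n + 2), |bs w n i - bp w n i| * c ≤ Real.sqrt c := by
    refine Real.le_sqrt_of_sq_le ?_
    rw [Finset.sum_congr rfl fun i _ => e i]
    have hb : ∀ i, 0 ≤ bp w (n + 1) i := bp_nonneg w h0.le h1.le (n + 1)
    calc (∑ i ∈ range (n + 2), bp w (n + 1) i * |(i : ℝ) - (n + 1 : ℕ) * w|) ^ 2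
        ≤ (∑ i ∈ range (n + 2), bp w (n + 1) i) *
            ∑ i ∈ range (n + 2), bp w (n + 1) i * ((i : ℝ) - (n + 1 : ℕ) * w) ^ 2 := by
          refine Finset.sum_sq_le_sum_mul_sum_of_sq_le_mul _ (fun i _ => hb i)
            (fun i _ => mul_nonneg (hb i) (sq_nonneg _)) fun i _ => le_of_eq ?_
          rw [mul_pow, sq_abs]; ring
      _ = c := by rw [sum_bp w (n + 1) (n + 2) (by omega), hm, hc]; push_cast; ring
  rw [← Finset.sum_mul] at hs
  rw [le_div_iff₀ (Real.sqrt_pos.2 hc0)]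
  nlinarith [Real.mul_self_sqrt hc0.le, Real.sqrt_pos.2 hc0,
    Finset.sum_nonneg (fun i (_ : i ∈ range (n + 2)) => abs_nonneg (bs w n i - bp w n i))]

theorem lazy_bound {T : A} (hT : Pos T) (h1 : mass T = 1) (j : ℕ) :
    l1 ((1 - T) * ((1 - (1 / 2 : ℝ)) • (1 : A) + (1 / 2 : ℝ) • T) ^ j)
      ≤ 2 / Real.sqrt (j + 1) := by
  set h : ℝ := 1 / 2 with hh
  have e : (1 - T) * ((1 - h) • (1 : A) + h • T) ^ j
      = ∑ i ∈ range (j + 2), (bp h j i - bs h j i) • T ^ i := by
    rw [sub_mul (1 : A) T, one_mul,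
      Finset.sum_congr rfl (fun i (_ : i ∈ range (j + 2)) => sub_smul (bp h j i) (bs h j i) (T ^ i)),
      Finset.sum_sub_distrib]
    congr 1
    · rw [slot_pow h T j (j + 2) (by omega)]
    · rw [slot_pow h T j (j + 1) (by omega), Finset.sum_range_succ' (n := j + 1), mul_sum]
      simp [bs, pow_succ']
  rw [e]
  refine (l1_sum _ _).trans ?_
  calc ∑ i ∈ range (j + 2), l1 ((bp h j i - bs h j i) • T ^ i)
      ≤ ∑ i ∈ range (j + 2), |bs h j i - bp h j i| := by
        refine Finset.sum_le_sum fun i _ => (l1_smul _ _).trans ?_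
        rw [l1_pow hT h1, mul_one, abs_sub_comm]
    _ ≤ 1 / Real.sqrt ((j + 1) * (h * (1 - h))) :=
        sum_abs_bp_sub (by norm_num [hh]) (by norm_num [hh]) j
    _ = _ := by
        rw [show ((j : ℝ) + 1) * (h * (1 - h)) = (j + 1) / 2 ^ 2 by rw [hh]; ring,
          Real.sqrt_div (by positivity), Real.sqrt_sq (by norm_num)]
        field_simp

theorem sum_bp_inv_sqrt {θ : ℝ} (h0 : 0 < θ) (h1 : θ ≤ 1) (u M : ℕ) :
    ∑ i ∈ range M, bp θ u i / Real.sqrt (i + 1) ≤ 1 / Real.sqrt ((u + 1) * θ) := by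
  have hb := bp_nonneg θ h0.le h1 u
  have hc : 0 < ((u : ℝ) + 1) * θ := by positivity
  have hsq : (∑ i ∈ range M, bp θ u i / Real.sqrt (i + 1)) ^ 2
      ≤ (∑ i ∈ range M, bp θ u i) * ∑ i ∈ range M, bp θ u i / ((i : ℝ) + 1) := by
    refine Finset.sum_sq_le_sum_mul_sum_of_sq_le_mul _ (fun i _ => hb i)
      (fun i _ => by have := hb i; positivity) fun i _ => le_of_eq ?_
    rw [div_pow, Real.sq_sqrt (by positivity)]; ring
  have h2 : ∑ i ∈ range M, bp θ u i / ((i : ℝ) + 1) ≤ 1 / (((u : ℝ) + 1) * θ) := by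
    have e : ∀ i : ℕ, bp θ u i / ((i : ℝ) + 1) = bp θ (u + 1) (i + 1) / (((u : ℝ) + 1) * θ) := by
      intro i
      rw [div_eq_div_iff (by positivity) hc.ne']
      have := bp_mul_succ θ (u + 1) i
      rw [Nat.add_sub_cancel] at this
      push_cast at this
      linear_combination -this
    rw [Finset.sum_congr rfl fun i _ => e i, ← Finset.sum_div]
    gcongr
    calc ∑ i ∈ range M, bp θ (u + 1) (i + 1)
        ≤ ∑ i ∈ range (M + 1), bp θ (u + 1) i := by
          rw [Finset.sum_range_succ']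
          exact le_add_of_nonneg_right (bp_nonneg θ h0.le h1 _ _)
      _ ≤ 1 := sum_bp_le_one θ h0.le h1 _ _
  have h3 : (∑ i ∈ range M, bp θ u i / Real.sqrt (i + 1)) ^ 2 ≤ 1 / (((u : ℝ) + 1) * θ) := by
    refine hsq.trans ?_
    calc _ ≤ 1 * (1 / (((u : ℝ) + 1) * θ)) :=
          mul_le_mul (sum_bp_le_one θ h0.le h1 _ _) h2
            (Finset.sum_nonneg fun i _ => by have := hb i; positivity) zero_le_one
      _ = _ := one_mul _
  calc _ ≤ Real.sqrt (1 / (((u : ℝ) + 1) * θ)) := Real.le_sqrt_of_sq_le h3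
    _ = _ := by rw [Real.sqrt_div zero_le_one, Real.sqrt_one]

/-- If `T ^ s` and `T ^ (s + 1)` share a common part, the powers of `T` are smooth. -/
theorem foguel {T C : A} (hT : Pos T) (h1 : mass T = 1) (hC : Pos C) {θ : ℝ} (hθ : 0 < θ)
    (hmass : θ ≤ mass C) (s : ℕ) (hs0 : Pos (T ^ s - C)) (hs1 : Pos (T ^ (s + 1) - C)) :
    Sm T (4 * (s + 1) / θ) := by
  set c := mass C with hc
  have hc0 : 0 < c := hθ.trans_le hmass
  set L : A := (1 - (1 / 2 : ℝ)) • (1 : A) + (1 / 2 : ℝ) • T with hL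
  set R : A := T ^ (s + 1) - L * C with hR
  have hLp : Pos L := (Pos.one.smul (by norm_num)).add (hT.smul (by norm_num))
  have hL1 : mass L = 1 := by simp [hL, mass_one, h1]
  have hRp : Pos R := by
    have : R = (1 / 2 : ℝ) • (T ^ (s + 1) - C) + (1 / 2 : ℝ) • (T * (T ^ s - C)) := by
      rw [hR, hL, mul_sub, ← pow_succ', add_mul, smul_mul_assoc, smul_mul_assoc, one_mul]
      module
    rw [this]
    exact (hs1.smul (by norm_num)).add ((hT.mul hs0).smul (by norm_num))
  have hR1 : mass R = 1 - c := by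
    rw [hR, map_sub, mass_pow_one h1, mass_mul, hL1, one_mul, ← hc]
  have hc1 : c ≤ 1 := by
    have := ev_nonneg hRp (φ := fun _ => (1 : ℝ)) (fun _ => zero_le_one)
    change 0 ≤ mass R at this
    linarith
  have hcomm : Commute T L :=
    ((Commute.one_right T).smul_right _).add_right ((Commute.refl T).smul_right _)
  have key : ∀ u j : ℕ, ∀ Z : A, Pos Z →
      l1 ((1 - T) * L ^ j * T ^ (u * (s + 1)) * Z)
        ≤ (∑ i ∈ range (u + 1), bp c u i * (2 / Real.sqrt ((j + i : ℕ) + 1))) * mass Z := by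
    intro u
    induction u with
    | zero =>
      intro j Z hZ
      simp only [zero_mul, pow_zero, mul_one, zero_add, Finset.range_one, Finset.sum_singleton,
        bp, one_mul, add_zero]
      refine (l1_mul _ _).trans ?_
      rw [l1_eq_mass hZ]
      refine mul_le_mul_of_nonneg_right (lazy_bound hT h1 j) ?_
      rw [← l1_eq_mass hZ]; exact l1_nonneg _
    | succ u ih =>
      intro j Z hZ
      have e : (1 - T) * L ^ j * T ^ ((u + 1) * (s + 1)) * Z
          = (1 - T) * L ^ (j + 1) * T ^ (u * (s + 1)) * (C * Z)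
            + (1 - T) * L ^ j * T ^ (u * (s + 1)) * (R * Z) := by
        have hw : T ^ (u * (s + 1)) * L = L * T ^ (u * (s + 1)) := (hcomm.pow_left _).eq
        rw [Nat.succ_mul, pow_add T, show T ^ (s + 1) = L * C + R by rw [hR]; abel, pow_succ L]
        generalize hX : T ^ (u * (s + 1)) = X at hw ⊢
        simp only [mul_assoc, mul_add, add_mul]
        rw [← mul_assoc X L, hw]
        simp only [mul_assoc]
      rw [e]
      refine (l1_add _ _).trans ((add_le_add (ih (j + 1) _ (hC.mul hZ))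
        (ih j _ (hRp.mul hZ))).trans_eq ?_)
      rw [mass_mul, mass_mul, hR1, ← hc,
        sum_bp_succ c u (u + 1) fun i => 2 / Real.sqrt ((j + i : ℕ) + 1),
        Finset.sum_range_succ (n := u + 1) (f := fun i => bp c u i * _),
        bp_eq_zero c u (u + 1) (by omega)]
      simp only [show ∀ i, j + 1 + i = j + (i + 1) from fun i => by omega]
      ring
  intro a ha
  set u := a / (s + 1) with hu
  have hdm := Nat.div_add_mod a (s + 1)
  have e : T ^ a * (T - 1) = -((1 - T) * L ^ 0 * T ^ (u * (s + 1)) * T ^ (a % (s + 1))) := by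
    rw [pow_zero, mul_one, mul_assoc, ← pow_add, mul_comm u, hu, hdm, ← neg_mul, neg_sub]
    exact (((Commute.refl T).sub_right (Commute.one_right T)).pow_left a).eq
  rw [e, l1_neg]
  refine (key u 0 _ (hT.pow _)).trans ?_
  rw [mass_pow_one h1, mul_one]
  have h2 := sum_bp_inv_sqrt hc0 hc1 u (u + 1)
  calc ∑ i ∈ range (u + 1), bp c u i * (2 / Real.sqrt ((0 + i : ℕ) + 1))
      = 2 * ∑ i ∈ range (u + 1), bp c u i / Real.sqrt (i + 1) := by
        rw [Finset.mul_sum]
        refine Finset.sum_congr rfl fun i _ => ?_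
        rw [zero_add]; ring
    _ ≤ 2 * (1 / Real.sqrt ((u + 1) * c)) := by linarith
    _ = Real.sqrt (4 / ((u + 1) * c)) := by
        rw [Real.sqrt_div (by norm_num), show (4 : ℝ) = 2 ^ 2 by norm_num,
          Real.sqrt_sq (by norm_num)]
        ring
    _ ≤ _ := by
        refine Real.sqrt_le_sqrt ?_
        have hlt : a < (u + 1) * (s + 1) := by
          have := Nat.mod_lt a (show s + 1 > 0 by omega)
          rw [hu, Nat.succ_mul, mul_comm]; omega
        have hlt' : (a : ℝ) ≤ ((u : ℝ) + 1) * ((s : ℝ) + 1) := by exact_mod_cast hlt.le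
        have ha0 : (0 : ℝ) < a := by exact_mod_cast ha
        rw [div_div, div_le_div_iff₀ (by positivity) (by positivity)]
        nlinarith [mul_le_mul hlt' hmass hθ.le (by positivity)]

end Vale.Agent.P321
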