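import Mathlib
import Vale.Agent.P321.Algebra
import Vale.Agent.P321.Super.Moment
import Vale.Agent.P321.Super.Smooth

/-!
Orthogonality of translates of a perturbation, and averaging of translates.
-/

open scoped BigOperators
open Finset

noncomputable section

namespace Vale.Agent.P321

/-- Uniform moment bound for combinations of the translates of `z` inside a cell of `2ℓ` steps. -/
def Fam (k : ℕ) (α z : A) (ℓ : ℕ) (γ τ : ℝ) : Prop :=
  ∀ a : ℕ → ℝ, ∑ r ∈ range ℓ, a r ^ 2 ≤ 1 →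
    Dens k (α ^ (2 * ℓ)) γ τ (∑ r ∈ range ℓ, a r • (α ^ r * z * α ^ (ℓ - r)))

/-- The constant of `master`. -/
def cM (k : ℕ) : ℝ := 4 * Real.sqrt (orc k)

theorem cM_pos (k : ℕ) : 0 < cM k := by
  have := one_le_orc k
  unfold cM
  have : 0 < Real.sqrt (orc k) := Real.sqrt_pos.2 (by linarith)
  positivity

/-- The constant of `average_bound`. -/
def avc (k m : ℕ) : ℝ := m * 2 ^ m * cM k

variable {k : ℕ} {α z : A} {ℓ : ℕ} {γ τ : ℝ}

theorem Fam.apply (h : Fam k α z ℓ γ τ) (hα : Pos α) (h1 : mass α = 1) (hz : mass z = 0)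
    (hγ : 0 < γ) (b : ℕ → ℝ) :
    ∃ f : W → ℝ, ev f (α ^ (2 * ℓ)) = 0 ∧
      ev (fun u => f u ^ (2 * (k + 1))) (α ^ (2 * ℓ))
        ≤ ((2 * (γ + τ)) ^ 2 * ∑ r ∈ range ℓ, b r ^ 2) ^ (k + 1) ∧
      l1 (∑ r ∈ range ℓ, b r • (α ^ r * z * α ^ (ℓ - r)) - tilt f (α ^ (2 * ℓ)))
        ≤ 2 * τ * Real.sqrt (∑ r ∈ range ℓ, b r ^ 2) := by
  set B := ∑ r ∈ range ℓ, b r ^ 2 with hB
  have hB0 : 0 ≤ B := Finset.sum_nonneg fun r _ => sq_nonneg _
  rcases hB0.eq_or_lt with h0 | h0
  · refine ⟨fun _ => 0, by simp [ev_const], ?_, ?_⟩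
    · simp [← h0, ev_const]
    · have hz : ∀ r ∈ range ℓ, b r = 0 := fun r hr => by
        simpa using (Finset.sum_eq_zero_iff_of_nonneg fun r _ => sq_nonneg (b r)).1 h0.symm r hr
      rw [Finset.sum_eq_zero fun r hr => by rw [hz r hr, zero_smul], ← h0, tilt_zero]
      simp [l1_zero]
  · set s := Real.sqrt B with hs
    have hs0 : 0 < s := Real.sqrt_pos.2 h0
    have hss : s ^ 2 = B := Real.sq_sqrt hB0
    have hn : ∑ r ∈ range ℓ, (b r / s) ^ 2 ≤ 1 := by
      simp only [div_pow, ← Finset.sum_div, ← hB, hss]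
      rw [div_self h0.ne']
    have hm : mass (∑ r ∈ range ℓ, (b r / s) • (α ^ r * z * α ^ (ℓ - r))) = 0 := by
      simp [map_sum, mass_mul, hz]
    obtain ⟨f, hf0, hf, hfl⟩ := (h _ hn).to0 (hα.pow _) (mass_pow_one h1 _) hγ hm
    refine ⟨fun u => s * f u, by rw [ev_smul_test, hf0, mul_zero], ?_, ?_⟩
    · refine (hf.smul s).trans ?_
      rw [pow_two_mul_eq, abs_of_pos hs0, mul_pow, hss, mul_comm]
    · have e : ∑ r ∈ range ℓ, b r • (α ^ r * z * α ^ (ℓ - r))
          = s • ∑ r ∈ range ℓ, (b r / s) • (α ^ r * z * α ^ (ℓ - r)) := by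
        rw [Finset.smul_sum]
        refine Finset.sum_congr rfl fun r _ => ?_
        rw [smul_smul, mul_div_cancel₀ _ hs0.ne']
      rw [e, tilt_smul, ← smul_sub]
      refine (l1_smul _ _).trans ?_
      rw [abs_of_pos hs0, mul_comm]
      exact mul_le_mul_of_nonneg_right hfl hs0.le

theorem Fam.single (h : Fam k α z ℓ γ τ) {r : ℕ} (hr : r < ℓ) :
    Dens k (α ^ (2 * ℓ)) γ τ (α ^ r * z * α ^ (ℓ - r)) := by
  have := h (fun i => if i = r then 1 else 0) (by simp [Finset.sum_ite_eq', hr])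
  simpa [Finset.sum_ite_eq', hr] using this

theorem Fam.l1_le (h : Fam k α z ℓ γ τ) (hα : Pos α) (h1 : mass α = 1) (hγ : 0 ≤ γ) {r : ℕ}
    (hr : r < ℓ) : l1 (α ^ r * z * α ^ (ℓ - r)) ≤ γ + τ :=
  (h.single hr).l1_le (hα.pow _) (mass_pow_one h1 _) hγ

theorem Fam.mono {γ' τ' : ℝ} (h : Fam k α z ℓ γ τ) (hγ : 0 ≤ γ) (h1 : γ ≤ γ') (h2 : τ ≤ τ') :
    Fam k α z ℓ γ' τ' :=
  fun a ha => (h a ha).mono hγ h1 h2

theorem Fam.tau_nonneg (h : Fam k α z ℓ γ τ) : 0 ≤ τ := by
  refine (h (fun _ => 0) ?_).nonneg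
  simp

theorem sqrt_sum_sq_le {ι : Type*} (s : Finset ι) (g : ι → ℝ) :
    Real.sqrt (∑ i ∈ s, g i ^ 2) ≤ ∑ i ∈ s, |g i| := by
  refine Real.sqrt_le_iff.2 ⟨Finset.sum_nonneg fun i _ => abs_nonneg _, ?_⟩
  calc ∑ i ∈ s, g i ^ 2 = ∑ i ∈ s, |g i| ^ 2 := by simp
    _ ≤ _ := Finset.sum_sq_le_sq_sum_of_nonneg fun i _ => abs_nonneg _

/-- One cell. -/
theorem cell {ι : Type*} (h : Fam k α z ℓ γ τ) (hα : Pos α) (h1 : mass α = 1) (hz : mass z = 0)
    (hγ : 0 < γ) (s : Finset ι) (r : ι → ℕ) (hr : ∀ i ∈ s, r i < ℓ) (hinj : Set.InjOn r s)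
    (M : ℕ) (S : ι → A) (σ e : ι → ℝ) (hσ : ∀ i ∈ s, 0 < σ i)
    (hS : ∀ i ∈ s, Dens k (α ^ M) (σ i) (e i) (S i)) (V : A) {U eV : ℝ} (hU : 0 ≤ U)
    (hV : Dens k (α ^ M) (Real.sqrt U) eV V) :
    Dens k (α ^ (2 * ℓ + M)) (Real.sqrt (U + orc k * ((2 * (γ + τ)) ^ 2 * ∑ i ∈ s, σ i ^ 2)))
      (eV + ∑ i ∈ s, ((γ + τ) * e i + 2 * τ * σ i))
      (α ^ (2 * ℓ) * V + ∑ i ∈ s, α ^ r i * z * α ^ (ℓ - r i) * S i) := by
  classical
  rcases s.eq_empty_or_nonempty with rfl | hne
  · simp only [Finset.sum_empty, mul_zero, add_zero]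
    have h2 := (dens_self (k := k) (mass_pow_one h1 (2 * ℓ))).mul (hα.pow _) (mass_pow_one h1 _)
      (hα.pow M) zero_le_one hV
    rw [← pow_add, one_mul, zero_mul, zero_add, one_mul] at h2
    exact h2
  set P := α ^ (2 * ℓ) with hP
  set Q := α ^ M with hQ
  have hPp : Pos P := hα.pow _
  have hQp : Pos Q := hα.pow _
  have hP1 : mass P = 1 := mass_pow_one h1 _
  have hQ1 : mass Q = 1 := mass_pow_one h1 _
  have hτ := h.tau_nonneg
  obtain ⟨f, hf, hfl⟩ := hV
  choose! g hg hgl using hS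
  set b : W → ℕ → ℝ := fun v j => ∑ i ∈ s with r i = j, g i v with hb
  choose F hF0 hF hFl using fun v => h.apply hα h1 hz hγ (b v)
  have hmaps : ∀ i ∈ s, r i ∈ range ℓ := fun i hi => Finset.mem_range.2 (hr i hi)
  have hb1 : ∀ v, ∀ i ∈ s, b v (r i) = g i v := by
    intro v i hi
    simp only [hb]
    rw [Finset.sum_eq_single_of_mem i (by simp [hi])]
    intro j hj hne'
    simp only [Finset.mem_filter] at hj
    exact absurd (hinj hj.1 hi hj.2) hne'
  have hb2 : ∀ v, ∑ j ∈ range ℓ, b v j ^ 2 = ∑ i ∈ s, g i v ^ 2 := by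
    intro v
    rw [← Finset.sum_fiberwise_of_maps_to hmaps fun i => g i v ^ 2]
    refine Finset.sum_congr rfl fun j _ => ?_
    rcases (s.filter fun i => r i = j).eq_empty_or_nonempty with h0 | ⟨i, hi⟩
    · simp [hb, h0]
    · have hi' := Finset.mem_filter.1 hi
      rw [← hi'.2, hb1 v i hi'.1, Finset.sum_eq_single_of_mem i (by simp [hi'.1])]
      intro j' hj' hne'
      simp only [Finset.mem_filter] at hj'
      exact absurd (hinj hj'.1 hi'.1 hj'.2) hne'
  set G : W → W → ℝ := fun v u => F v u with hG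
  obtain ⟨H, hH, hHm⟩ := exists_push hPp hQp fun u v => f v + G v u
  refine ⟨H, ?_, ?_⟩
  · unfold Mom
    rw [pow_add, sqrt_pow_two_mul (by
      have := one_le_orc k
      have : 0 ≤ ∑ i ∈ s, σ i ^ 2 := Finset.sum_nonneg fun i _ => sq_nonneg _
      positivity)]
    refine (hHm k).trans ?_
    rw [ev2_swap]
    refine ev2_add_le hQp hPp hP1 f G hU ?_ hF0 ?_ ?_
    · have : 0 < ∑ i ∈ s, σ i ^ 2 := Finset.sum_pos (fun i hi => pow_pos (hσ i hi) 2) hne
      have : 0 < γ + τ := by linarith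
      positivity
    · exact hf.trans_eq (sqrt_pow_two_mul hU k)
    · calc ev2 (fun v u => G v u ^ (2 * (k + 1))) Q P
          ≤ ev (fun v => ((2 * (γ + τ)) ^ 2) ^ (k + 1) * (∑ i ∈ s, g i v ^ 2) ^ (k + 1)) Q :=
            ev_mono hQp fun v => (hF v).trans_eq (by rw [hb2, mul_pow])
        _ ≤ ((2 * (γ + τ)) ^ 2) ^ (k + 1) * (∑ i ∈ s, σ i ^ 2) ^ (k + 1) := by
            rw [ev_smul_test]
            exact mul_le_mul_of_nonneg_left (mom_sumsq hQp s g σ hσ hg) (by positivity)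
        _ = _ := (mul_pow _ _ _).symm
  · rw [pow_add]
    set T : ι → A := fun i => α ^ r i * z * α ^ (ℓ - r i) with hT
    have hmid : l1 (P * tilt f Q + ∑ i ∈ s, T i * tilt (g i) Q - tilt H (P * Q))
        ≤ 2 * τ * ∑ i ∈ s, σ i := by
      refine l1_le_of_forall fun φ hφ => ?_
      have e1 : ev φ (P * tilt f Q)
          = ev (fun v => ev (fun u => f v * φ (u * v)) P) Q := by
        rw [ev_mul]
        simp only [ev_tilt]
        exact ev2_swap (fun u v => f v * φ (u * v)) P Q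
      have e2 : ∀ i, ev φ (T i * tilt (g i) Q)
          = ev (fun v => g i v * ev (fun u => φ (u * v)) (T i)) Q := by
        intro i
        rw [ev_mul]
        simp only [ev_tilt]
        refine (ev2_swap (fun u v => g i v * φ (u * v)) (T i) Q).trans ?_
        exact ev_congr_on fun v _ => ev_smul_test _ _ _
      have e3 : ev φ (tilt H (P * Q))
          = ev (fun v => ev (fun u => f v * φ (u * v) + G v u * φ (u * v)) P) Q := by
        rw [hH, ev2_swap]
        exact ev_congr_on fun v _ => ev_congr_on fun u _ => by ring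
      rw [map_sub, map_add, map_sum, e1, e3, Finset.sum_congr rfl fun i _ => e2 i, ← ev_sum_test,
        ← ev_congr_add, ← ev_sub_test]
      refine (ev_mono hQp fun v => ?_).trans
        (b := ev (fun v => 2 * τ * ∑ i ∈ s, |g i v|) Q) ?_
      · set ψ : W → ℝ := fun u => φ (u * v) with hψ
        have key : ∑ i ∈ s, g i v * ev ψ (T i)
            = ev ψ (∑ j ∈ range ℓ, b v j • (α ^ j * z * α ^ (ℓ - j))) := by
          simp only [map_sum, map_smul, smul_eq_mul, hb, Finset.sum_mul]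
          rw [← Finset.sum_fiberwise_of_maps_to hmaps fun i => g i v * ev ψ (T i)]
          refine Finset.sum_congr rfl fun j _ => Finset.sum_congr rfl fun i hi => ?_
          simp [hT, (Finset.mem_filter.1 hi).2]
        have e4 : ev (fun u => f v * φ (u * v) + G v u * φ (u * v)) P
            = ev (fun u => f v * φ (u * v)) P + ev ψ (tilt (F v) P) := by
          rw [ev_congr_add, ev_tilt]
        rw [e4, add_sub_add_left_eq_sub, key, ← map_sub]
        refine (le_abs_self _).trans ((abs_ev_le (M := 1) fun u => hφ _).trans ?_)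
        rw [one_mul]
        refine (hFl v).trans ?_
        rw [hb2]
        exact mul_le_mul_of_nonneg_left (sqrt_sum_sq_le s fun i => g i v) (by linarith)
      · rw [ev_smul_test, ev_sum_test]
        refine mul_le_mul_of_nonneg_left (Finset.sum_le_sum fun i hi => ?_) (by linarith)
        exact (hg i hi).abs_le hQp hQ1 (hσ i hi).le
    rw [show P * V + ∑ i ∈ s, T i * S i - tilt H (P * Q) = P * (V - tilt f Q)
        + ∑ i ∈ s, T i * (S i - tilt (g i) Q)
        + (P * tilt f Q + ∑ i ∈ s, T i * tilt (g i) Q - tilt H (P * Q)) by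
      simp only [mul_sub, Finset.sum_sub_distrib]; abel]
    refine (l1_add _ _).trans ((add_le_add (l1_add _ _) hmid).trans ?_)
    have a1 : l1 (P * (V - tilt f Q)) ≤ eV :=
      ((l1_mul _ _).trans (by rw [l1_eq_mass hPp, hP1, one_mul])).trans hfl
    have a2 : l1 (∑ i ∈ s, T i * (S i - tilt (g i) Q)) ≤ ∑ i ∈ s, (γ + τ) * e i :=
      (l1_sum _ _).trans (Finset.sum_le_sum fun i hi => (l1_mul _ _).trans
        (mul_le_mul (h.l1_le hα h1 hγ.le (hr i hi)) (hgl i hi) (l1_nonneg _) (by linarith)))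
    rw [Finset.sum_add_distrib, ← Finset.mul_sum s σ]
    linarith

theorem master_cells {ι : Type*} (h : Fam k α z ℓ γ τ) (hα : Pos α) (h1 : mass α = 1)
    (hz : mass z = 0) (hγ : 0 < γ) : ∀ (q N : ℕ), 2 * ℓ * q ≤ N → ∀ (s : Finset ι) (c r : ι → ℕ)
    (S : ι → A) (σ e : ι → ℝ), (∀ i ∈ s, c i < q) → (∀ i ∈ s, r i < ℓ) →
    Set.InjOn (fun i => (c i, r i)) s → (∀ i ∈ s, 0 < σ i) →
    (∀ i ∈ s, Dens k (α ^ (N - 2 * ℓ * (c i + 1))) (σ i) (e i) (S i)) →
    Dens k (α ^ N) (Real.sqrt (orc k * ((2 * (γ + τ)) ^ 2 * ∑ i ∈ s, σ i ^ 2)))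
      (∑ i ∈ s, ((γ + τ) * e i + 2 * τ * σ i))
      (∑ i ∈ s, α ^ (2 * ℓ * c i) * (α ^ r i * z * α ^ (ℓ - r i) * S i))
  | 0, N, _, s, c, r, S, σ, e, hc, _, _, _, _ => by
    obtain rfl : s = ∅ := Finset.eq_empty_of_forall_notMem fun i hi => Nat.not_lt_zero _ (hc i hi)
    simpa using dens_zero (k := k) (P := α ^ N) le_rfl le_rfl
  | q + 1, N, hN, s, c, r, S, σ, e, hc, hr, hinj, hσ, hS => by
    classical
    set s0 := s.filter fun i => c i = 0 with hs0
    set s1 := s.filter fun i => ¬c i = 0 with hs1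
    rw [Nat.mul_succ] at hN
    have ih := master_cells h hα h1 hz hγ q (N - 2 * ℓ) (by omega) s1 (fun i => c i - 1) r S σ e
      (fun i hi => by
        have := hc i (Finset.mem_filter.1 hi).1
        have := (Finset.mem_filter.1 hi).2
        omega)
      (fun i hi => hr i (Finset.mem_filter.1 hi).1)
      (fun i hi j hj hij => by
        simp only [Prod.mk.injEq] at hij
        have hi' := Finset.mem_filter.1 hi
        have hj' := Finset.mem_filter.1 hj
        exact hinj hi'.1 hj'.1 (by simp only [Prod.mk.injEq]; exact ⟨by omega, hij.2⟩))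
      (fun i hi => hσ i (Finset.mem_filter.1 hi).1)
      (fun i hi => by
        have hi' := Finset.mem_filter.1 hi
        have e : N - 2 * ℓ - 2 * ℓ * (c i - 1 + 1) = N - 2 * ℓ * (c i + 1) := by
          rw [Nat.sub_add_cancel (Nat.pos_of_ne_zero hi'.2), Nat.mul_succ]; omega
        rw [e]; exact hS i hi'.1)
    have h0 := cell h hα h1 hz hγ s0 r (fun i hi => hr i (Finset.mem_filter.1 hi).1)
      (fun i hi j hj hij => by
        have hi' := Finset.mem_filter.1 hi
        have hj' := Finset.mem_filter.1 hj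
        exact hinj hi'.1 hj'.1 (by simp only [Prod.mk.injEq]; exact ⟨by omega, hij⟩))
      (N - 2 * ℓ) S σ e (fun i hi => hσ i (Finset.mem_filter.1 hi).1)
      (fun i hi => by
        have hi' := Finset.mem_filter.1 hi
        simpa [hi'.2] using hS i hi'.1) _ (by
        have := one_le_orc k
        have : 0 ≤ ∑ i ∈ s1, σ i ^ 2 := Finset.sum_nonneg fun i _ => sq_nonneg _
        positivity) ih
    rw [show 2 * ℓ + (N - 2 * ℓ) = N by omega] at h0
    have hsplit : ∀ {β : Type} [AddCommMonoid β] (f : ι → β),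
        ∑ i ∈ s, f i = (∑ i ∈ s1, f i) + ∑ i ∈ s0, f i := fun f => by
      rw [add_comm]; exact (Finset.sum_filter_add_sum_filter_not s _ f).symm
    rw [hsplit fun i => σ i ^ 2, hsplit fun i => (γ + τ) * e i + 2 * τ * σ i,
      hsplit fun i => α ^ (2 * ℓ * c i) * (α ^ r i * z * α ^ (ℓ - r i) * S i), mul_add, mul_add]
    convert h0 using 2
    · rw [Finset.mul_sum]
      refine Finset.sum_congr rfl fun i hi => ?_
      have hi' := Finset.mem_filter.1 hi
      rw [← mul_assoc (α ^ (2 * ℓ)) (α ^ (2 * ℓ * (c i - 1))) _, ← pow_add,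
        show 2 * ℓ + 2 * ℓ * (c i - 1) = 2 * ℓ * c i by
          obtain ⟨c', hc'⟩ : ∃ c', c i = c' + 1 := ⟨c i - 1, by have := hi'.2; omega⟩
          rw [hc', Nat.add_sub_cancel]; ring]
    · refine Finset.sum_congr rfl fun i hi => ?_
      rw [(Finset.mem_filter.1 hi).2, mul_zero, pow_zero, one_mul]

theorem Dens.prepend (hα : Pos α) (h1 : mass α = 1) {M : ℕ} {X : A} {σ η : ℝ} (r : ℕ)
    (h : Dens k (α ^ M) σ η X) : Dens k (α ^ (r + M)) σ η (α ^ r * X) := by
  have h2 := (dens_self (k := k) (mass_pow_one h1 r)).mul (hα.pow _) (mass_pow_one h1 _)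
    (hα.pow M) zero_le_one h
  rwa [← pow_add, one_mul, zero_mul, zero_add, one_mul] at h2

theorem Dens.append (hα : Pos α) (h1 : mass α = 1) {M : ℕ} {X : A} {σ η : ℝ} (hσ : 0 ≤ σ) (r : ℕ)
    (h : Dens k (α ^ M) σ η X) : Dens k (α ^ (M + r)) σ η (X * α ^ r) := by
  have h2 := h.mul (hα.pow _) (mass_pow_one h1 _) (hα.pow r) hσ
    (dens_self (k := k) (mass_pow_one h1 r))
  rwa [← pow_add, mul_one, l1_pow hα h1, mul_one, mul_zero, add_zero] at h2

/-- Translates of `z` by distinct amounts, followed by arbitrary densities, are almost orthogonal. -/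
theorem master {ι : Type*} (h : Fam k α z ℓ γ τ) (hα : Pos α) (h1 : mass α = 1)
    (hz : mass z = 0) (hγ : 0 < γ) (hℓ : 0 < ℓ) (N : ℕ) (s : Finset ι) (x : ι → ℕ)
    (hinj : Set.InjOn x s) (hx : ∀ i ∈ s, x i + 2 * ℓ ≤ N) (S : ι → A) (σ e : ι → ℝ)
    (hσ : ∀ i ∈ s, 0 < σ i)
    (hS : ∀ i ∈ s, Dens k (α ^ (N - x i - 2 * ℓ)) (σ i) (e i) (S i)) :
    Dens k (α ^ N) (cM k * (γ + τ) * Real.sqrt (∑ i ∈ s, σ i ^ 2))
      (∑ i ∈ s, ((γ + τ) * e i + 2 * τ * σ i)) (∑ i ∈ s, α ^ x i * z * α ^ ℓ * S i) := by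
  classical
  have hτ := h.tau_nonneg
  rcases s.eq_empty_or_nonempty with rfl | hne
  · simpa using dens_zero (k := k) (P := α ^ N) le_rfl le_rfl
  have hN : 2 * ℓ ≤ N := by
    obtain ⟨i, hi⟩ := hne
    have := hx i hi
    omega
  have key : ∀ t ⊆ s, ∀ o : ℕ, o ≤ ℓ →
      (∀ i ∈ t, o ≤ x i ∧ (x i - o) % (2 * ℓ) < ℓ) →
      Dens k (α ^ N) (Real.sqrt (orc k * ((2 * (γ + τ)) ^ 2 * ∑ i ∈ s, σ i ^ 2)))
        (∑ i ∈ t, ((γ + τ) * e i + 2 * τ * σ i)) (∑ i ∈ t, α ^ x i * z * α ^ ℓ * S i) := by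
    intro t ht o ho hto
    set c : ι → ℕ := fun i => (x i - o) / (2 * ℓ) with hc
    set r : ι → ℕ := fun i => (x i - o) % (2 * ℓ) with hr
    have hd : ∀ i, 2 * ℓ * c i + r i = x i - o := fun i => Nat.div_add_mod _ _
    have hmc := master_cells h hα h1 hz hγ ((N - o) / (2 * ℓ)) (N - o)
      (by rw [mul_comm]; exact Nat.div_mul_le_self _ _) t c r (fun i => α ^ r i * S i) σ e
      (fun i hi => by
        have := hx i (ht hi)
        have := (hto i hi).1
        have := hd i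
        show c i + 1 ≤ (N - o) / (2 * ℓ)
        refine (Nat.le_div_iff_mul_le (by omega)).2 ?_
        rw [add_mul, one_mul, mul_comm]
        omega)
      (fun i hi => (hto i hi).2)
      (fun i hi j hj hij => by
        simp only [Prod.mk.injEq] at hij
        have a1 := hd i
        have a2 := hd j
        rw [hij.1, hij.2] at a1
        have := (hto i hi).1
        have := (hto j hj).1
        exact hinj (ht hi) (ht hj) (by omega))
      (fun i hi => hσ i (ht hi))
      (fun i hi => by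
        have := hx i (ht hi)
        have := (hto i hi).1
        have h3 := hd i
        have h4 := (hto i hi).2
        have e' : N - o - 2 * ℓ * (c i + 1) = r i + (N - x i - 2 * ℓ) := by
          rw [Nat.mul_succ]; simp only [hr] at h3 ⊢; omega
        rw [e']
        exact (hS i (ht hi)).prepend hα h1 _)
    have h5 := hmc.prepend hα h1 o
    rw [show o + (N - o) = N by omega, Finset.mul_sum t _ (α ^ o)] at h5
    refine (Finset.sum_congr rfl (s₂ := t) (fun i hi => ?_)).subst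
      (motive := fun X => Dens k (α ^ N) _ _ X) (h5.mono (Real.sqrt_nonneg _) ?_ le_rfl)
    · have := (hto i hi).1
      have h3 := hd i
      have h4 := (hto i hi).2
      simp only [hr] at h3 ⊢
      rw [show x i = o + (2 * ℓ * c i + (x i - o) % (2 * ℓ)) by omega, pow_add, pow_add,
        pow_split α (show ℓ = (ℓ - (x i - o) % (2 * ℓ)) + (x i - o) % (2 * ℓ) by omega)]
      rw [show o + (2 * ℓ * c i + (x i - o) % (2 * ℓ)) = x i by omega]
      simp only [Nat.add_sub_cancel, mul_assoc]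
    · refine Real.sqrt_le_sqrt (mul_le_mul_of_nonneg_left
        (mul_le_mul_of_nonneg_left ?_ (sq_nonneg _)) (by linarith [one_le_orc k]))
      exact Finset.sum_le_sum_of_subset_of_nonneg ht fun i _ _ => sq_nonneg _
  set t0 := s.filter fun i => x i % (2 * ℓ) < ℓ with ht0
  set t1 := s.filter fun i => ¬x i % (2 * ℓ) < ℓ with ht1
  have k0 := key t0 (Finset.filter_subset _ _) 0 (Nat.zero_le _) fun i hi =>
    ⟨Nat.zero_le _, by simpa using (Finset.mem_filter.1 hi).2⟩
  have k1 := key t1 (Finset.filter_subset _ _) ℓ le_rfl fun i hi => by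
    have hi' := (Finset.mem_filter.1 hi).2
    have hd := Nat.div_add_mod (x i) (2 * ℓ)
    have hlt := Nat.mod_lt (x i) (show 2 * ℓ > 0 by omega)
    refine ⟨by have := Nat.mod_le (x i) (2 * ℓ); omega, ?_⟩
    rw [show x i - ℓ = (x i % (2 * ℓ) - ℓ) + 2 * ℓ * (x i / (2 * ℓ)) by omega,
      Nat.add_mul_mod_self_left, Nat.mod_eq_of_lt (by omega)]
    omega
  have hpos : 0 < Real.sqrt (orc k * ((2 * (γ + τ)) ^ 2 * ∑ i ∈ s, σ i ^ 2)) := by
    have := one_le_orc k
    have : 0 < ∑ i ∈ s, σ i ^ 2 := Finset.sum_pos (fun i hi => pow_pos (hσ i hi) 2) hne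
    have : 0 < γ + τ := by linarith
    exact Real.sqrt_pos.2 (by positivity)
  have hk := k0.add (hα.pow _) hpos hpos k1
  rw [Finset.sum_filter_add_sum_filter_not, Finset.sum_filter_add_sum_filter_not] at hk
  refine hk.mono (by linarith) (le_of_eq ?_) le_rfl
  have := one_le_orc k
  rw [Real.sqrt_mul (by linarith), Real.sqrt_mul (sq_nonneg _),
    Real.sqrt_sq (by linarith : (0 : ℝ) ≤ 2 * (γ + τ)), cM]
  ring

/-- Spaced translates gain a factor `1/√w` by averaging over `w` further translations. -/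
theorem average_bound {ι : Type*} {Sa : ℝ} (h : Fam k α z ℓ γ τ) (hsm : Sm α Sa) (hα : Pos α)
    (h1 : mass α = 1) (hz : mass z = 0) (hγ : 0 < γ) (hℓ : 0 < ℓ) {a m w : ℕ} (ha : 1 ≤ a)
    (hm : 1 ≤ m) (hw : 1 ≤ w) {N y : ℕ} (hy : m * a + m * w ≤ y) (s : Finset ι) (x : ι → ℕ)
    (hx : ∀ i ∈ s, m * a ≤ x i) (hxN : ∀ i ∈ s, x i + 2 * ℓ + y ≤ N)
    (hsep : ∀ i ∈ s, ∀ j ∈ s, i ≠ j → x i + m * w < x j ∨ x j + m * w < x i)
    (c : ι → ℝ) (S : ι → A) {σ η : ℝ} (hσ : 0 < σ)
    (hS : ∀ i ∈ s, Dens k (α ^ (N - y - x i - 2 * ℓ)) σ η (S i)) :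
    Dens k (α ^ N) (avc k m * (γ + τ) * σ * Real.sqrt (∑ i ∈ s, c i ^ 2) / Real.sqrt w)
      ((∑ i ∈ s, |c i|) * (m * 2 ^ m * ((γ + τ) * η + 2 * τ * σ)
        + (2 * w * Real.sqrt (Sa / a)) ^ m * ((γ + τ) * (σ + η))))
      (∑ i ∈ s, c i • (α ^ x i * z * α ^ ℓ * S i * α ^ y)) := by
  classical
  have hτ := h.tau_nonneg
  set s' := s.filter fun i => c i ≠ 0 with hs'
  have hX : ∑ i ∈ s, c i • (α ^ x i * z * α ^ ℓ * S i * α ^ y)
      = ∑ i ∈ s', c i • (α ^ x i * z * α ^ ℓ * S i * α ^ y) := by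
    rw [hs', Finset.sum_filter]
    exact Finset.sum_congr rfl fun i _ => by split_ifs with h' <;> simp_all
  have hc2 : ∑ i ∈ s', c i ^ 2 = ∑ i ∈ s, c i ^ 2 := by
    rw [hs', Finset.sum_filter]
    exact Finset.sum_congr rfl fun i _ => by split_ifs with h' <;> simp_all
  have hc1 : ∑ i ∈ s', |c i| = ∑ i ∈ s, |c i| := by
    rw [hs', Finset.sum_filter]
    exact Finset.sum_congr rfl fun i _ => by split_ifs with h' <;> simp_all
  rw [hX, ← hc2, ← hc1]
  rcases s'.eq_empty_or_nonempty with he | hne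
  · simpa [he] using dens_zero (k := k) (P := α ^ N) le_rfl le_rfl
  have hmem : ∀ i ∈ s', i ∈ s ∧ c i ≠ 0 := fun i hi => Finset.mem_filter.1 hi
  have hw' : (0 : ℝ) < w := by exact_mod_cast hw
  have hη : 0 ≤ η := by
    obtain ⟨i, hi⟩ := hne
    exact (hS i (hmem i hi).1).nonneg
  set E : ℝ := (γ + τ) * η + 2 * τ * σ with hE
  have hstep : ∀ j ∈ range m, Dens k (α ^ N)
      (2 ^ m * cM k * (γ + τ) * σ * Real.sqrt (∑ i ∈ s', c i ^ 2) / Real.sqrt w)
      (2 ^ m * ((∑ i ∈ s', |c i|) * E))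
      ((cb m j / w) • ∑ q ∈ s' ×ˢ range w,
        α ^ (x q.1 + (j + 1) * (q.2 + 1)) * z * α ^ ℓ
          * (c q.1 • (S q.1 * α ^ (y - (j + 1) * (q.2 + 1))))) := by
    intro j hj
    have hjm : j + 1 ≤ m := Finset.mem_range.1 hj
    have hjw : ∀ v < w, (j + 1) * (v + 1) ≤ m * w := fun v hv => Nat.mul_le_mul hjm hv
    have hd := master h hα h1 hz hγ hℓ N (s' ×ˢ range w) (fun q => x q.1 + (j + 1) * (q.2 + 1))
      (by
        intro q hq q' hq' heq
        simp only [Finset.coe_product, Set.mem_prod, Finset.mem_coe, Finset.mem_range] at hq hq'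
        simp only at heq
        have b1 := hjw q.2 hq.2
        have b2 := hjw q'.2 hq'.2
        have e1 : q.1 = q'.1 := by
          by_contra hne'
          rcases hsep _ (hmem _ hq.1).1 _ (hmem _ hq'.1).1 hne' with h' | h' <;> omega
        rw [e1] at heq
        refine Prod.ext e1 ?_
        have := Nat.eq_of_mul_eq_mul_left (by omega) (Nat.add_left_cancel heq)
        omega)
      (fun q hq => by
        rw [Finset.mem_product, Finset.mem_range] at hq
        have := hjw q.2 hq.2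
        have := hxN q.1 (hmem _ hq.1).1
        omega)
      (fun q => c q.1 • (S q.1 * α ^ (y - (j + 1) * (q.2 + 1)))) (fun q => |c q.1| * σ)
      (fun q => |c q.1| * η)
      (fun q hq => by
        rw [Finset.mem_product] at hq
        exact mul_pos (abs_pos.2 (hmem _ hq.1).2) hσ)
      (fun q hq => by
        rw [Finset.mem_product, Finset.mem_range] at hq
        have := hjw q.2 hq.2
        have := hxN q.1 (hmem _ hq.1).1
        have e : N - (x q.1 + (j + 1) * (q.2 + 1)) - 2 * ℓ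
            = N - y - x q.1 - 2 * ℓ + (y - (j + 1) * (q.2 + 1)) := by omega
        rw [e]
        exact ((hS _ (hmem _ hq.1).1).append hα h1 hσ.le _).smul _)
    have hcb : |cb m j / (w : ℝ)| ≤ 2 ^ m / w := by
      rw [abs_div, Nat.abs_cast]
      exact div_le_div_of_nonneg_right (abs_cb_le m j) hw'.le
    have hcM := cM_pos k
    refine (hd.smul _).mono (by positivity) ?_ ?_
    · have e1 : ∑ q ∈ s' ×ˢ range w, (|c q.1| * σ) ^ 2 = w * (σ ^ 2 * ∑ i ∈ s', c i ^ 2) := by
        rw [Finset.sum_product, Finset.mul_sum, Finset.mul_sum]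
        refine Finset.sum_congr rfl fun i _ => ?_
        simp only [Finset.sum_const, Finset.card_range, nsmul_eq_mul, mul_pow, sq_abs]; ring
      rw [e1, Real.sqrt_mul hw'.le, Real.sqrt_mul (sq_nonneg σ), Real.sqrt_sq hσ.le]
      refine (mul_le_mul_of_nonneg_right hcb (by positivity)).trans_eq ?_
      have hsw : Real.sqrt w * Real.sqrt w = w := Real.mul_self_sqrt hw'.le
      have hsw0 : 0 < Real.sqrt w := Real.sqrt_pos.2 hw'
      field_simp
      linear_combination (Real.sqrt (∑ i ∈ s', c i ^ 2)) * hsw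
    · have e2 : ∑ q ∈ s' ×ˢ range w, ((γ + τ) * (|c q.1| * η) + 2 * τ * (|c q.1| * σ))
          ≤ w * ((∑ i ∈ s', |c i|) * E) := by
        rw [Finset.sum_product, Finset.sum_mul, Finset.mul_sum]
        refine Finset.sum_le_sum fun i _ => ?_
        simp only [Finset.sum_const, Finset.card_range, nsmul_eq_mul]
        refine mul_le_mul_of_nonneg_left ?_ hw'.le
        rw [hE]
        nlinarith [abs_nonneg (c i), mul_pos (add_pos_of_pos_of_nonneg hγ hτ) hσ]
      refine (mul_le_mul hcb e2 ?_ (by positivity)).trans_eq (by field_simp)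
      refine Finset.sum_nonneg fun q _ => ?_
      positivity
  have hγpos : 0 < 2 ^ m * cM k * (γ + τ) * σ * Real.sqrt (∑ i ∈ s', c i ^ 2) / Real.sqrt w := by
    have := cM_pos k
    have : 0 < γ + τ := by linarith
    have : 0 < ∑ i ∈ s', c i ^ 2 :=
      Finset.sum_pos (fun i hi => by have := (hmem i hi).2; positivity) hne
    positivity
  have hsum := Dens.sum (hα.pow N) (range m) _ _ _ (fun _ _ => hγpos) hstep
  rw [Finset.sum_const, Finset.sum_const, Finset.card_range, nsmul_eq_mul, nsmul_eq_mul] at hsum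
  set Z := ∑ j ∈ range m, (cb m j / w) • ∑ q ∈ s' ×ˢ range w,
        α ^ (x q.1 + (j + 1) * (q.2 + 1)) * z * α ^ ℓ
          * (c q.1 • (S q.1 * α ^ (y - (j + 1) * (q.2 + 1)))) with hZ
  have hdiff : l1 (∑ i ∈ s', c i • (α ^ x i * z * α ^ ℓ * S i * α ^ y) - Z)
      ≤ (∑ i ∈ s', |c i|) * ((2 * w * Real.sqrt (Sa / a)) ^ m * ((γ + τ) * (σ + η))) := by
    have eZ : Z = ∑ i ∈ s', c i • ∑ j ∈ range m, (cb m j / w) • ∑ v ∈ range w,
        α ^ (x i + (j + 1) * (v + 1)) * (z * α ^ ℓ * S i) * α ^ (y - (j + 1) * (v + 1)) := by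
      simp only [hZ, Finset.sum_product, Finset.smul_sum]
      rw [Finset.sum_comm]
      refine Finset.sum_congr rfl fun i _ => Finset.sum_congr rfl fun j _ =>
        Finset.sum_congr rfl fun v _ => ?_
      rw [smul_smul (c i), mul_comm (c i), ← smul_smul]
      simp only [mul_smul_comm, mul_assoc]
    rw [eZ, ← Finset.sum_sub_distrib, Finset.sum_mul]
    refine (l1_sum _ _).trans (Finset.sum_le_sum fun i hi => ?_)
    rw [← smul_sub]
    refine (l1_smul _ _).trans (mul_le_mul_of_nonneg_left ?_ (abs_nonneg _))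
    have := hsm.average hα h1 ha hw (hx i (hmem i hi).1) hy (z * α ^ ℓ * S i)
    simp only [mul_assoc] at this ⊢
    refine this.trans (mul_le_mul_of_nonneg_left ?_ (by positivity))
    rw [← mul_assoc z]
    refine (l1_mul _ _).trans ?_
    have a1 := h.l1_le hα h1 hγ.le hℓ
    simp only [pow_zero, one_mul, Nat.sub_zero] at a1
    have a2 := (hS i (hmem i hi).1).l1_le (hα.pow _) (mass_pow_one h1 _) hσ.le
    exact mul_le_mul a1 a2 (l1_nonneg _) (by linarith)
  refine (hsum.congr_l1 hdiff).mono (by positivity) (le_of_eq ?_) (le_of_eq ?_)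
  · unfold avc; ring
  · ring

end Vale.Agent.P321
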