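import Mathlib
import Vale.Agent.P321.Algebra
import Vale.Agent.P321.Super.Smooth

/-!
Segments of two kinds of blocks, their linear and higher parts, and the Thue–Morse cancellation.
-/

open scoped BigOperators
open Finset

noncomputable section

namespace Vale.Agent.P321

variable (β D : A)

/-- A segment of blocks: `β`, or `β + D` at the flagged places. -/
def seg : List Bool → A
  | [] => 1
  | b :: e => (if b then β + D else β) * seg e

/-- The linear part of `seg`. -/
def lin : List Bool → A
  | [] => 0
  | b :: e => β * lin e + if b then D * β ^ e.length else 0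

/-- The difference of `seg` from the unflagged segment. -/
def dl (e : List Bool) : A := seg β D e - β ^ e.length

/-- The part of `seg` of order at least two. -/
def qd (e : List Bool) : A := dl β D e - lin β D e

/-- The two Thue–Morse patterns of length `2 ^ j`. -/
def tm : ℕ → List Bool × List Bool
  | 0 => ([true], [false])
  | j + 1 => ((tm j).1 ++ (tm j).2, (tm j).2 ++ (tm j).1)

theorem tm_length : ∀ j, (tm j).1.length = 2 ^ j ∧ (tm j).2.length = 2 ^ j
  | 0 => by simp [tm]
  | j + 1 => by
    obtain ⟨h1, h2⟩ := tm_length j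
    simp [tm, h1, h2, pow_succ]; omega

theorem tm_head : ∀ j, ∃ p q, (tm j).1 = true :: p ∧ (tm j).2 = false :: q
  | 0 => ⟨[], [], rfl, rfl⟩
  | j + 1 => by
    obtain ⟨p, q, hp, hq⟩ := tm_head j
    exact ⟨p ++ (tm j).2, q ++ (tm j).1, by simp [tm, hp], by simp [tm, hq]⟩

theorem seg_append : ∀ e f, seg β D (e ++ f) = seg β D e * seg β D f
  | [], f => by simp [seg]
  | b :: e, f => by simp [seg, seg_append e f, mul_assoc]

theorem lin_append : ∀ e f,
    lin β D (e ++ f) = lin β D e * β ^ f.length + β ^ e.length * lin β D f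
  | [], f => by simp [lin]
  | b :: e, f => by
    simp only [List.cons_append, lin, lin_append e f, List.length_append, List.length_cons]
    rw [pow_succ', pow_add]
    cases b <;> simp [mul_add, add_mul, mul_assoc] <;> abel

theorem dl_nil : dl β D [] = 0 := by simp [dl, seg]

theorem dl_cons (b : Bool) (e : List Bool) :
    dl β D (b :: e) = β * dl β D e + if b then D * seg β D e else 0 := by
  cases b <;> simp [dl, seg, pow_succ', mul_sub, add_mul] <;> abel

theorem qd_nil : qd β D [] = 0 := by simp [qd, lin, dl_nil]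

theorem qd_cons (b : Bool) (e : List Bool) :
    qd β D (b :: e) = β * qd β D e + if b then D * dl β D e else 0 := by
  cases b <;> simp [qd, lin, seg, dl, pow_succ', mul_sub, add_mul] <;> abel

variable {β D}

theorem mass_seg (hβ : mass β = 1) (hD : mass D = 0) : ∀ e, mass (seg β D e) = 1
  | [] => by simp [seg, mass_one]
  | b :: e => by cases b <;> simp [seg, mass_mul, hβ, hD, mass_seg hβ hD e]

theorem mass_lin (hD : mass D = 0) : ∀ e, mass (lin β D e) = 0
  | [] => by simp [lin]
  | b :: e => by cases b <;> simp [lin, mass_mul, hD, mass_lin hD e]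

theorem mass_dl (hβ : mass β = 1) (hD : mass D = 0) (e : List Bool) : mass (dl β D e) = 0 := by
  simp [dl, map_sub, mass_seg hβ hD, mass_pow_one hβ]

theorem mass_qd (hβ : mass β = 1) (hD : mass D = 0) (e : List Bool) : mass (qd β D e) = 0 := by
  simp [qd, map_sub, mass_dl hβ hD, mass_lin hD]

theorem seg_sub (e f : List Bool) (h : e.length = f.length) :
    seg β D f - seg β D e = (qd β D f - qd β D e) + (lin β D f - lin β D e) := by
  simp only [qd, dl, h]; abel

/-- Linear parts of the two Thue–Morse patterns cancel to high order. -/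
theorem lin_tm_small {S : ℝ} (hs : Sm β S) (hβ : Pos β) (h1 : mass β = 1) {a : ℕ} (ha : 1 ≤ a)
    (hS : 0 ≤ S) : ∀ j, l1 (β ^ (j * a) * (lin β D (tm j).1 - lin β D (tm j).2) * β ^ (j * a))
      ≤ (2 ^ (j + 1) * Real.sqrt (S / a)) ^ j * l1 D
  | 0 => by simp [tm, lin]
  | j + 1 => by
    obtain ⟨h1', h2'⟩ := tm_length j
    set X := lin β D (tm j).1 - lin β D (tm j).2 with hX
    set W := β ^ (j * a) * X * β ^ (j * a) with hW
    have e : β ^ ((j + 1) * a) * (lin β D (tm (j + 1)).1 - lin β D (tm (j + 1)).2) * β ^ ((j + 1) * a)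
        = β ^ a * W * β ^ (a + 2 ^ j) - β ^ (a + 2 ^ j) * W * β ^ a := by
      simp only [tm, lin_append, h1', h2', hW, hX]
      have c1 : Commute (β ^ (2 ^ j)) (β ^ (j * a)) := Commute.pow_pow_self β _ _
      have c2 : Commute (β ^ a) (β ^ (j * a)) := Commute.pow_pow_self β _ _
      have c3 : Commute (β ^ a) (β ^ (2 ^ j)) := Commute.pow_pow_self β _ _
      rw [show (j + 1) * a = a + j * a by ring, pow_add β a (j * a), pow_add β a (2 ^ j)]
      generalize β ^ (2 ^ j) = P at c1 c3 ⊢
      generalize β ^ (j * a) = J at c1 c2 ⊢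
      generalize β ^ a = T at c2 c3 ⊢
      generalize lin β D (tm j).1 = u
      generalize lin β D (tm j).2 = v
      have k1 : ∀ Y, T * (P * (J * Y)) = T * (J * (P * Y)) := fun Y => by
        rw [← mul_assoc P J, c1.eq, mul_assoc]
      have k2 : P * (T * J) = J * (T * P) := by
        rw [← mul_assoc, ← c3.eq, mul_assoc, c1.eq, ← mul_assoc, c2.eq, mul_assoc]
      simp only [mul_assoc, mul_sub, sub_mul, mul_add, add_mul, k1, k2]
      rw [c2.eq]
      abel
    rw [e, ← l1_neg, neg_sub]
    refine (hs.sandwich hβ h1 ha (2 ^ j) W).trans ?_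
    refine (mul_le_mul_of_nonneg_left (lin_tm_small hs hβ h1 ha hS j) (by positivity)).trans ?_
    rw [← mul_assoc, pow_succ (2 ^ (j + 1 + 1) * Real.sqrt (S / a))]
    refine mul_le_mul_of_nonneg_right ?_ (l1_nonneg D)
    rw [mul_comm]
    refine mul_le_mul (pow_le_pow_left₀ (by positivity) ?_ j) ?_ (by positivity) (by positivity)
    · gcongr <;> norm_num
    · push_cast
      rw [pow_succ (2 : ℝ) (j + 1), pow_succ (2 : ℝ) j]
      have : (0 : ℝ) ≤ 2 ^ j * Real.sqrt (S / a) := by positivity
      nlinarith

end Vale.Agent.P321
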