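import Mathlib
import Vale.Agent.P321.Algebra
import Vale.Agent.P321.Super.Moment
import Vale.Agent.P321.Super.Smooth

/-!
Densities of powers, and change of the reference measure.
-/

open scoped BigOperators
open Finset

noncomputable section

namespace Vale.Agent.P321

theorem ev_comp_of_tilt_eq {f g : W → ℝ} {P : A} (h : tilt f P = tilt g P) (F : ℝ → ℝ) :
    ev (fun z => F (f z)) P = ev (fun z => F (g z)) P := by
  refine ev_congr_on fun z hz => ?_
  have := congrArg (fun X : A => X.coeff z) h
  simp only [coeff_tilt] at this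
  rw [mul_right_cancel₀ hz this]

variable {k : ℕ} {P Q : A} {v τ : ℝ}

theorem power_dens_aux (hP : Pos P) (hP1 : mass P = 1) (hQ : Pos Q) (hQ1 : mass Q = 1)
    (hv : 0 < v) (h : Dens k P v τ (Q - P)) : ∀ j : ℕ, ∃ ψ : W → ℝ,
      ev (fun z => ψ z ^ (2 * (k + 1))) (P ^ j)
        ≤ ((1 + orc k * (2 * (v + τ)) ^ 2) ^ j - 1) ^ (k + 1) ∧
      ev (fun z => (1 + ψ z) ^ (2 * (k + 1))) (P ^ j)
        ≤ ((1 + orc k * (2 * (v + τ)) ^ 2) ^ j) ^ (k + 1) ∧
      l1 (Q ^ j - tilt (fun z => 1 + ψ z) (P ^ j))
        ≤ j * (2 * τ * Real.sqrt ((1 + orc k * (2 * (v + τ)) ^ 2) ^ j))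
  | 0 => ⟨fun _ => 0, by simp [ev_const], by simp [ev_const, mass_one],
      by simp [tilt_one, l1_zero]⟩
  | j + 1 => by
    obtain ⟨ψ, h1, h2, h3⟩ := power_dens_aux hP hP1 hQ hQ1 hv h j
    have hτ := h.nonneg
    obtain ⟨f, hf0, hf, hfl⟩ := h.to0 hP hP1 hv (by rw [map_sub, hP1, hQ1, sub_self])
    set v' := 2 * (v + τ) with hv'
    have hv'0 : 0 < v' := by rw [hv']; linarith
    set κ := 1 + orc k * v' ^ 2 with hκ
    have horc := one_le_orc k
    have hκ1 : 1 ≤ κ := by rw [hκ]; nlinarith
    have hκj : 1 ≤ κ ^ j := one_le_pow₀ hκ1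
    have hPj : Pos (P ^ j) := hP.pow j
    have hPj1 : mass (P ^ j) = 1 := mass_pow_one hP1 j
    set G : W → W → ℝ := fun u x => f x * (1 + ψ u) with hG
    have hG0 : ∀ u, ev (G u) P = 0 := fun u => by
      rw [show G u = fun x => (1 + ψ u) * f x from funext fun x => mul_comm _ _, ev_smul_test, hf0,
        mul_zero]
    have hGm : ev2 (fun u x => G u x ^ (2 * (k + 1))) (P ^ j) P ≤ (v' ^ 2 * κ ^ j) ^ (k + 1) := by
      rw [mul_pow (v' ^ 2), mul_comm ((v' ^ 2) ^ (k + 1)),
        show (fun u x => G u x ^ (2 * (k + 1)))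
          = fun u x => (1 + ψ u) ^ (2 * (k + 1)) * f x ^ (2 * (k + 1)) from
          funext fun u => funext fun x => by simp only [hG, mul_pow, mul_comm]]
      rw [ev2_mul (fun u => (1 + ψ u) ^ (2 * (k + 1))) fun x => f x ^ (2 * (k + 1))]
      exact mul_le_mul h2 (hf.trans_eq (pow_two_mul_eq _ _))
        (ev_nonneg hP fun z => (even_two_mul _).pow_nonneg _) (by positivity)
    obtain ⟨H, hH, hHm⟩ := exists_push hPj hP fun u x => ψ u + G u x
    obtain ⟨H', hH', hHm'⟩ := exists_push hPj hP fun u x => 1 + ψ u + G u x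
    have hsame : tilt H' (P ^ j * P) = tilt (fun z => 1 + H z) (P ^ j * P) := by
      refine ext_ev fun φ => ?_
      rw [tilt_add, tilt_one, map_add, hH, hH', ev2_prod]
      unfold ev2
      rw [← ev_congr_add]
      refine ev_congr_on fun u _ => ?_
      rw [← ev_congr_add]
      exact ev_congr_on fun x _ => by ring
    have hY : 0 < v' ^ 2 * κ ^ j := by positivity
    have hpow : κ ^ (j + 1) = κ ^ j + orc k * (v' ^ 2 * κ ^ j) := by
      rw [pow_succ, hκ]; ring
    refine ⟨H, ?_, ?_, ?_⟩
    · rw [pow_succ P]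
      refine (hHm k).trans ((ev2_add_le hPj hP hP1 ψ G (sub_nonneg.2 hκj) hY hG0 h1 hGm).trans_eq ?_)
      rw [hpow]; ring_nf
    · rw [pow_succ P, ← ev_comp_of_tilt_eq hsame fun r => r ^ (2 * (k + 1))]
      refine (hHm' k).trans ((ev2_add_le hPj hP hP1 (fun u => 1 + ψ u) G (by positivity) hY hG0 h2
        hGm).trans_eq ?_)
      rw [hpow]
    · rw [pow_succ P, ← hsame]
      have e : tilt H' (P ^ j * P)
          = tilt (fun z => 1 + ψ z) (P ^ j) * tilt (fun z => 1 + f z) P := by
        refine ext_ev fun φ => ?_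
        rw [hH', ev_mul, ev_tilt]
        unfold ev2
        refine ev_congr_on fun u _ => ?_
        rw [ev_tilt, ← ev_smul_test]
        exact ev_congr_on fun x _ => by simp only [hG]; ring
      rw [e, pow_succ Q, show Q ^ j * Q - tilt (fun z => 1 + ψ z) (P ^ j) * tilt (fun z => 1 + f z) P
        = (Q ^ j - tilt (fun z => 1 + ψ z) (P ^ j)) * Q
          + tilt (fun z => 1 + ψ z) (P ^ j) * (Q - tilt (fun z => 1 + f z) P) by
        rw [sub_mul, mul_sub]; abel]
      have hs1 : 1 ≤ Real.sqrt (κ ^ j) := Real.one_le_sqrt.2 hκj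
      have hs2 : Real.sqrt (κ ^ j) ≤ Real.sqrt (κ ^ (j + 1)) :=
        Real.sqrt_le_sqrt (pow_le_pow_right₀ hκ1 (Nat.le_succ j))
      have a1 : l1 ((Q ^ j - tilt (fun z => 1 + ψ z) (P ^ j)) * Q)
          ≤ j * (2 * τ * Real.sqrt (κ ^ j)) := by
        refine (l1_mul _ _).trans ?_
        rw [l1_eq_mass hQ, hQ1, mul_one]; exact h3
      have a2 : l1 (tilt (fun z => 1 + ψ z) (P ^ j) * (Q - tilt (fun z => 1 + f z) P))
          ≤ Real.sqrt (κ ^ j) * (2 * τ) := by
        refine (l1_mul _ _).trans (mul_le_mul (l1_tilt_le (k := k) hPj hPj1 (Real.sqrt_nonneg _) ?_) ?_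
          (l1_nonneg _) (Real.sqrt_nonneg _))
        · exact h2.trans_eq (sqrt_pow_two_mul (by positivity) k).symm
        · rwa [tilt_add, tilt_one, ← sub_sub]
      refine (l1_add _ _).trans ((add_le_add a1 a2).trans ?_)
      push_cast
      have hj0 : (0 : ℝ) ≤ j := Nat.cast_nonneg j
      nlinarith [mul_le_mul_of_nonneg_left hs2 (mul_nonneg hj0 hτ), mul_le_mul_of_nonneg_left hs2 hτ]

theorem one_add_pow_le {x : ℝ} (hx : 0 ≤ x) : ∀ j : ℕ, (j : ℝ) * x ≤ 1 / 2 →
    (1 + x) ^ j ≤ 1 + 2 * j * x
  | 0, _ => by simp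
  | j + 1, h => by
    push_cast at h ⊢
    have ih := one_add_pow_le hx j (by linarith)
    rw [pow_succ]
    refine (mul_le_mul_of_nonneg_right ih (by linarith)).trans ?_
    nlinarith

/-- Powers of a nearby law: squared norms add. -/
theorem power_dens (hP : Pos P) (hP1 : mass P = 1) (hQ : Pos Q) (hQ1 : mass Q = 1)
    (hv : 0 < v) (h : Dens k P v τ (Q - P)) (j : ℕ)
    (hj : (j : ℝ) * (orc k * (2 * (v + τ)) ^ 2) ≤ 1 / 2) :
    Dens k (P ^ j) (2 * Real.sqrt (2 * j * orc k) * (v + τ)) (4 * j * τ) (Q ^ j - P ^ j) ∧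
      Dens k (P ^ j) 2 (4 * j * τ) (Q ^ j) := by
  obtain ⟨ψ, h1, h2, h3⟩ := power_dens_aux hP hP1 hQ hQ1 hv h j
  have hτ := h.nonneg
  have horc := one_le_orc k
  set x := orc k * (2 * (v + τ)) ^ 2 with hx
  have hx0 : 0 ≤ x := by positivity
  have hb := one_add_pow_le hx0 j hj
  have h1le : (1 : ℝ) ≤ (1 + x) ^ j := one_le_pow₀ (by linarith)
  have h4 : (1 + x) ^ j ≤ 2 ^ 2 := by nlinarith
  have herr : (j : ℝ) * (2 * τ * Real.sqrt ((1 + x) ^ j)) ≤ 4 * j * τ := by
    have : Real.sqrt ((1 + x) ^ j) ≤ 2 := by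
      rw [← Real.sqrt_sq (show (0 : ℝ) ≤ 2 by norm_num)]; exact Real.sqrt_le_sqrt h4
    have : (0 : ℝ) ≤ j := Nat.cast_nonneg j
    nlinarith [mul_nonneg this hτ]
  constructor
  · refine ⟨ψ, h1.trans ?_, ?_⟩
    · rw [pow_two_mul_eq]
      refine pow_le_pow_left₀ (by linarith) ?_ _
      rw [mul_pow, mul_pow, Real.sq_sqrt (by positivity)]
      rw [hx] at hb ⊢
      linarith [mul_pow (2 : ℝ) (v + τ) 2]
    · refine le_trans (le_of_eq ?_) (h3.trans herr)
      rw [tilt_add, tilt_one, ← sub_sub]
  · refine ⟨fun z => 1 + ψ z, h2.trans ?_, h3.trans herr⟩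
    rw [pow_two_mul_eq]
    exact pow_le_pow_left₀ (by linarith) h4 _

/-- Change of the reference measure. -/
theorem change_ref {X : A} {γ τX : ℝ} (hP : Pos P) (hQ : Pos Q) (hγ : 0 ≤ γ)
    (hPQ : Dens k P v τ (Q - P)) (hX : Dens k P γ τX X) :
    Dens k Q (2 * γ) (τX + γ ^ (2 * (k + 1)) + ((4 * v) ^ (2 * (k + 1)) + 4 * τ)) X := by
  classical
  obtain ⟨h, hh, hhl⟩ := hPQ
  obtain ⟨f, hf, hfl⟩ := hX
  set p := 2 * (k + 1) with hp
  set g : W → ℝ := fun z =>
    if P.coeff z ≤ 2 * Q.coeff z then f z * (P.coeff z / Q.coeff z) else 0 with hg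
  set f1 : W → ℝ := fun z => if P.coeff z ≤ 2 * Q.coeff z then f z else 0 with hf1
  have htilt : tilt g Q = tilt f1 P := by
    ext z
    rw [coeff_tilt, coeff_tilt]
    simp only [hg, hf1]
    split_ifs with hz
    · rcases eq_or_ne (Q.coeff z) 0 with h0 | h0
      · have hP0 : P.coeff z = 0 := le_antisymm (by linarith) (hP z)
        rw [h0, hP0]; ring
      · field_simp
    · ring
  refine ⟨g, ?_, ?_⟩
  · set Z := P.coeff.support ∪ Q.coeff.support with hZ
    unfold Mom
    rw [ev_apply_of_subset _ Q Z Finset.subset_union_right]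
    calc ∑ z ∈ Z, Q.coeff z * g z ^ p ≤ ∑ z ∈ Z, 2 ^ p * (P.coeff z * f z ^ p) := by
          refine Finset.sum_le_sum fun z _ => ?_
          have hfp : 0 ≤ f z ^ p := (even_two_mul _).pow_nonneg _
          have hR : 0 ≤ 2 ^ p * (P.coeff z * f z ^ p) :=
            mul_nonneg (by positivity) (mul_nonneg (hP z) hfp)
          simp only [hg]
          split_ifs with hz
          · rcases eq_or_ne (Q.coeff z) 0 with h0 | h0
            · rw [h0, zero_mul]; exact hR
            · have hq : 0 < Q.coeff z := lt_of_le_of_ne (hQ z) (Ne.symm h0)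
              have hr : P.coeff z / Q.coeff z ≤ 2 := by rw [div_le_iff₀ hq]; linarith
              have hr0 : 0 ≤ P.coeff z / Q.coeff z := div_nonneg (hP z) hq.le
              have e : Q.coeff z * (f z * (P.coeff z / Q.coeff z)) ^ p
                  = P.coeff z * f z ^ p * (P.coeff z / Q.coeff z) ^ (p - 1) := by
                have hps : p = (p - 1) + 1 := by omega
                rw [mul_pow]
                nth_rw 2 [hps]
                rw [pow_succ (P.coeff z / Q.coeff z)]
                field_simp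
              rw [e, mul_comm (2 ^ p)]
              refine mul_le_mul_of_nonneg_left ?_ (mul_nonneg (hP z) hfp)
              exact (pow_le_pow_left₀ hr0 hr _).trans (pow_le_pow_right₀ (by norm_num) (by omega))
          · rw [zero_pow (by omega), mul_zero]; exact hR
      _ ≤ (2 * γ) ^ p := by
          rw [← Finset.mul_sum, ← ev_apply_of_subset (fun z => f z ^ p) P Z Finset.subset_union_left,
            mul_pow]
          exact mul_le_mul_of_nonneg_left hf (by positivity)
  · rw [htilt, ← sub_add_sub_cancel X (tilt f P) (tilt f1 P)]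
    refine (l1_add _ _).trans ?_
    rw [add_assoc]
    refine add_le_add hfl ?_
    set E := Q - P - tilt h P with hE
    set G : W → ℝ := fun z => if P.coeff z ≤ 2 * Q.coeff z then 0 else 1 with hG
    have hb : ev G P ≤ (4 * v) ^ p + 4 * τ := by
      set Z := P.coeff.support ∪ E.coeff.support with hZ
      calc ev G P = ∑ z ∈ Z, P.coeff z * G z := ev_apply_of_subset _ _ _ Finset.subset_union_left
        _ ≤ ∑ z ∈ Z, (4 ^ p * (P.coeff z * h z ^ p) + 4 * |E.coeff z|) := by
            refine Finset.sum_le_sum fun z _ => ?_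
            have hPz := hP z
            have hh0 : 0 ≤ 4 ^ p * (P.coeff z * h z ^ p) :=
              mul_nonneg (by positivity) (mul_nonneg hPz ((even_two_mul _).pow_nonneg _))
            have ha := abs_nonneg (E.coeff z)
            simp only [hG]
            split_ifs with hz
            · linarith
            · rw [mul_one]
              have he : E.coeff z = Q.coeff z - P.coeff z - h z * P.coeff z := by
                simp [hE, coeff_tilt]
              rcases lt_or_ge |h z| (1 / 4) with h4 | h4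
              · have : |h z * P.coeff z| ≤ 1 / 4 * P.coeff z := by
                  rw [abs_mul, abs_of_nonneg hPz]; exact mul_le_mul_of_nonneg_right h4.le hPz
                have := abs_le.1 this
                have := neg_abs_le (E.coeff z)
                linarith
              · have : (1 : ℝ) ≤ 4 ^ p * h z ^ p := by
                  rw [← mul_pow, ← (even_two_mul (k + 1)).pow_abs (4 * h z)]
                  refine one_le_pow₀ ?_
                  rw [abs_mul, abs_of_pos (show (0 : ℝ) < 4 by norm_num)]; linarith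
                nlinarith [mul_le_mul_of_nonneg_left this hPz]
        _ ≤ _ := by
            rw [Finset.sum_add_distrib, ← Finset.mul_sum, ← Finset.mul_sum,
              ← ev_apply_of_subset (fun z => h z ^ p) P Z Finset.subset_union_left, mul_pow]
            refine add_le_add (mul_le_mul_of_nonneg_left hh (by positivity))
              (mul_le_mul_of_nonneg_left ?_ (by norm_num))
            refine le_trans (le_of_eq ?_) hhl
            rw [l1]
            exact (Finset.sum_subset Finset.subset_union_right fun z _ hz => by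
              rw [Finsupp.notMem_support_iff.1 hz, abs_zero]).symm
    rw [show tilt f P - tilt f1 P = tilt (fun z => f z * G z) P by
      ext z; simp [coeff_tilt, hG, hf1]; split_ifs <;> ring]
    refine (l1_tilt hP).trans ((ev_mono hP (ψ := fun z => f z ^ p + G z) fun z => ?_).trans ?_)
    · simp only [hG]
      have hfp : 0 ≤ f z ^ p := (even_two_mul _).pow_nonneg _
      split_ifs
      · simpa using hfp
      · rw [mul_one]
        rcases le_total |f z| 1 with h' | h'
        · linarith
        · have : |f z| ≤ |f z| ^ p := le_self_pow₀ h' (by omega)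
          rw [(even_two_mul (k + 1)).pow_abs] at this
          linarith
    · rw [ev_congr_add]
      exact add_le_add hf hb

end Vale.Agent.P321
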