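import Mathlib
import Vale.Agent.P321.Algebra
import Vale.Agent.P321.Super.Moment
import Vale.Agent.P321.Super.Master
import Vale.Agent.P321.Super.Power
import Vale.Agent.P321.Super.Pattern

/-!
One level of the construction, and the family bound for a flawed site of the next one.
-/

open scoped BigOperators
open Finset

noncomputable section

namespace Vale.Agent.P321

/-- The data of a level: the laws `β`, `φ` of the two blocks, compared with `α ^ n`. -/
structure Lvl (k : ℕ) where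
  α : A
  β : A
  φ : A
  zE : A
  zL : A
  n : ℕ
  d : ℕ
  ℓ : ℕ
  S : ℝ
  γE : ℝ
  γ : ℝ
  η : ℝ
  posα : Pos α
  massα : mass α = 1
  posβ : Pos β
  massβ : mass β = 1
  massφ : mass φ = 1
  smooth : Sm α S
  hn : n = 2 * d + ℓ
  hℓ : 0 < ℓ
  hℓd : ℓ ≤ d
  hE : l1 (β - α ^ n - α ^ d * zE * α ^ d) ≤ η
  hD : l1 (φ - β - α ^ d * zL * α ^ d) ≤ η
  mass_zE : mass zE = 0
  mass_zL : mass zL = 0
  famE : Fam k α zE ℓ γE η
  famL : Fam k α zL ℓ γ η
  γE_pos : 0 < γE
  γ_pos : 0 < γ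
  γE_le : γE ≤ 1
  γ_le : γ ≤ 1
  η_le : η ≤ 1

theorem Dens.weak {k : ℕ} {P Y : A} {γ τ γ' τ' : ℝ} (h : Dens k P γ τ Y) (hγ : 0 ≤ γ)
    (h1 : γ ≤ γ') (h2 : τ ≤ τ') : Dens k P γ' τ' Y :=
  h.mono hγ h1 h2

namespace Lvl

variable {k : ℕ} (T : Lvl k)

/-- The change from an unflawed to a flawed block. -/
def D : A := T.φ - T.β

theorem mass_D : mass T.D = 0 := by rw [D, map_sub, T.massφ, T.massβ, sub_self]

theorem η_nonneg : 0 ≤ T.η := (l1_nonneg _).trans T.hD

theorem dens_block {z Y : A} {γ : ℝ} (hf : Fam k T.α z T.ℓ γ T.η) (hγ : 0 ≤ γ)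
    (hY : l1 (Y - T.α ^ T.d * z * T.α ^ T.d) ≤ T.η) : Dens k (T.α ^ T.n) γ (2 * T.η) Y := by
  have h0 := ((hf.single T.hℓ).append T.posα T.massα hγ (T.d - T.ℓ)).prepend T.posα T.massα T.d
  have hdℓ := T.hℓd
  have hn := T.hn
  rw [pow_zero, one_mul, Nat.sub_zero, show T.d + (2 * T.ℓ + (T.d - T.ℓ)) = T.n by omega,
    show T.α ^ T.d * (z * T.α ^ T.ℓ * T.α ^ (T.d - T.ℓ)) = T.α ^ T.d * z * T.α ^ T.d by
      rw [mul_assoc z, ← pow_add, Nat.add_sub_cancel' hdℓ, ← mul_assoc]] at h0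
  exact (h0.congr_l1 hY).mono hγ le_rfl (by linarith)

theorem dens_E : Dens k (T.α ^ T.n) T.γE (2 * T.η) (T.β - T.α ^ T.n) :=
  T.dens_block T.famE T.γE_pos.le T.hE

theorem dens_D : Dens k (T.α ^ T.n) T.γ (2 * T.η) T.D :=
  T.dens_block T.famL T.γ_pos.le T.hD

theorem dens_β : Dens k (T.α ^ T.n) 2 (2 * T.η) T.β := by
  have h := (dens_self (k := k) (mass_pow_one T.massα T.n)).add (T.posα.pow _) one_pos T.γE_pos T.dens_E
  rw [add_sub_cancel, zero_add] at h
  exact h.mono (by linarith [T.γE_pos]) (by linarith [T.γE_le]) le_rfl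

theorem dens_φ : Dens k (T.α ^ T.n) 3 (4 * T.η) (T.β + T.D) := by
  have h := T.dens_β.add (T.posα.pow _) two_pos T.γ_pos T.dens_D
  exact h.mono (by linarith [T.γ_pos]) (by linarith [T.γ_le]) (le_of_eq (by ring))

theorem dens_seg : ∀ e : List Bool,
    Dens k (T.α ^ (T.n * e.length)) (16 ^ e.length) (16 ^ e.length * T.η) (seg T.β T.D e)
  | [] => by
    simp only [List.length_nil, mul_zero, pow_zero, one_mul, seg]
    exact (dens_self (k := k) mass_one).mono zero_le_one le_rfl T.η_nonneg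
  | b :: e => by
    have ih := dens_seg e
    have hη := T.η_nonneg
    have hl1 := ih.l1_le (T.posα.pow _) (mass_pow_one T.massα _) (by positivity)
    have hX : Dens k (T.α ^ T.n) 3 (4 * T.η) (if b then T.β + T.D else T.β) := by
      cases b
      · exact T.dens_β.mono (by norm_num) (by norm_num) (by linarith)
      · exact T.dens_φ
    have h := hX.mul (T.posα.pow _) (mass_pow_one T.massα _) (T.posα.pow _) (by norm_num) ih
    rw [← pow_add, show T.n + T.n * e.length = T.n * (b :: e).length by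
      rw [List.length_cons]; ring] at h
    have hp : (0 : ℝ) < 16 ^ e.length := by positivity
    refine h.mono (by positivity) ?_ ?_
    · rw [List.length_cons, pow_succ]; linarith
    · rw [List.length_cons, pow_succ]
      nlinarith [mul_le_mul_of_nonneg_left hl1 (show (0 : ℝ) ≤ 4 * T.η by linarith),
        mul_le_mul_of_nonneg_left T.η_le (mul_nonneg hp.le hη), mul_nonneg hp.le hη]

theorem dens_dl : ∀ e : List Bool,
    Dens k (T.α ^ (T.n * e.length)) (16 ^ e.length * T.γ) (16 ^ e.length * T.η) (dl T.β T.D e)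
  | [] => by
    rw [dl_nil]
    exact dens_zero (mul_nonneg (by positivity) T.γ_pos.le) (mul_nonneg (by positivity) T.η_nonneg)
  | b :: e => by
    have ih := dens_dl e
    have hη := T.η_nonneg
    have hγ := T.γ_pos
    set c : ℝ := 16 ^ e.length with hc
    have hc1 : 1 ≤ c := one_le_pow₀ (by norm_num)
    have e0 : T.α ^ T.n * T.α ^ (T.n * e.length) = T.α ^ (T.n * (b :: e).length) := by
      rw [← pow_add, List.length_cons]; ring_nf
    have l0 := ih.l1_le (T.posα.pow _) (mass_pow_one T.massα _) (by positivity)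
    have h1 := T.dens_β.mul (T.posα.pow _) (mass_pow_one T.massα _) (T.posα.pow _) zero_le_two ih
    rw [e0] at h1
    have hle : c * T.η ≤ c := by nlinarith [T.η_le]
    have hle' : c * T.γ ≤ c := by nlinarith [T.γ_le]
    have h1' := h1.mono (by positivity) le_rfl
      (show 2 * T.η * l1 (dl T.β T.D e) + 2 * (c * T.η) ≤ 6 * c * T.η by nlinarith)
    rw [dl_cons, List.length_cons, pow_succ, ← hc]
    cases b
    · simp only [Bool.false_eq_true, ↓reduceIte, add_zero, List.length_cons] at h1' ⊢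
      exact h1'.mono (by positivity) (by nlinarith) (by nlinarith)
    · have hs := T.dens_seg e
      have ls := hs.l1_le (T.posα.pow _) (mass_pow_one T.massα _) (by positivity)
      have h2 := T.dens_D.mul (T.posα.pow _) (mass_pow_one T.massα _) (T.posα.pow _) hγ.le hs
      rw [e0, ← hc] at h2
      have h2' := h2.mono (by positivity) le_rfl
        (show 2 * T.η * l1 (seg T.β T.D e) + T.γ * (c * T.η) ≤ 5 * c * T.η by
          nlinarith [T.γ_le, mul_nonneg (by linarith : (0:ℝ) ≤ c) hη])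
      simp only [↓reduceIte, List.length_cons] at h1' h2' ⊢
      exact (h1'.add (T.posα.pow _) (by positivity) (by positivity) h2').mono (by positivity)
        (by nlinarith) (by nlinarith)

/-- Bounds for the parameters of the next level. -/
structure Step where
  M : ℕ
  K : ℕ
  a : ℕ
  w : ℕ
  m : ℕ
  ha : 1 ≤ a
  hm : 1 ≤ m
  hw : 1 ≤ w
  hK : 1 ≤ K
  hpad : m * a + m * w ≤ T.n * M
  hsep : m * w < T.n
  hsmall : ((2 * (2 * M + K) : ℕ) : ℝ) * (orc k * (2 * (T.γE + 2 * T.η)) ^ 2) ≤ 1 / 2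
  hη : 8 * ((2 * (2 * M + K) : ℕ) : ℝ) * T.η ≤ 1

variable {T} (p : T.Step)

/-- The length of the next core. -/
def Step.L : ℕ := 2 * p.M + p.K

/-- The visibility of a stretch of blocks. -/
def Step.V : ℝ := 2 * Real.sqrt (2 * ((2 * p.L : ℕ) : ℝ) * orc k) * (T.γE + 2 * T.η)

/-- Error of the stretch. -/
def Step.ηV : ℝ := 8 * ((2 * p.L : ℕ) : ℝ) * T.η

/-- Moment bound produced at a site with a suffix of norm `ρ`. -/
def Step.gain (ρ : ℝ) : ℝ :=
  2 * ((avc k p.m * (T.γ + T.η) / Real.sqrt p.w + 4 * (p.L : ℝ) * p.V * T.γ) * ρ)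

/-- Remainder of the averaging. -/
def Step.rem : ℝ := (2 * p.w * Real.sqrt (T.S / p.a)) ^ p.m

/-- Error produced at a site. -/
def Step.err (B ρ : ℝ) : ℝ :=
  (p.L : ℝ) * (50 * (p.m * 2 ^ p.m) * B * p.ηV + 4 * B * p.rem) + p.gain ρ ^ (2 * (k + 1))
    + ((4 * p.V) ^ (2 * (k + 1)) + 4 * p.ηV)

theorem Step.V_pos : 0 < p.V := by
  have := one_le_orc k
  have := T.γE_pos
  have := T.η_nonneg
  have : 0 < p.L := by have := p.hK; unfold Step.L; omega
  unfold Step.V
  positivity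

theorem Step.V_le : p.V ≤ 1 := by
  have horc := one_le_orc k
  have h := p.hsmall
  have h0 : (0 : ℝ) ≤ ((2 * p.L : ℕ) : ℝ) := Nat.cast_nonneg _
  unfold Step.V Step.L at *
  rw [← sq_le_one_iff₀ (by have := T.γE_pos; have := T.η_nonneg; positivity), mul_pow, mul_pow,
    Real.sq_sqrt (by positivity)]
  linarith [mul_pow (2 : ℝ) (T.γE + 2 * T.η) 2]

theorem Step.η_le_ηV : 2 * T.η ≤ p.ηV ∧ p.ηV ≤ 1 := by
  have h1 : (1 : ℝ) ≤ p.L := by
    have := p.hK
    exact_mod_cast (show 1 ≤ p.L by unfold Step.L; omega)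
  refine ⟨?_, p.hη⟩
  unfold Step.ηV
  push_cast
  nlinarith [T.η_nonneg]

theorem Step.stretch {j : ℕ} (hj : j ≤ 2 * p.L) :
    Dens k (T.α ^ (T.n * j)) p.V p.ηV (T.β ^ j - T.α ^ (T.n * j)) ∧
      Dens k (T.α ^ (T.n * j)) 2 p.ηV (T.β ^ j) := by
  have horc := one_le_orc k
  have hη := T.η_nonneg
  have hjR : (j : ℝ) ≤ ((2 * p.L : ℕ) : ℝ) := by exact_mod_cast hj
  obtain ⟨h1, h2⟩ := power_dens (T.posα.pow T.n) (mass_pow_one T.massα _) T.posβ T.massβ
    T.γE_pos T.dens_E j (le_trans (mul_le_mul_of_nonneg_right hjR (by positivity)) p.hsmall)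
  rw [← pow_mul] at h1 h2
  refine ⟨h1.mono (by have := T.γE_pos; positivity) ?_ ?_, h2.mono (by norm_num) le_rfl ?_⟩
  · unfold Step.V
    refine mul_le_mul_of_nonneg_right (mul_le_mul_of_nonneg_left (Real.sqrt_le_sqrt ?_) zero_le_two)
      (by linarith [T.γE_pos])
    exact mul_le_mul_of_nonneg_right (mul_le_mul_of_nonneg_left hjR zero_le_two) (by linarith)
  all_goals
    unfold Step.ηV
    nlinarith [mul_le_mul_of_nonneg_right hjR hη]

theorem Step.crude (q : ℕ) (Y : A) (len : ℕ) (hlen : q + 1 + len = p.K) {ρ B : ℝ} (hρ : 0 < ρ)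
    (hρB : ρ ≤ B) (hB : 1 ≤ B) (hY : Dens k (T.α ^ (T.n * len)) ρ (B * T.η) Y) {r : ℕ}
    (hr : r < p.L) :
    Dens k (T.α ^ (T.n * (2 * p.L))) (4 * p.V * T.γ * ρ) (50 * (B * p.ηV))
      ((T.β ^ (r + p.M + q) - T.α ^ (T.n * (r + p.M + q)))
          * (T.D * Y * T.β ^ (p.L - r + p.M))
        + T.α ^ (T.n * (r + p.M + q))
          * (T.D * Y * (T.β ^ (p.L - r + p.M) - T.α ^ (T.n * (p.L - r + p.M))))
        + T.α ^ (T.n * (r + p.M + q)) * ((T.D - T.α ^ T.d * T.zL * T.α ^ T.d) * Y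
          * T.α ^ (T.n * (p.L - r + p.M)))) := by
  have hη := T.η_nonneg
  obtain ⟨hηV, hηV1⟩ := p.η_le_ηV
  have hV0 := p.V_pos
  have hV1 := p.V_le
  have hγ0 := T.γ_pos
  have hγ1 := T.γ_le
  have hηV0 : 0 ≤ p.ηV := by linarith
  set e := B * p.ηV with he
  have he0 : 0 ≤ e := mul_nonneg (by linarith) hηV0
  have heB : e ≤ B := mul_le_of_le_one_right (by linarith) hηV1
  have heη : B * T.η ≤ e := mul_le_mul_of_nonneg_left (by linarith) (by linarith)
  have hηVe : p.ηV ≤ e := le_mul_of_one_le_left hηV0 hB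
  have hPos : ∀ j, Pos (T.α ^ j) := fun j => T.posα.pow j
  have hMass : ∀ j, mass (T.α ^ j) = 1 := fun j => mass_pow_one T.massα j
  have hρη : T.γ * ρ ≤ B := by nlinarith
  have lY := hY.l1_le (hPos _) (hMass _) hρ.le
  have hDY : Dens k (T.α ^ (T.n + T.n * len)) (T.γ * ρ) (5 * e) (T.D * Y) := by
    rw [pow_add]
    refine (T.dens_D.mul (hPos _) (hMass _) (hPos _) hγ0.le hY).mono (by positivity) le_rfl ?_
    have b1 : 2 * T.η * l1 Y ≤ 2 * T.η * (2 * B) :=
      mul_le_mul_of_nonneg_left (by nlinarith [T.η_le]) (by linarith)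
    have b2 : T.γ * (B * T.η) ≤ B * T.η := mul_le_of_le_one_left (mul_nonneg (by linarith) hη) hγ1
    linarith
  set P := r + p.M + q with hP
  set t := p.L - r + p.M with ht
  obtain ⟨hP1, -⟩ := p.stretch (show P ≤ 2 * p.L by unfold Step.L at *; omega)
  obtain ⟨ht1, ht2⟩ := p.stretch (show t ≤ 2 * p.L by unfold Step.L at *; omega)
  have hsum : P + (1 + len + t) = 2 * p.L := by unfold Step.L at *; omega
  have hadd : T.n * P + (T.n + T.n * len + T.n * t) = T.n * (2 * p.L) := by rw [← hsum]; ring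
  have lZ := ht1.l1_le (hPos _) (hMass _) hV0.le
  have lt := ht2.l1_le (hPos _) (hMass _) zero_le_two
  have a1 := hDY.mul (hPos _) (hMass _) (hPos _) (by positivity) ht2
  rw [← pow_add] at a1
  have a1' : Dens k (T.α ^ (T.n + T.n * len + T.n * t)) (T.γ * ρ * 2) (16 * e)
      (T.D * Y * T.β ^ t) := by
    refine a1.mono (by positivity) le_rfl ?_
    have b1 : 5 * e * l1 (T.β ^ t) ≤ 5 * e * 3 :=
      mul_le_mul_of_nonneg_left (by linarith) (by linarith)
    have b2 : T.γ * ρ * p.ηV ≤ B * p.ηV := mul_le_mul_of_nonneg_right hρη hηV0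
    linarith
  have l1' := a1'.l1_le (hPos _) (hMass _) (by positivity)
  have A1 := hP1.mul (hPos _) (hMass _) (hPos _) hV0.le a1'
  rw [← pow_add, hadd] at A1
  have a2 := hDY.mul (hPos _) (hMass _) (hPos _) (by positivity) ht1
  rw [← pow_add] at a2
  have A2 := a2.prepend T.posα T.massα (T.n * P)
  rw [hadd] at A2
  have hrest : Dens k (T.α ^ (T.n * (2 * p.L))) (T.γ * ρ * p.V) (4 * e)
      (T.α ^ (T.n * P) * ((T.D - T.α ^ T.d * T.zL * T.α ^ T.d) * Y * T.α ^ (T.n * t))) := by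
    have hz : l1 (T.α ^ (T.n * P)
        * ((T.D - T.α ^ T.d * T.zL * T.α ^ T.d) * Y * T.α ^ (T.n * t)) - 0) ≤ 4 * e := by
      rw [sub_zero]
      refine ((l1_pow_mul_le T.posα T.massα _ _).trans (l1_mul_pow_le T.posα T.massα _ _)).trans ?_
      refine (l1_mul _ _).trans
        ((mul_le_mul T.hD lY (l1_nonneg _) hη).trans ?_)
      have : T.η * (ρ + B * T.η) ≤ T.η * (2 * B) :=
        mul_le_mul_of_nonneg_left (by nlinarith [T.η_le]) hη
      linarith
    have := (dens_zero (k := k) (P := T.α ^ (T.n * (2 * p.L))) (γ := T.γ * ρ * p.V) (by positivity)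
      le_rfl).congr_l1 hz
    rwa [add_zero] at this
  refine ((A1.add (hPos _) (by positivity) (by positivity) A2).add (hPos _) (by positivity)
    (by positivity) hrest).mono (by positivity) ?_ ?_
  · nlinarith [mul_pos (mul_pos hγ0 hρ) hV0]
  · have b1 : p.ηV * l1 (T.D * Y * T.β ^ t) ≤ p.ηV * (18 * B) :=
      mul_le_mul_of_nonneg_left (by linarith) hηV0
    have b2 : p.V * (16 * e) ≤ 16 * e := mul_le_of_le_one_left (by linarith) hV1
    have b3 : 5 * e * l1 (T.β ^ t - T.α ^ (T.n * t)) ≤ 5 * e * 2 :=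
      mul_le_mul_of_nonneg_left (by linarith) (by linarith)
    have b4 : T.γ * ρ * p.ηV ≤ B * p.ηV := mul_le_mul_of_nonneg_right hρη hηV0
    linarith

theorem Step.pure_part (q : ℕ) (Y : A) (len : ℕ) (hlen : q + 1 + len = p.K) {ρ B : ℝ} (hρ : 0 < ρ)
    (hρB : ρ ≤ B) (hB : 1 ≤ B) (hY : Dens k (T.α ^ (T.n * len)) ρ (B * T.η) Y) (c : ℕ → ℝ)
    (hc : ∑ r ∈ range p.L, c r ^ 2 ≤ 1) :
    Dens k (T.α ^ (T.n * (2 * p.L))) (avc k p.m * (T.γ + T.η) / Real.sqrt p.w * ρ)
      ((p.L : ℝ) * ((p.m : ℝ) * 2 ^ p.m * (3 * (B * p.ηV)) + p.rem * (4 * B)))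
      (∑ r ∈ range p.L, c r • (T.α ^ (T.n * (r + p.M + q) + T.d) * T.zL * T.α ^ T.ℓ
        * (T.α ^ (T.d - T.ℓ) * Y * T.α ^ (T.n * (p.L - r))) * T.α ^ (T.n * p.M))) := by
  have hη := T.η_nonneg
  obtain ⟨hηV, hηV1⟩ := p.η_le_ηV
  have hηV0 : 0 ≤ p.ηV := by linarith
  have hγ0 := T.γ_pos
  set e := B * p.ηV with he
  have he0 : 0 ≤ e := mul_nonneg (by linarith) hηV0
  have heB : e ≤ B := mul_le_of_le_one_right (by linarith) hηV1
  have heη : B * T.η ≤ e := mul_le_mul_of_nonneg_left (by linarith) (by linarith)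
  obtain ⟨N, hN⟩ : ∃ N, N = T.n * (2 * p.L) := ⟨_, rfl⟩
  have hLdef : p.L = 2 * p.M + p.K := rfl
  have hnd := T.hn
  have hℓd := T.hℓd
  rw [← hN]
  have hav := average_bound T.famL T.smooth T.posα T.massα T.mass_zL hγ0 T.hℓ p.ha p.hm p.hw
    (N := N) (y := T.n * p.M) p.hpad (range p.L) (fun r => T.n * (r + p.M + q) + T.d)
    (fun r _ => by
      have := Nat.mul_le_mul_left T.n (show p.M ≤ r + p.M + q by omega)
      have := p.hpad
      omega)
    (fun r hr => by
      rw [Finset.mem_range] at hr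
      have := Nat.mul_le_mul_left T.n (show r + p.M + q + 1 + p.M ≤ 2 * p.L by omega)
      rw [Nat.mul_add, Nat.mul_succ, ← hN] at this
      omega)
    (fun i _ j _ hij => by
      have := p.hsep
      rcases lt_or_gt_of_ne hij with h' | h'
      · have := Nat.mul_le_mul_left T.n (show i + p.M + q + 1 ≤ j + p.M + q by omega)
        rw [Nat.mul_succ] at this; omega
      · have := Nat.mul_le_mul_left T.n (show j + p.M + q + 1 ≤ i + p.M + q by omega)
        rw [Nat.mul_succ] at this; omega)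
    c (fun r => T.α ^ (T.d - T.ℓ) * Y * T.α ^ (T.n * (p.L - r))) hρ (η := e) (fun r hr => by
      rw [Finset.mem_range] at hr
      have h2 := ((hY.append T.posα T.massα hρ.le (T.n * (p.L - r))).prepend T.posα T.massα
        (T.d - T.ℓ)).mono hρ.le le_rfl heη
      rw [← mul_assoc] at h2
      have hlin : N = T.n * (r + p.M + q) + T.n + T.n * len + T.n * (p.L - r) + T.n * p.M := by
        rw [hN, ← show r + p.M + q + 1 + len + (p.L - r) + p.M = 2 * p.L by omega]; ring
      have hidx : T.d - T.ℓ + (T.n * len + T.n * (p.L - r))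
          = N - T.n * p.M - (T.n * (r + p.M + q) + T.d) - 2 * T.ℓ := by omega
      rwa [hidx] at h2)
  have hcM := cM_pos k
  have hA : 0 ≤ avc k p.m := by unfold avc; positivity
  refine hav.mono (by positivity) ?_ ?_
  · rw [div_mul_eq_mul_div]
    exact div_le_div_of_nonneg_right
      (mul_le_of_le_one_right (by positivity) (Real.sqrt_le_one.2 hc)) (Real.sqrt_nonneg _)
  · have hrem : 0 ≤ p.rem := by unfold Step.rem; positivity
    have hsum1 : ∑ r ∈ range p.L, |c r| ≤ p.L := by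
      refine (Finset.sum_le_sum (g := fun _ => (1 : ℝ)) fun r hr => ?_).trans (by simp)
      rw [← sq_le_one_iff_abs_le_one]
      exact le_trans (Finset.single_le_sum (f := fun i => c i ^ 2) (fun i _ => sq_nonneg _) hr) hc
    have b1 : (T.γ + T.η) * e + 2 * T.η * ρ ≤ 3 * e := by
      have c1 : (T.γ + T.η) * e ≤ 2 * e :=
        mul_le_mul_of_nonneg_right (by linarith [T.γ_le, T.η_le]) he0
      have c2 : 2 * T.η * ρ ≤ p.ηV * B := mul_le_mul hηV hρB hρ.le hηV0
      linarith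
    have b2 : (T.γ + T.η) * (ρ + e) ≤ 4 * B := by
      have := mul_le_mul (show T.γ + T.η ≤ 2 by linarith [T.γ_le, T.η_le])
        (show ρ + e ≤ 2 * B by linarith) (by linarith) zero_le_two
      linarith
    refine mul_le_mul hsum1 (add_le_add (mul_le_mul_of_nonneg_left b1 (by positivity))
      (mul_le_mul_of_nonneg_left b2 hrem)) ?_ (Nat.cast_nonneg _)
    have : 0 ≤ T.γ + T.η := by linarith
    positivity

/-- The family bound for one flawed site. -/
theorem Step.site (q : ℕ) (Y : A) (len : ℕ) (hlen : q + 1 + len = p.K) {ρ B : ℝ} (hρ : 0 < ρ)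
    (hρB : ρ ≤ B) (hB : 1 ≤ B) (hY : Dens k (T.α ^ (T.n * len)) ρ (B * T.η) Y) :
    Fam k T.β (T.β ^ (p.M + q) * T.D * Y * T.β ^ p.M) p.L (p.gain ρ) (p.err B ρ) := by
  intro c hc
  have hη := T.η_nonneg
  obtain ⟨hηV, hηV1⟩ := p.η_le_ηV
  have hV0 := p.V_pos
  have hγ0 := T.γ_pos
  have hηV0 : 0 ≤ p.ηV := by linarith
  have hcM := cM_pos k
  have hA : 0 < avc k p.m := by
    have : (0 : ℝ) < p.m := by exact_mod_cast p.hm
    unfold avc; positivity
  have hw0 : (0 : ℝ) < p.w := by exact_mod_cast p.hw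
  have hLpos : (0 : ℝ) < p.L := by
    have := p.hK
    exact_mod_cast (show 0 < p.L by unfold Step.L; omega)
  have hrem : 0 ≤ p.rem := by unfold Step.rem; positivity
  set e := B * p.ηV with he
  have he0 : 0 ≤ e := mul_nonneg (by linarith) hηV0
  have habs : ∀ r ∈ range p.L, |c r| ≤ 1 := fun r hr => by
    rw [← sq_le_one_iff_abs_le_one]
    exact le_trans (Finset.single_le_sum (f := fun i => c i ^ 2) (fun i _ => sq_nonneg _) hr) hc
  have hterm : ∀ r ∈ range p.L, Dens k (T.α ^ (T.n * (2 * p.L))) (4 * p.V * T.γ * ρ) (50 * e)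
      (c r • ((T.β ^ (r + p.M + q) - T.α ^ (T.n * (r + p.M + q)))
          * (T.D * Y * T.β ^ (p.L - r + p.M))
        + T.α ^ (T.n * (r + p.M + q))
          * (T.D * Y * (T.β ^ (p.L - r + p.M) - T.α ^ (T.n * (p.L - r + p.M))))
        + T.α ^ (T.n * (r + p.M + q)) * ((T.D - T.α ^ T.d * T.zL * T.α ^ T.d) * Y
          * T.α ^ (T.n * (p.L - r + p.M))))) := fun r hr =>
    ((p.crude q Y len hlen hρ hρB hB hY (Finset.mem_range.1 hr)).smul (c r)).mono (by positivity)
      (mul_le_of_le_one_left (by positivity) (habs r hr))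
      (mul_le_of_le_one_left (by positivity) (habs r hr))
  have hcs := Dens.sum (T.posα.pow _) (range p.L) _ _ _ (fun _ _ => by positivity) hterm
  rw [Finset.sum_const, Finset.sum_const, Finset.card_range, nsmul_eq_mul, nsmul_eq_mul] at hcs
  have hall := hcs.add (T.posα.pow _) (by positivity) (by positivity)
    (p.pure_part q Y len hlen hρ hρB hB hY c hc)
  have hsplit : ∑ r ∈ range p.L, c r • (T.β ^ r * (T.β ^ (p.M + q) * T.D * Y * T.β ^ p.M)
        * T.β ^ (p.L - r))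
      = (∑ r ∈ range p.L, c r •
        ((T.β ^ (r + p.M + q) - T.α ^ (T.n * (r + p.M + q))) * (T.D * Y * T.β ^ (p.L - r + p.M))
        + T.α ^ (T.n * (r + p.M + q))
          * (T.D * Y * (T.β ^ (p.L - r + p.M) - T.α ^ (T.n * (p.L - r + p.M))))
        + T.α ^ (T.n * (r + p.M + q)) * ((T.D - T.α ^ T.d * T.zL * T.α ^ T.d) * Y
          * T.α ^ (T.n * (p.L - r + p.M)))))
      + ∑ r ∈ range p.L, c r • (T.α ^ (T.n * (r + p.M + q) + T.d) * T.zL * T.α ^ T.ℓ
          * (T.α ^ (T.d - T.ℓ) * Y * T.α ^ (T.n * (p.L - r))) * T.α ^ (T.n * p.M)) := by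
    rw [← Finset.sum_add_distrib]
    refine Finset.sum_congr rfl fun r _ => ?_
    rw [← smul_add]
    congr 1
    have hd : T.d = T.ℓ + (T.d - T.ℓ) := by have := T.hℓd; omega
    have e1 : T.β ^ r * (T.β ^ (p.M + q) * T.D * Y * T.β ^ p.M) * T.β ^ (p.L - r)
        = T.β ^ (r + p.M + q) * (T.D * Y * T.β ^ (p.L - r + p.M)) := by
      rw [add_assoc r, pow_add T.β r, pow_split T.β (show p.L - r + p.M = p.M + (p.L - r) by ring)]
      simp only [mul_assoc]
    have e2 : T.α ^ (T.n * (r + p.M + q) + T.d) * T.zL * T.α ^ T.ℓ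
          * (T.α ^ (T.d - T.ℓ) * Y * T.α ^ (T.n * (p.L - r))) * T.α ^ (T.n * p.M)
        = T.α ^ (T.n * (r + p.M + q)) * ((T.α ^ T.d * T.zL * T.α ^ T.d) * Y
          * T.α ^ (T.n * (p.L - r + p.M))) := by
      rw [pow_add T.α (T.n * (r + p.M + q)), mul_add T.n (p.L - r), pow_add T.α (T.n * (p.L - r))]
      nth_rw 3 [pow_split T.α hd]
      simp only [mul_assoc]
    rw [e1, e2]
    noncomm_ring
  rw [← hsplit] at hall
  have hgain : 0 ≤ p.gain ρ / 2 := by unfold Step.gain; positivity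
  have hXα : Dens k (T.α ^ (T.n * (2 * p.L))) (p.gain ρ / 2)
      ((p.L : ℝ) * (50 * ((p.m : ℝ) * 2 ^ p.m) * B * p.ηV + 4 * B * p.rem))
      (∑ r ∈ range p.L, c r • (T.β ^ r * (T.β ^ (p.M + q) * T.D * Y * T.β ^ p.M)
        * T.β ^ (p.L - r))) := by
    refine hall.mono (by positivity) (le_of_eq ?_) ?_
    · unfold Step.gain; ring
    · have h1m : (1 : ℝ) ≤ p.m := by exact_mod_cast p.hm
      have h2m : (2 : ℝ) ≤ 2 ^ p.m := le_self_pow₀ (by norm_num) (by have := p.hm; omega)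
      have : (p.L : ℝ) * (50 * e + (p.m : ℝ) * 2 ^ p.m * (3 * e))
          ≤ (p.L : ℝ) * (50 * ((p.m : ℝ) * 2 ^ p.m) * e) := by
        refine mul_le_mul_of_nonneg_left ?_ hLpos.le
        have : 2 * e ≤ (p.m : ℝ) * 2 ^ p.m * e :=
          mul_le_mul_of_nonneg_right (by nlinarith) he0
        linarith
      rw [he] at *
      linarith
  obtain ⟨hsV, -⟩ := p.stretch (le_refl (2 * p.L))
  have hfin := change_ref (T.posα.pow _) (T.posβ.pow _) hgain hsV hXα
  rw [mul_div_cancel₀ _ (two_ne_zero' ℝ)] at hfin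
  refine hfin.mono (by linarith) le_rfl ?_
  unfold Step.err
  have : (p.gain ρ / 2) ^ (2 * (k + 1)) ≤ p.gain ρ ^ (2 * (k + 1)) :=
    pow_le_pow_left₀ hgain (by linarith) _
  linarith

end Lvl

end Vale.Agent.P321
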