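import Mathlib
import Vale.Agent.P321.Algebra
import Vale.Agent.P321.Super.Site

/-!
Smoothing of the block law of a level, from the bounds on its visibility.
-/

open scoped BigOperators
open Finset

noncomputable section

namespace Vale.Agent.P321

/-- Two laws at `ℓ¹` distance at most one share half of their mass. -/
theorem exists_common {X Y : A} (hX : Pos X) (hY : Pos Y) (hX1 : mass X = 1) (hY1 : mass Y = 1)
    (h : l1 (X - Y) ≤ 1) : ∃ C : A, Pos C ∧ 1 / 2 ≤ mass C ∧ Pos (X - C) ∧ Pos (Y - C) := by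
  classical
  set g : W → ℝ := fun z => if Y.coeff z ≤ X.coeff z then 1 else 0 with hg
  set C := X - tilt g (X - Y) with hC
  have hcC : ∀ z, C.coeff z = min (X.coeff z) (Y.coeff z) := fun z => by
    simp only [hC, MonoidAlgebra.coeff_sub, Finsupp.sub_apply, coeff_tilt, hg]
    split_ifs with h'
    · rw [min_eq_right h']; ring
    · rw [min_eq_left (le_of_lt (not_le.1 h'))]; ring
  refine ⟨C, fun z => ?_, ?_, fun z => ?_, fun z => ?_⟩
  · rw [hcC]; exact le_min (hX z) (hY z)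
  · set φ : W → ℝ := fun z => 2 * g z - 1 with hφ
    have hb : ∀ z, |φ z| ≤ 1 := fun z => by simp only [hφ, hg]; split_ifs <;> norm_num
    have := (le_abs_self _).trans ((abs_ev_le (X := X - Y) hb).trans (by rw [one_mul]))
    have e : ev φ (X - Y) = 2 * mass (tilt g (X - Y)) := by
      rw [hφ, ev_sub_test, ev_smul_test, ev_const, one_mul, map_sub mass, hX1, hY1, sub_self,
        sub_zero]
      unfold mass
      rw [ev_tilt]
      simp
    rw [e] at this
    rw [hC, map_sub, hX1]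
    linarith
  · rw [MonoidAlgebra.coeff_sub, Finsupp.sub_apply, hcC, sub_nonneg]; exact min_le_left _ _
  · rw [MonoidAlgebra.coeff_sub, Finsupp.sub_apply, hcC, sub_nonneg]; exact min_le_right _ _

theorem pow_sub_pow_eq (X Y : A) : ∀ c : ℕ,
    X ^ c - Y ^ c = ∑ i ∈ range c, Y ^ i * (X - Y) * X ^ (c - 1 - i)
  | 0 => by simp
  | c + 1 => by
    rw [Finset.sum_range_succ']
    have e : ∀ i ∈ range c, Y ^ (i + 1) * (X - Y) * X ^ (c + 1 - 1 - (i + 1))
        = Y * (Y ^ i * (X - Y) * X ^ (c - 1 - i)) := fun i _ => by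
      rw [show c + 1 - 1 - (i + 1) = c - 1 - i by omega, pow_succ']
      simp only [mul_assoc]
    rw [Finset.sum_congr rfl e, ← Finset.mul_sum, ← pow_sub_pow_eq X Y c, pow_zero, one_mul,
      Nat.add_sub_cancel, Nat.sub_zero, pow_succ', pow_succ', mul_sub, sub_mul]
    abel

namespace Lvl

variable {k : ℕ} (T : Lvl k)

/-- Norm of the deviation of a chunk of `2e + c` blocks. -/
def chunkV (c e w m : ℕ) : ℝ :=
  8 * Real.sqrt (2 * (e : ℝ) * orc k) * (T.γE + 2 * T.η)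
    + avc k m * (T.γE + T.η) * 2 * Real.sqrt c / Real.sqrt w

/-- Error of a chunk. -/
def chunkErr (c e a w m : ℕ) : ℝ :=
  64 * ((2 * e + c : ℕ) : ℝ) * T.η + c * (21 * (m * 2 ^ m) * ((2 * e + c : ℕ) : ℝ) * T.η
    + 6 * (2 * w * Real.sqrt (T.S / a)) ^ m)

theorem chunk_bound {c e a w m : ℕ} (ha : 1 ≤ a) (hm : 1 ≤ m) (hw : 1 ≤ w) (he : 1 ≤ e)
    (hc : 1 ≤ c) (hpad : m * a + m * w ≤ T.n * e) (hsep : m * w < T.n)
    (hsmall : ((2 * e + c : ℕ) : ℝ) * (orc k * (2 * (T.γE + 2 * T.η)) ^ 2) ≤ 1 / 2)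
    (hη8 : 8 * ((2 * e + c : ℕ) : ℝ) * T.η ≤ 1) :
    Dens k (T.α ^ (T.n * (2 * e + c))) (T.chunkV c e w m) (T.chunkErr c e a w m)
      (T.β ^ (2 * e + c) - T.α ^ (T.n * (2 * e + c))) := by
  have horc := one_le_orc k
  have hη := T.η_nonneg
  have hγE := T.γE_pos
  have hPos : ∀ j, Pos (T.α ^ j) := fun j => T.posα.pow j
  have hMass : ∀ j, mass (T.α ^ j) = 1 := fun j => mass_pow_one T.massα j
  obtain ⟨C, hC⟩ : ∃ C : ℝ, C = ((2 * e + c : ℕ) : ℝ) := ⟨_, rfl⟩
  rw [← hC] at hsmall hη8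
  have hC1 : 1 ≤ C := by rw [hC]; exact_mod_cast (show 1 ≤ 2 * e + c by omega)
  set δ := 8 * C * T.η with hδ
  have hδ0 : 0 ≤ δ := by positivity
  have hpd : ∀ j, j ≤ 2 * e + c →
      Dens k (T.α ^ (T.n * j)) (2 * Real.sqrt (2 * j * orc k) * (T.γE + 2 * T.η)) δ
        (T.β ^ j - T.α ^ (T.n * j)) ∧ Dens k (T.α ^ (T.n * j)) 2 δ (T.β ^ j) := fun j hj => by
    have hjR : (j : ℝ) ≤ C := by rw [hC]; exact_mod_cast hj
    obtain ⟨h1, h2⟩ := power_dens (T.posα.pow T.n) (hMass _) T.posβ T.massβ hγE T.dens_E j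
      (le_trans (mul_le_mul_of_nonneg_right hjR (by positivity)) hsmall)
    rw [← pow_mul] at h1 h2
    have : 4 * (j : ℝ) * (2 * T.η) ≤ δ := by
      rw [hδ]; nlinarith [mul_le_mul_of_nonneg_right hjR hη]
    exact ⟨h1.mono (by positivity) le_rfl this, h2.mono (by norm_num) le_rfl this⟩
  obtain ⟨hZe, -⟩ := hpd e (by omega)
  obtain ⟨-, hce⟩ := hpd (c + e) (by omega)
  obtain ⟨-, hcB⟩ := hpd c (by omega)
  set ve := 2 * Real.sqrt (2 * (e : ℝ) * orc k) * (T.γE + 2 * T.η) with hve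
  have hve0 : 0 < ve := by
    have : (0 : ℝ) < e := by exact_mod_cast he
    positivity
  have hve1 : ve ≤ 1 := by
    rw [hve, ← sq_le_one_iff₀ (by positivity), mul_pow, mul_pow, Real.sq_sqrt (by positivity)]
    have : (e : ℝ) ≤ C := by rw [hC]; exact_mod_cast (show e ≤ 2 * e + c by omega)
    nlinarith [mul_le_mul_of_nonneg_right this (show (0:ℝ) ≤ orc k * (2 * (T.γE + 2 * T.η)) ^ 2 by positivity)]
  have lce := hce.l1_le (hPos _) (hMass _) zero_le_two
  have le' := hZe.l1_le (hPos _) (hMass _) hve0.le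
  -- left edge
  have A := hZe.mul (hPos _) (hMass _) (hPos _) hve0.le hce
  rw [← pow_add, show T.n * e + T.n * (c + e) = T.n * (2 * e + c) by ring] at A
  have A' := A.mono (by positivity) le_rfl
    (show δ * l1 (T.β ^ (c + e)) + ve * δ ≤ 4 * δ by nlinarith)
  -- right edge
  have B0 := hcB.mul (hPos _) (hMass _) (hPos _) zero_le_two hZe
  rw [← pow_add] at B0
  have B := B0.prepend T.posα T.massα (T.n * e)
  rw [show T.n * e + (T.n * c + T.n * e) = T.n * (2 * e + c) by ring] at B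
  have B' := B.mono (by positivity) le_rfl
    (show δ * l1 (T.β ^ e - T.α ^ (T.n * e)) + 2 * δ ≤ 4 * δ by nlinarith)
  -- middle
  have hn := T.hn
  have hℓd := T.hℓd
  have hℓ := T.hℓ
  obtain ⟨N, hN⟩ : ∃ N, N = T.n * (2 * e + c) := ⟨_, rfl⟩
  rw [← hN] at A' B' ⊢
  have hav := average_bound T.famE T.smooth T.posα T.massα T.mass_zE hγE hℓ ha hm hw (N := N)
    (y := T.n * e) hpad (range c) (fun i => T.n * (e + i) + T.d)
    (fun i _ => by
      have := Nat.mul_le_mul_left T.n (show e ≤ e + i by omega)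
      omega)
    (fun i hi => by
      rw [Finset.mem_range] at hi
      have := Nat.mul_le_mul_left T.n (show e + i + 1 + e ≤ 2 * e + c by omega)
      rw [Nat.mul_add, Nat.mul_succ, ← hN] at this
      omega)
    (fun i _ j _ hij => by
      rcases lt_or_gt_of_ne hij with h' | h'
      · have := Nat.mul_le_mul_left T.n (show e + i + 1 ≤ e + j by omega)
        rw [Nat.mul_succ] at this; omega
      · have := Nat.mul_le_mul_left T.n (show e + j + 1 ≤ e + i by omega)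
        rw [Nat.mul_succ] at this; omega)
    (fun _ => 1) (fun i => T.α ^ (T.d - T.ℓ) * T.β ^ (c - 1 - i)) two_pos (η := δ) (fun i hi => by
      rw [Finset.mem_range] at hi
      have h2 := (hpd (c - 1 - i) (by omega)).2.prepend T.posα T.massα (T.d - T.ℓ)
      have hlin : N = T.n * (e + i) + T.n + T.n * (c - 1 - i) + T.n * e := by
        rw [hN, ← show e + i + 1 + (c - 1 - i) + e = 2 * e + c by omega]; ring
      have hidx : T.d - T.ℓ + T.n * (c - 1 - i)
          = N - T.n * e - (T.n * (e + i) + T.d) - 2 * T.ℓ := by omega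
      rwa [hidx] at h2)
  simp only [one_smul, one_pow, Finset.sum_const, Finset.card_range, nsmul_eq_mul, mul_one,
    abs_one] at hav
  set rem := (2 * (w : ℝ) * Real.sqrt (T.S / a)) ^ m with hrem
  have hrem0 : 0 ≤ rem := by positivity
  have hm2 : (2 : ℝ) ≤ m * 2 ^ m := by
    have h1m : (1 : ℝ) ≤ m := by exact_mod_cast hm
    have h2m : (2 : ℝ) ≤ 2 ^ m := le_self_pow₀ (by norm_num) (by omega)
    nlinarith
  have hcM := cM_pos k
  have hc0 : (0 : ℝ) < c := by exact_mod_cast hc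
  have hw0 : (0 : ℝ) < w := by exact_mod_cast hw
  -- replace each defect by its core
  have hmid : Dens k (T.α ^ N) (avc k m * (T.γE + T.η) * 2 * Real.sqrt c / Real.sqrt w)
      ((c : ℝ) * (2 * T.η) + (c : ℝ) * ((m : ℝ) * 2 ^ m * ((T.γE + T.η) * δ + 2 * T.η * 2)
        + rem * ((T.γE + T.η) * (2 + δ))))
      (T.α ^ (T.n * e) * (T.β ^ c - T.α ^ (T.n * c)) * T.α ^ (T.n * e)) := by
    refine hav.congr_l1 ?_
    rw [pow_mul T.α T.n c, pow_sub_pow_eq, Finset.mul_sum, Finset.sum_mul, ← Finset.sum_sub_distrib]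
    refine (l1_sum _ _).trans ?_
    refine (Finset.sum_le_sum (g := fun _ => 2 * T.η) fun i hi => ?_).trans (by simp)
    rw [Finset.mem_range] at hi
    have hsplit : T.α ^ (T.n * e) * ((T.α ^ T.n) ^ i * (T.β - T.α ^ T.n) * T.β ^ (c - 1 - i))
          * T.α ^ (T.n * e)
        - T.α ^ (T.n * (e + i) + T.d) * T.zE * T.α ^ T.ℓ
          * (T.α ^ (T.d - T.ℓ) * T.β ^ (c - 1 - i)) * T.α ^ (T.n * e)
        = T.α ^ (T.n * (e + i)) * ((T.β - T.α ^ T.n - T.α ^ T.d * T.zE * T.α ^ T.d)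
          * T.β ^ (c - 1 - i)) * T.α ^ (T.n * e) := by
      rw [mul_add T.n e i, pow_add, pow_add, pow_mul T.α T.n i]
      have hd : T.α ^ T.d = T.α ^ T.ℓ * T.α ^ (T.d - T.ℓ) := by
        rw [← pow_add, Nat.add_sub_cancel' hℓd]
      nth_rw 3 [hd]
      noncomm_ring
    rw [hsplit]
    refine ((l1_mul_pow_le T.posα T.massα _ _).trans (l1_pow_mul_le T.posα T.massα _ _)).trans ?_
    refine ((l1_mul_pow_le T.posβ T.massβ _ _).trans T.hE).trans ?_
    linarith
  have heq : T.β ^ (2 * e + c) - T.α ^ N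
      = (T.β ^ e - T.α ^ (T.n * e)) * T.β ^ (c + e)
        + T.α ^ (T.n * e) * (T.β ^ c - T.α ^ (T.n * c)) * T.α ^ (T.n * e)
        + T.α ^ (T.n * e) * (T.β ^ c * (T.β ^ e - T.α ^ (T.n * e))) := by
    rw [hN, show T.n * (2 * e + c) = T.n * e + T.n * c + T.n * e by ring,
      show 2 * e + c = e + c + e by ring, pow_add, pow_add, pow_add, pow_add, pow_add T.β c e]
    noncomm_ring
  rw [heq]
  refine ((A'.add (hPos _) (by positivity) (by unfold avc; positivity) hmid).add (hPos _)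
    (by unfold avc; positivity) (by positivity) B').mono (by unfold avc; positivity) ?_ ?_
  · unfold Lvl.chunkV
    linarith
  · unfold Lvl.chunkErr
    rw [← hC, ← hrem]
    have b1 : (T.γE + T.η) * δ ≤ 2 * δ :=
      mul_le_mul_of_nonneg_right (by linarith [T.γE_le, T.η_le]) hδ0
    have b2 : (T.γE + T.η) * (2 + δ) ≤ 6 := by nlinarith [T.γE_le, T.η_le]
    have b3 : (c : ℝ) * ((m : ℝ) * 2 ^ m * ((T.γE + T.η) * δ + 2 * T.η * 2)
        + rem * ((T.γE + T.η) * (2 + δ)))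
        ≤ (c : ℝ) * ((m : ℝ) * 2 ^ m * (20 * C * T.η) + rem * 6) := by
      refine mul_le_mul_of_nonneg_left (add_le_add (mul_le_mul_of_nonneg_left ?_ (by positivity))
        (mul_le_mul_of_nonneg_left b2 hrem0)) hc0.le
      nlinarith
    have b4 : (c : ℝ) * (2 * T.η) ≤ (c : ℝ) * ((m : ℝ) * 2 ^ m * (C * T.η)) := by
      refine mul_le_mul_of_nonneg_left ?_ hc0.le
      have : T.η ≤ C * T.η := le_mul_of_one_le_left hη hC1
      nlinarith
    linarith

/-- The block law of a level is smooth over `k' (2e + c)` blocks. -/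
theorem smooth_next {c e a w m j : ℕ} (ha : 1 ≤ a) (hm : 1 ≤ m) (hw : 1 ≤ w) (he : 1 ≤ e)
    (hc : 1 ≤ c) (hj : 1 ≤ j) (hpad : m * a + m * w ≤ T.n * e) (hsep : m * w < T.n)
    (hsmall : ((2 * e + c : ℕ) : ℝ) * (orc k * (2 * (T.γE + 2 * T.η)) ^ 2) ≤ 1 / 2)
    (hη8 : 8 * ((2 * e + c : ℕ) : ℝ) * T.η ≤ 1)
    (hchunks : (j : ℝ) * (orc k * (2 * (T.chunkV c e w m + T.chunkErr c e a w m)) ^ 2) ≤ 1 / 2)
    (htot : 2 * Real.sqrt (2 * (j : ℝ) * orc k) * (T.chunkV c e w m + T.chunkErr c e a w m)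
        + 4 * (j : ℝ) * T.chunkErr c e a w m ≤ 1 / 8)
    (hE : T.γE + 2 * T.η ≤ 1 / 8)
    (hshift : (T.n : ℝ) * Real.sqrt (T.S / ((T.n * ((2 * e + c) * j) : ℕ) : ℝ)) ≤ 1 / 4) :
    Sm T.β (8 * (((2 * e + c) * j : ℕ) + 1 : ℝ)) := by
  have hch := T.chunk_bound ha hm hw he hc hpad hsep hsmall hη8
  set C := 2 * e + c with hC
  set s := C * j with hs
  have hPos : ∀ i, Pos (T.α ^ i) := fun i => T.posα.pow i
  have hMass : ∀ i, mass (T.α ^ i) = 1 := fun i => mass_pow_one T.massα i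
  have horc := one_le_orc k
  have hpos : 0 < T.chunkV c e w m := by
    have := T.γE_pos
    have := T.η_nonneg
    have := cM_pos k
    have : (0 : ℝ) < e := by exact_mod_cast he
    have : 0 ≤ avc k m * (T.γE + T.η) * 2 * Real.sqrt c / Real.sqrt w := by
      unfold avc; positivity
    unfold Lvl.chunkV
    positivity
  obtain ⟨h1, -⟩ := power_dens (hPos _) (hMass _) (T.posβ.pow C) (mass_pow_one T.massβ _) hpos hch j
    hchunks
  rw [← pow_mul, ← pow_mul, ← hs, mul_assoc, ← hs] at h1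
  have hl := h1.l1_le (hPos _) (hMass _) (by
    have := hch.nonneg
    positivity)
  have hZ : l1 (T.β ^ s - T.α ^ (T.n * s)) ≤ 1 / 8 := hl.trans htot
  have hlE : l1 (T.β - T.α ^ T.n) ≤ 1 / 8 :=
    (T.dens_E.l1_le (hPos _) (hMass _) T.γE_pos.le).trans hE
  have hns : 1 ≤ T.n * s := by
    have := T.hℓ
    have := T.hn
    exact Nat.mul_pos (by omega) (Nat.mul_pos (by omega) hj)
  have hsh := (T.smooth.shift T.posα T.massα hns T.n).trans hshift
  have key : l1 (T.β ^ s - T.β ^ (s + 1)) ≤ 1 := by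
    have e1 : T.β ^ s - T.β ^ (s + 1) = (T.β ^ s - T.α ^ (T.n * s))
        - (T.α ^ (T.n * s + T.n) - T.α ^ (T.n * s))
        - ((T.β ^ s - T.α ^ (T.n * s)) * T.β + T.α ^ (T.n * s) * (T.β - T.α ^ T.n)) := by
      rw [pow_succ, pow_add]
      noncomm_ring
    rw [e1]
    have b1 : l1 ((T.β ^ s - T.α ^ (T.n * s)) * T.β) ≤ 1 / 8 := by
      refine (l1_mul _ _).trans ?_
      rw [l1_eq_mass T.posβ, T.massβ, mul_one]; exact hZ
    have b2 := (l1_pow_mul_le T.posα T.massα (T.β - T.α ^ T.n) (T.n * s)).trans hlE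
    linarith [l1_sub ((T.β ^ s - T.α ^ (T.n * s)) - (T.α ^ (T.n * s + T.n) - T.α ^ (T.n * s)))
        ((T.β ^ s - T.α ^ (T.n * s)) * T.β + T.α ^ (T.n * s) * (T.β - T.α ^ T.n)),
      l1_sub (T.β ^ s - T.α ^ (T.n * s)) (T.α ^ (T.n * s + T.n) - T.α ^ (T.n * s)),
      l1_add ((T.β ^ s - T.α ^ (T.n * s)) * T.β) (T.α ^ (T.n * s) * (T.β - T.α ^ T.n))]
  obtain ⟨C0, hC0, hmC, hp0, hp1⟩ := exists_common (T.posβ.pow s) (T.posβ.pow (s + 1))
    (mass_pow_one T.massβ _) (mass_pow_one T.massβ _) key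
  have := foguel T.posβ T.massβ hC0 (by norm_num) hmC s hp0 hp1
  rwa [show 4 * ((s : ℝ) + 1) / (1 / 2) = 8 * ((s : ℝ) + 1) by ring] at this

end Lvl

end Vale.Agent.P321
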