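import Mathlib
import Vale.Agent.P321.Algebra
import Vale.Agent.P321.Super.Master

/-!
The first level: one flaw, and the same flaw moved by a bounded amount.
-/

open scoped BigOperators
open Finset

noncomputable section

namespace Vale.Agent.P321

/-- Telescoping of two averages over windows of length `w` shifted by `q`. -/
theorem window_shift {M : Type*} [AddCommGroup M] (f : ℕ → M) (w q : ℕ) :
    (∑ v ∈ range w, f (v + q)) - ∑ v ∈ range w, f v
      = (∑ v ∈ range q, f (v + w)) - ∑ v ∈ range q, f v := by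
  have h1 := Finset.sum_range_add f q w
  have h2 := Finset.sum_range_add f w q
  rw [add_comm q w, h2] at h1
  simp only [add_comm q _, add_comm w _] at h1
  rw [sub_eq_sub_iff_add_eq_add, add_comm (∑ v ∈ range w, f (v + q)), ← h1, add_comm]

/-- The flaw `E` at slot `x` of `N`. -/
def flawAt (P E : A) (N x : ℕ) : A := P ^ x * E * P ^ (N - 1 - x)

/-- The setting of the first level. -/
structure Dip (k : ℕ) where
  P : A
  E : A
  S : ℝ
  γ0 : ℝ
  D : ℕ
  M : ℕ
  h : ℕ
  a : ℕ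
  w : ℕ
  m : ℕ
  posP : Pos P
  massP : mass P = 1
  smooth : Sm P S
  fam : Fam k P E 1 γ0 0
  mass_E : mass E = 0
  γ0_pos : 0 < γ0
  ha : 1 ≤ a
  hm : 1 ≤ m
  hw : 1 ≤ w
  hsep : m * w < D
  hroom : h + m * (Nat.factorial m + 2 * w) + m + 4 ≤ 2 * D
  hpad : m * a + m * w + Nat.factorial m ≤ D * M

namespace Dip

variable {k : ℕ} (T : Dip k)

/-- Cell length of the first level. -/
def L : ℕ := 2 * T.M + 1

/-- Length of the double cell in slots. -/
def N : ℕ := T.D * (2 * T.L)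

/-- Position of the flaw in the `r`-th translate, moved by `p`. -/
def pos (p r : ℕ) : ℕ := T.D * (r + T.M) + T.h + p

/-- Remainder of averaging. -/
def rem : ℝ := (2 * T.w * Real.sqrt (T.S / T.a)) ^ T.m

theorem pos_le {p r : ℕ} (hr : r < T.L) (hp : T.h + p + 2 ≤ 2 * T.D) :
    T.pos p r + 2 + T.D * T.M ≤ T.N := by
  unfold pos N L at *
  have := Nat.mul_le_mul_left T.D (show r + T.M + 2 + T.M ≤ 2 * (2 * T.M + 1) by omega)
  rw [Nat.mul_add, Nat.mul_add, mul_comm T.D 2] at this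
  omega

/-- Combinations of moved translates of the flaw. -/
theorem moved {p : ℕ} (hp : T.h + p + 2 ≤ 2 * T.D) (c : ℕ → ℝ)
    (hc : ∑ r ∈ range T.L, c r ^ 2 ≤ 1) :
    Dens k (T.P ^ T.N) (avc k T.m * T.γ0 / Real.sqrt T.w) ((T.L : ℝ) * T.rem * T.γ0)
      (∑ r ∈ range T.L, c r • flawAt T.P T.E T.N (T.pos p r)) := by
  have hγ := T.γ0_pos
  have hcM := cM_pos k
  have hav := average_bound T.fam T.smooth T.posP T.massP T.mass_E hγ one_pos T.ha T.hm T.hw
    (N := T.N) (y := T.D * T.M) (by have := T.hpad; omega) (range T.L) (T.pos p)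
    (fun r _ => by
      have := T.hpad
      have := Nat.mul_le_mul_left T.D (show T.M ≤ r + T.M by omega)
      unfold pos
      omega)
    (fun r hr => T.pos_le (Finset.mem_range.1 hr) hp)
    (fun i _ j _ hij => by
      have := T.hsep
      unfold pos
      rcases lt_or_gt_of_ne hij with h' | h'
      · have := Nat.mul_le_mul_left T.D (show i + T.M + 1 ≤ j + T.M by omega)
        rw [Nat.mul_succ] at this; omega
      · have := Nat.mul_le_mul_left T.D (show j + T.M + 1 ≤ i + T.M by omega)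
        rw [Nat.mul_succ] at this; omega)
    c (fun r => T.P ^ (T.N - T.D * T.M - T.pos p r - 2)) one_pos (η := 0)
    (fun r _ => by rw [mul_one]; exact dens_self (mass_pow_one T.massP _))
  have e : ∀ r ∈ range T.L, c r • (T.P ^ T.pos p r * T.E * T.P ^ 1
      * T.P ^ (T.N - T.D * T.M - T.pos p r - 2) * T.P ^ (T.D * T.M))
      = c r • flawAt T.P T.E T.N (T.pos p r) := fun r hr => by
    have := T.pos_le (Finset.mem_range.1 hr) hp
    unfold flawAt
    rw [mul_assoc (T.P ^ T.pos p r * T.E), mul_assoc (T.P ^ T.pos p r * T.E), ← pow_add, ← pow_add]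
    congr 3
    omega
  rw [Finset.sum_congr rfl e] at hav
  have hA : 0 ≤ avc k T.m := by unfold avc; positivity
  refine hav.mono (by positivity) ?_ ?_
  · rw [add_zero, mul_one]
    exact div_le_div_of_nonneg_right
      (mul_le_of_le_one_right (by positivity) (Real.sqrt_le_one.2 hc)) (Real.sqrt_nonneg _)
  · have hs : ∑ r ∈ range T.L, |c r| ≤ T.L := by
      refine (Finset.sum_le_sum (g := fun _ => (1 : ℝ)) fun r hr => ?_).trans (by simp)
      rw [← sq_le_one_iff_abs_le_one]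
      exact le_trans (Finset.single_le_sum (f := fun i => c i ^ 2) (fun i _ => sq_nonneg _) hr) hc
    simp only [add_zero, mul_zero, mul_one, zero_add]
    rw [mul_assoc (T.L : ℝ)]
    exact mul_le_mul_of_nonneg_right hs (mul_nonneg
      (pow_nonneg (mul_nonneg (mul_nonneg zero_le_two (Nat.cast_nonneg _)) (Real.sqrt_nonneg _)) _)
      hγ.le)

/-- A combination of moved translates. -/
def comb (c : ℕ → ℝ) (p : ℕ) : A := ∑ r ∈ range T.L, c r • flawAt T.P T.E T.N (T.pos p r)

theorem approx_one {p r : ℕ} (hr : r < T.L) (hp : T.h + p + T.m * T.w + 2 ≤ 2 * T.D) :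
    l1 (flawAt T.P T.E T.N (T.pos p r) - ∑ i ∈ range T.m, (cb T.m i / T.w) •
      ∑ v ∈ range T.w, flawAt T.P T.E T.N (T.pos (p + (i + 1) * (v + 1)) r))
      ≤ T.rem * l1 T.E := by
  have hle := T.pos_le (p := p) hr (by omega)
  have hpad := T.hpad
  have hxge : T.D * T.M ≤ T.pos p r := by
    have := Nat.mul_le_mul_left T.D (show T.M ≤ r + T.M by omega)
    unfold Dip.pos; omega
  have h := T.smooth.average T.posP T.massP T.ha T.hw (x := T.pos p r)
    (y := T.N - 1 - T.pos p r) (m := T.m) (by omega) (by omega) T.E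
  have e : ∀ i v : ℕ, flawAt T.P T.E T.N (T.pos (p + (i + 1) * (v + 1)) r)
      = T.P ^ (T.pos p r + (i + 1) * (v + 1)) * T.E
        * T.P ^ (T.N - 1 - T.pos p r - (i + 1) * (v + 1)) := fun i v => by
    rw [flawAt, show T.pos (p + (i + 1) * (v + 1)) r = T.pos p r + (i + 1) * (v + 1) by
      unfold Dip.pos; ring, Nat.sub_add_eq]
  simp only [e]
  exact h

theorem approx {p : ℕ} (hp : T.h + p + T.m * T.w + 2 ≤ 2 * T.D) (c : ℕ → ℝ)
    (hc : ∑ r ∈ range T.L, c r ^ 2 ≤ 1) :
    l1 (T.comb c p - ∑ i ∈ range T.m, (cb T.m i / T.w) •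
      ∑ v ∈ range T.w, T.comb c (p + (i + 1) * (v + 1))) ≤ (T.L : ℝ) * T.rem * l1 T.E := by
  have e : ∑ i ∈ range T.m, (cb T.m i / T.w) • ∑ v ∈ range T.w, T.comb c (p + (i + 1) * (v + 1))
      = ∑ r ∈ range T.L, c r • ∑ i ∈ range T.m, (cb T.m i / T.w) •
          ∑ v ∈ range T.w, flawAt T.P T.E T.N (T.pos (p + (i + 1) * (v + 1)) r) := by
    simp only [comb, Finset.smul_sum]
    rw [Finset.sum_comm (s := range T.L)]
    refine Finset.sum_congr rfl fun i _ => ?_
    rw [Finset.sum_comm]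
    refine Finset.sum_congr rfl fun r _ => Finset.sum_congr rfl fun v _ => ?_
    rw [smul_smul, smul_smul, mul_comm]
  rw [e, comb, ← Finset.sum_sub_distrib]
  refine (l1_sum _ _).trans ?_
  refine (Finset.sum_le_sum (g := fun _ => T.rem * l1 T.E) fun r hr => ?_).trans
    (le_of_eq (by simp [mul_assoc]))
  rw [← smul_sub]
  refine (l1_smul _ _).trans ?_
  have hcr : |c r| ≤ 1 := by
    rw [← sq_le_one_iff_abs_le_one]
    exact le_trans (Finset.single_le_sum (f := fun i => c i ^ 2) (fun i _ => sq_nonneg _) hr) hc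
  exact le_trans (mul_le_of_le_one_left (l1_nonneg _) hcr)
    (T.approx_one (Finset.mem_range.1 hr) hp)

/-- Combinations of differences of translates moved by `m!`. -/
theorem dipole (c : ℕ → ℝ) (hc : ∑ r ∈ range T.L, c r ^ 2 ≤ 1) :
    Dens k (T.P ^ T.N)
      ((2 * T.m * 2 ^ T.m * Nat.factorial T.m / T.w) * (avc k T.m * T.γ0 / Real.sqrt T.w))
      ((2 * T.m * 2 ^ T.m * Nat.factorial T.m / T.w) * ((T.L : ℝ) * T.rem * T.γ0)
        + 2 * ((T.L : ℝ) * T.rem * l1 T.E))
      (∑ r ∈ range T.L, c r •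
        (flawAt T.P T.E T.N (T.pos (Nat.factorial T.m) r) - flawAt T.P T.E T.N (T.pos 0 r))) := by
  classical
  set s0 := Nat.factorial T.m with hs0
  have hγ := T.γ0_pos
  have hcM := cM_pos k
  have hw0 : (0 : ℝ) < T.w := by exact_mod_cast T.hw
  have hm0 : (0 : ℝ) < T.m := by exact_mod_cast T.hm
  have hpos : (0 : ℝ) < avc k T.m * T.γ0 / Real.sqrt T.w := by unfold avc; positivity
  obtain ⟨Y, hY⟩ : ∃ Y : ℕ → A, Y = T.comb c := ⟨_, rfl⟩
  -- the averaged difference telescopes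
  have htel : ∀ i ∈ range T.m,
      (∑ v ∈ range T.w, Y (s0 + (i + 1) * (v + 1))) - ∑ v ∈ range T.w, Y (0 + (i + 1) * (v + 1))
        = (∑ v ∈ range (s0 / (i + 1)), Y ((i + 1) * (v + T.w + 1)))
          - ∑ v ∈ range (s0 / (i + 1)), Y ((i + 1) * (v + 1)) := by
    intro i hi
    have hdvd : (i + 1) ∣ s0 := Nat.dvd_factorial (Nat.succ_pos i) (Finset.mem_range.1 hi)
    have := window_shift (fun v => Y ((i + 1) * (v + 1))) T.w (s0 / (i + 1))
    simp only [zero_add]
    rw [← this]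
    have e : ∀ v, (i + 1) * (v + s0 / (i + 1) + 1) = s0 + (i + 1) * (v + 1) := fun v => by
      rw [show v + s0 / (i + 1) + 1 = v + 1 + s0 / (i + 1) by ring, Nat.mul_add _ (v + 1),
        Nat.mul_div_cancel' hdvd]
      ring
    simp only [e]
  have hterm : ∀ p, T.h + p + 2 ≤ 2 * T.D →
      Dens k (T.P ^ T.N) (avc k T.m * T.γ0 / Real.sqrt T.w) ((T.L : ℝ) * T.rem * T.γ0) (Y p) :=
    fun p hp => by rw [hY]; exact T.moved hp c hc
  have hroom := T.hroom
  rw [← hs0] at hroom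
  have hi_term : ∀ i ∈ range T.m, Dens k (T.P ^ T.N)
      ((2 * 2 ^ T.m * s0 / T.w) * (avc k T.m * T.γ0 / Real.sqrt T.w))
      ((2 * 2 ^ T.m * s0 / T.w) * ((T.L : ℝ) * T.rem * T.γ0))
      ((cb T.m i / T.w) • ((∑ v ∈ range T.w, Y (s0 + (i + 1) * (v + 1)))
        - ∑ v ∈ range T.w, Y (0 + (i + 1) * (v + 1)))) := by
    intro i hi
    rw [htel i hi]
    have him : i + 1 ≤ T.m := Finset.mem_range.1 hi
    set q := s0 / (i + 1) with hq
    have hq1 : 1 ≤ q := Nat.div_pos (Nat.le_of_dvd (Nat.factorial_pos _)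
      (Nat.dvd_factorial (Nat.succ_pos i) him)) (Nat.succ_pos i)
    have hqs : q ≤ s0 := Nat.div_le_self _ _
    have hpp : ∀ v < q, T.h + (i + 1) * (v + T.w + 1) + 2 ≤ 2 * T.D
        ∧ T.h + (i + 1) * (v + 1) + 2 ≤ 2 * T.D := fun v hv => by
      have a1 : (i + 1) * (v + T.w + 1) ≤ T.m * (s0 + 2 * T.w) :=
        Nat.mul_le_mul him (by omega)
      have a2 : (i + 1) * (v + 1) ≤ T.m * (s0 + 2 * T.w) := Nat.mul_le_mul him (by omega)
      omega
    have d1 := Dens.sum (T.posP.pow _) (range q) _ _ _ (fun _ _ => hpos)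
      fun v hv => hterm ((i + 1) * (v + T.w + 1)) (hpp v (Finset.mem_range.1 hv)).1
    have d2 := Dens.sum (T.posP.pow _) (range q) _ _ _ (fun _ _ => hpos)
      fun v hv => hterm ((i + 1) * (v + 1)) (hpp v (Finset.mem_range.1 hv)).2
    rw [Finset.sum_const, Finset.sum_const, Finset.card_range, nsmul_eq_mul, nsmul_eq_mul] at d1 d2
    have hq0 : (0 : ℝ) < q := by exact_mod_cast hq1
    have d2' := d2.smul (-1)
    rw [abs_neg, abs_one, one_mul, one_mul] at d2'
    have d3 := (d1.add (T.posP.pow _) (mul_pos hq0 hpos) (mul_pos hq0 hpos) d2').smul (cb T.m i / T.w)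
    rw [neg_one_smul, ← sub_eq_add_neg] at d3
    have hcb : |cb T.m i / (T.w : ℝ)| ≤ 2 ^ T.m / T.w := by
      rw [abs_div, Nat.abs_cast]; exact div_le_div_of_nonneg_right (abs_cb_le _ _) hw0.le
    have hqR : (q : ℝ) ≤ s0 := by exact_mod_cast hqs
    have hrem : 0 ≤ T.rem := by unfold Dip.rem; positivity
    refine d3.mono (by positivity) ?_ ?_
    · calc _ ≤ 2 ^ T.m / (T.w : ℝ) * ((s0 : ℝ) * (avc k T.m * T.γ0 / Real.sqrt T.w)
            + (s0 : ℝ) * (avc k T.m * T.γ0 / Real.sqrt T.w)) := by gcongr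
        _ = _ := by ring
    · calc _ ≤ 2 ^ T.m / (T.w : ℝ) * ((s0 : ℝ) * ((T.L : ℝ) * T.rem * T.γ0)
            + (s0 : ℝ) * ((T.L : ℝ) * T.rem * T.γ0)) := by gcongr
        _ = _ := by ring
  have hs00 : (0 : ℝ) < s0 := by exact_mod_cast Nat.factorial_pos _
  have hall := Dens.sum (T.posP.pow _) (range T.m) _ _ _ (fun _ _ => by positivity) hi_term
  rw [Finset.sum_const, Finset.sum_const, Finset.card_range, nsmul_eq_mul, nsmul_eq_mul] at hall
  have hmain : l1 (Y s0 - Y 0 - ∑ i ∈ range T.m, (cb T.m i / T.w) •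
      ((∑ v ∈ range T.w, Y (s0 + (i + 1) * (v + 1)))
        - ∑ v ∈ range T.w, Y (0 + (i + 1) * (v + 1)))) ≤ 2 * ((T.L : ℝ) * T.rem * l1 T.E) := by
    have hmw : T.m * T.w ≤ T.m * (s0 + 2 * T.w) := Nat.mul_le_mul_left _ (by omega)
    have hms : s0 ≤ T.m * s0 := Nat.le_mul_of_pos_left _ T.hm
    have hsum : T.m * s0 + T.m * T.w ≤ T.m * (s0 + 2 * T.w) := by
      rw [← Nat.mul_add]; exact Nat.mul_le_mul_left _ (by omega)
    have a1 := T.approx (p := s0) (by omega) c hc
    have a2 := T.approx (p := 0) (by omega) c hc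
    rw [← hY] at a1 a2
    simp only [smul_sub, Finset.sum_sub_distrib]
    rw [sub_sub_sub_comm]
    refine (l1_sub _ _).trans ?_
    linarith
  have e : ∑ r ∈ range T.L, c r •
      (flawAt T.P T.E T.N (T.pos s0 r) - flawAt T.P T.E T.N (T.pos 0 r)) = Y s0 - Y 0 := by
    simp only [hY, comb, ← Finset.sum_sub_distrib, smul_sub]
  rw [e]
  refine (hall.congr_l1 hmain).mono (by positivity) (le_of_eq ?_) (le_of_eq ?_)
  · ring
  · ring

end Dip

end Vale.Agent.P321
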