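import Mathlib
import Vale.Agent.P321.Algebra
import Vale.Agent.P321.Super.Pattern
import Vale.Agent.P321.Super.Site

/-!
From one level to the next.
-/

open scoped BigOperators
open Finset

noncomputable section

namespace Vale.Agent.P321

variable {k : ℕ} {α z z' : A} {ℓ : ℕ} {γ τ γ' τ' : ℝ}

theorem fam_zero (hγ : 0 ≤ γ) (hτ : 0 ≤ τ) : Fam k α 0 ℓ γ τ := fun a _ => by
  rw [Finset.sum_eq_zero fun r _ => by rw [mul_zero, zero_mul, smul_zero]]
  exact dens_zero hγ hτ

theorem Fam.add (hα : Pos α) (hγ : 0 < γ) (hγ' : 0 < γ') (h : Fam k α z ℓ γ τ)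
    (h' : Fam k α z' ℓ γ' τ') : Fam k α (z + z') ℓ (γ + γ') (τ + τ') := fun a ha => by
  simp only [mul_add, add_mul, smul_add, Finset.sum_add_distrib]
  exact (h a ha).add (hα.pow _) hγ hγ' (h' a ha)

theorem Fam.neg (h : Fam k α z ℓ γ τ) : Fam k α (-z) ℓ γ τ := fun a ha => by
  have h' := h (fun r => -a r) (by simpa using ha)
  simpa [mul_neg, neg_mul] using h'

namespace Lvl

variable {T : Lvl k} (p : T.Step)

theorem Step.gain_nonneg {ρ : ℝ} (hρ : 0 ≤ ρ) : 0 ≤ p.gain ρ := by
  have := p.V_pos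
  have := T.γ_pos
  have := T.η_nonneg
  have := cM_pos k
  unfold Step.gain avc
  positivity

theorem Step.gain_pos {ρ : ℝ} (hρ : 0 < ρ) : 0 < p.gain ρ := by
  have := p.V_pos
  have := T.γ_pos
  have := T.η_nonneg
  have := cM_pos k
  have h0 : 0 ≤ avc k p.m * (T.γ + T.η) / Real.sqrt p.w := by unfold avc; positivity
  have : 0 < 4 * (p.L : ℝ) * p.V * T.γ := by
    have : (0 : ℝ) < p.L := by
      have := p.hK
      exact_mod_cast (show 0 < p.L by unfold Step.L; omega)
    positivity
  unfold Step.gain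
  positivity

theorem Step.err_nonneg {B ρ : ℝ} (hB : 0 ≤ B) : 0 ≤ p.err B ρ := by
  have := p.η_le_ηV
  have := T.η_nonneg
  have : 0 ≤ p.rem := by unfold Step.rem; positivity
  have h1 : 0 ≤ p.gain ρ ^ (2 * (k + 1)) := (even_two_mul _).pow_nonneg _
  have h2 : 0 ≤ (4 * p.V) ^ (2 * (k + 1)) := (even_two_mul _).pow_nonneg _
  have h3 : 0 ≤ p.ηV := by linarith [this]
  unfold Step.err
  positivity

theorem Step.fam_dl : ∀ (e : List Bool) (q : ℕ), q + e.length = p.K →
    Fam k T.β (T.β ^ (p.M + q) * dl T.β T.D e * T.β ^ p.M) p.L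
      (((e.length : ℝ) + 1) * p.gain (16 ^ p.K))
      (((e.length : ℝ) + 1) * p.err (16 ^ p.K) (16 ^ p.K))
  | [], q, _ => by
    rw [dl_nil, mul_zero, zero_mul]
    exact fam_zero (mul_nonneg (by positivity) (p.gain_nonneg (by positivity)))
      (mul_nonneg (by positivity) (p.err_nonneg (by positivity)))
  | b :: e, q, h => by
    rw [List.length_cons] at h ⊢
    have ih := fam_dl e (q + 1) (by omega)
    have hg := p.gain_pos (show (0 : ℝ) < 16 ^ p.K by positivity)
    have herr := p.err_nonneg (B := 16 ^ p.K) (ρ := 16 ^ p.K) (by positivity)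
    have e1 : T.β ^ (p.M + q) * (T.β * dl T.β T.D e) = T.β ^ (p.M + (q + 1)) * dl T.β T.D e := by
      rw [← mul_assoc, ← pow_succ, add_assoc]
    rw [dl_cons, mul_add, add_mul, e1]
    push_cast
    cases b
    · simp only [Bool.false_eq_true, ↓reduceIte, mul_zero, zero_mul, add_zero]
      exact ih.mono (by positivity) (by linarith) (by linarith)
    · simp only [↓reduceIte]
      have hpow : (16 : ℝ) ^ e.length ≤ 16 ^ p.K := pow_le_pow_right₀ (by norm_num) (by omega)
      have hs := p.site q (seg T.β T.D e) e.length (by omega) (show (0 : ℝ) < 16 ^ p.K by positivity)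
        le_rfl (one_le_pow₀ (by norm_num))
        ((T.dens_seg e).mono (by positivity) hpow (mul_le_mul_of_nonneg_right hpow T.η_nonneg))
      rw [← mul_assoc (T.β ^ (p.M + q)) T.D]
      exact (ih.add T.posβ (by positivity) hg hs).mono (by positivity) (le_of_eq (by ring))
        (le_of_eq (by ring))

theorem Step.fam_qd : ∀ (e : List Bool) (q : ℕ), q + e.length = p.K →
    Fam k T.β (T.β ^ (p.M + q) * qd T.β T.D e * T.β ^ p.M) p.L
      (((e.length : ℝ) + 1) * p.gain (16 ^ p.K * T.γ))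
      (((e.length : ℝ) + 1) * p.err (16 ^ p.K) (16 ^ p.K * T.γ))
  | [], q, _ => by
    rw [qd_nil, mul_zero, zero_mul]
    exact fam_zero (mul_nonneg (by positivity) (p.gain_nonneg (by have := T.γ_pos; positivity)))
      (mul_nonneg (by positivity) (p.err_nonneg (by positivity)))
  | b :: e, q, h => by
    rw [List.length_cons] at h ⊢
    have ih := fam_qd e (q + 1) (by omega)
    have hγ := T.γ_pos
    have hg := p.gain_pos (show (0 : ℝ) < 16 ^ p.K * T.γ by positivity)
    have herr := p.err_nonneg (B := 16 ^ p.K) (ρ := 16 ^ p.K * T.γ) (by positivity)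
    have e1 : T.β ^ (p.M + q) * (T.β * qd T.β T.D e) = T.β ^ (p.M + (q + 1)) * qd T.β T.D e := by
      rw [← mul_assoc, ← pow_succ, add_assoc]
    rw [qd_cons, mul_add, add_mul, e1]
    push_cast
    cases b
    · simp only [Bool.false_eq_true, ↓reduceIte, mul_zero, zero_mul, add_zero]
      exact ih.mono (by positivity) (by linarith) (by linarith)
    · simp only [↓reduceIte]
      have hpow : (16 : ℝ) ^ e.length ≤ 16 ^ p.K := pow_le_pow_right₀ (by norm_num) (by omega)
      have hs := p.site q (dl T.β T.D e) e.length (by omega)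
        (show (0 : ℝ) < 16 ^ p.K * T.γ by positivity)
        (mul_le_of_le_one_right (by positivity) T.γ_le) (one_le_pow₀ (by norm_num))
        ((T.dens_dl e).mono (by positivity) (mul_le_mul_of_nonneg_right hpow hγ.le)
          (mul_le_mul_of_nonneg_right hpow T.η_nonneg))
      rw [← mul_assoc (T.β ^ (p.M + q)) T.D]
      exact (ih.add T.posβ (by positivity) hg hs).mono (by positivity) (le_of_eq (by ring))
        (le_of_eq (by ring))

/-- The next unflawed block. -/
def Step.blockB (c : ℕ) : A := T.β ^ c * seg T.β T.D (tm p.m).1 * T.β ^ c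

/-- The next flawed block. -/
def Step.blockF (c : ℕ) : A := T.β ^ c * seg T.β T.D (tm p.m).2 * T.β ^ c

/-- The next level. -/
def Step.next (hK : p.K = 2 ^ p.m) (c b : ℕ) (hb : 1 ≤ b) (hc : 3 * p.M + p.K ≤ c)
    (hcb : p.m * b ≤ c) (S' : ℝ) (hS' : Sm T.β S') (hS0 : 0 ≤ S') (hφ : Pos T.φ)
    (γE' γ' η' : ℝ) (hE0 : 0 < γE') (hL0 : 0 < γ')
    (hE1 : γE' ≤ 1) (hL1 : γ' ≤ 1) (hη1 : η' ≤ 1)
    (hgE : ((p.K : ℝ) + 1) * p.gain (16 ^ p.K) ≤ γE')
    (hgL : 2 * (((p.K : ℝ) + 1) * p.gain (16 ^ p.K * T.γ)) ≤ γ')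
    (hlin : (2 ^ (p.m + 1) * Real.sqrt (S' / b)) ^ p.m * 2 ≤ η')
    (herrE : ((p.K : ℝ) + 1) * p.err (16 ^ p.K) (16 ^ p.K) ≤ η')
    (herrL : 2 * (((p.K : ℝ) + 1) * p.err (16 ^ p.K) (16 ^ p.K * T.γ)) ≤ η') : Lvl k where
  α := T.β
  β := p.blockB c
  φ := p.blockF c
  zE := T.β ^ p.M * dl T.β T.D (tm p.m).1 * T.β ^ p.M
  zL := T.β ^ p.M * (qd T.β T.D (tm p.m).2 - qd T.β T.D (tm p.m).1) * T.β ^ p.M
  n := 2 * c + p.K
  d := c - p.M
  ℓ := p.L
  S := S'
  γE := γE'
  γ := γ'
  η := η'
  posα := T.posβ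
  massα := T.massβ
  posβ := by
    have hs : ∀ e, Pos (seg T.β T.D e) := by
      intro e
      induction e with
      | nil => exact Pos.one
      | cons x e ih =>
        cases x
        · exact T.posβ.mul ih
        · refine Pos.mul ?_ ih
          simp only [↓reduceIte, Lvl.D, add_sub_cancel]
          exact hφ
    exact ((T.posβ.pow _).mul (hs _)).mul (T.posβ.pow _)
  massβ := by
    simp [Step.blockB, mass_mul, mass_pow_one T.massβ, mass_seg T.massβ T.mass_D]
  massφ := by
    simp [Step.blockF, mass_mul, mass_pow_one T.massβ, mass_seg T.massβ T.mass_D]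
  smooth := hS'
  hn := by unfold Step.L; omega
  hℓ := by have := p.hK; unfold Step.L; omega
  hℓd := by unfold Step.L; omega
  hE := by
    have hlen : (tm p.m).1.length = p.K := by rw [(tm_length p.m).1, hK]
    have e : p.blockB c - T.β ^ (2 * c + p.K) - T.β ^ (c - p.M)
        * (T.β ^ p.M * dl T.β T.D (tm p.m).1 * T.β ^ p.M) * T.β ^ (c - p.M) = 0 := by
      rw [Step.blockB, dl, hlen, show 2 * c + p.K = (c - p.M) + p.M + p.K + (p.M + (c - p.M)) by omega,
        pow_add, pow_add, pow_add, pow_add,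
        show T.β ^ c = T.β ^ (c - p.M) * T.β ^ p.M by rw [← pow_add, Nat.sub_add_cancel (by omega)]]
      nth_rw 2 [(Commute.pow_pow_self T.β (c - p.M) p.M).eq]
      noncomm_ring
    rw [e, l1_zero]
    exact le_trans (by positivity) hlin
  hD := by
    have hlen : (tm p.m).1.length = (tm p.m).2.length := by rw [(tm_length p.m).1, (tm_length p.m).2]
    have e : p.blockF c - p.blockB c - T.β ^ (c - p.M) * (T.β ^ p.M
          * (qd T.β T.D (tm p.m).2 - qd T.β T.D (tm p.m).1) * T.β ^ p.M) * T.β ^ (c - p.M)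
        = -(T.β ^ (c - p.m * b) * (T.β ^ (p.m * b) * (lin T.β T.D (tm p.m).1
          - lin T.β T.D (tm p.m).2) * T.β ^ (p.m * b)) * T.β ^ (c - p.m * b)) := by
      have h1 : ∀ X : A, T.β ^ (c - p.M) * (T.β ^ p.M * X * T.β ^ p.M) * T.β ^ (c - p.M)
          = T.β ^ c * X * T.β ^ c := fun X => by
        rw [show T.β ^ c = T.β ^ (c - p.M) * T.β ^ p.M by
          rw [← pow_add, Nat.sub_add_cancel (by omega)]]
        nth_rw 2 [(Commute.pow_pow_self T.β (c - p.M) p.M).eq]
        simp only [mul_assoc]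
      have h2 : ∀ X : A, T.β ^ (c - p.m * b) * (T.β ^ (p.m * b) * X * T.β ^ (p.m * b))
          * T.β ^ (c - p.m * b) = T.β ^ c * X * T.β ^ c := fun X => by
        rw [show T.β ^ c = T.β ^ (c - p.m * b) * T.β ^ (p.m * b) by
          rw [← pow_add, Nat.sub_add_cancel hcb]]
        nth_rw 2 [(Commute.pow_pow_self T.β (c - p.m * b) (p.m * b)).eq]
        simp only [mul_assoc]
      rw [h1, h2, Step.blockF, Step.blockB, ← sub_mul, ← mul_sub, seg_sub _ _ hlen]
      noncomm_ring
    rw [e, l1_neg]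
    refine (((l1_mul_pow_le T.posβ T.massβ _ _).trans (l1_pow_mul_le T.posβ T.massβ _ _)).trans
      (lin_tm_small hS' T.posβ T.massβ hb hS0 p.m)).trans (le_trans ?_ hlin)
    refine mul_le_mul_of_nonneg_left ?_ (by positivity)
    rw [Lvl.D]
    refine (l1_sub _ _).trans ?_
    rw [l1_eq_mass hφ, l1_eq_mass T.posβ, T.massφ, T.massβ]; norm_num
  mass_zE := by simp [mass_mul, mass_dl T.massβ T.mass_D]
  mass_zL := by simp [mass_mul, map_sub, mass_qd T.massβ T.mass_D]
  famE := by
    have hlen : (tm p.m).1.length = p.K := by rw [(tm_length p.m).1, hK]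
    have h := p.fam_dl (tm p.m).1 0 (by omega)
    rw [hlen, add_zero] at h
    exact h.mono (mul_nonneg (by positivity) (p.gain_nonneg (by positivity))) hgE herrE
  famL := by
    have hlen1 : (tm p.m).1.length = p.K := by rw [(tm_length p.m).1, hK]
    have hlen2 : (tm p.m).2.length = p.K := by rw [(tm_length p.m).2, hK]
    have h1 := p.fam_qd (tm p.m).1 0 (by omega)
    have h2 := p.fam_qd (tm p.m).2 0 (by omega)
    rw [hlen1, add_zero] at h1
    rw [hlen2, add_zero] at h2
    have hpos : 0 < ((p.K : ℝ) + 1) * p.gain (16 ^ p.K * T.γ) :=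
      mul_pos (by positivity) (p.gain_pos (by have := T.γ_pos; positivity))
    rw [mul_sub, sub_mul, sub_eq_add_neg]
    exact (h2.add T.posβ hpos hpos h1.neg).mono (by linarith) (by linarith) (by linarith)
  γE_pos := hE0
  γ_pos := hL0
  γE_le := hE1
  γ_le := hL1
  η_le := hη1

end Lvl

end Vale.Agent.P321
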