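import Mathlib
import Vale.Agent.P321.Algebra
import Vale.Agent.P321.Super.Next
import Vale.Agent.P321.Super.Boost

/-!
The parameters of a level as powers of one large integer `R`.
-/

open scoped BigOperators
open Finset

noncomputable section

namespace Vale.Agent.P321

theorem pe {R : ℕ} (hR : 1 ≤ R) {a b c : ℕ} (h : a + c ≤ b) :
    (R : ℝ) ^ a * ((R : ℝ)⁻¹) ^ b ≤ ((R : ℝ)⁻¹) ^ c := by
  have hR' : (1 : ℝ) ≤ R := by exact_mod_cast hR
  obtain ⟨d, rfl⟩ := Nat.exists_eq_add_of_le h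
  rw [pow_add, pow_add, ← mul_assoc, ← mul_assoc, ← mul_pow,
    mul_inv_cancel₀ (by linarith : (R : ℝ) ≠ 0), one_pow, one_mul]
  exact mul_le_of_le_one_right (by positivity)
    (pow_le_one₀ (by positivity) (inv_le_one_of_one_le₀ hR'))

theorem eps_anti {R : ℕ} (hR : 1 ≤ R) {a b : ℕ} (h : a ≤ b) :
    ((R : ℝ)⁻¹) ^ b ≤ ((R : ℝ)⁻¹) ^ a :=
  pow_le_pow_of_le_one (by positivity)
    (inv_le_one_of_one_le₀ (by exact_mod_cast hR)) h

theorem cst_eps {R : ℕ} (hR : 1 ≤ R) {C : ℝ} (hC : C ≤ R) {a b : ℕ} (h : a + 1 ≤ b) :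
    C * ((R : ℝ)⁻¹) ^ b ≤ ((R : ℝ)⁻¹) ^ a :=
  (mul_le_mul_of_nonneg_right hC (by positivity)).trans
    (by simpa using pe hR (a := 1) (b := b) (c := a) (by omega))

theorem sqrt_ratio_le {R : ℕ} (hR : 1 ≤ R) {S : ℝ} {s a t : ℕ} (hS : S ≤ (R : ℝ) ^ s)
    (h : s + 2 * t ≤ a) : Real.sqrt (S / ((R ^ a : ℕ) : ℝ)) ≤ ((R : ℝ)⁻¹) ^ t := by
  have hR0 : (0 : ℝ) < R := by exact_mod_cast hR
  refine Real.sqrt_le_iff.2 ⟨by positivity, ?_⟩
  push_cast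
  calc S / (R : ℝ) ^ a ≤ (R : ℝ) ^ s * ((R : ℝ)⁻¹) ^ a := by
        rw [inv_pow, ← div_eq_mul_inv]; gcongr
    _ ≤ ((R : ℝ)⁻¹) ^ (2 * t) := pe hR h
    _ = _ := by rw [← pow_mul, mul_comm]

theorem sqrt_sq_pow {R : ℕ} (a : ℕ) : Real.sqrt ((R ^ (2 * a) : ℕ) : ℝ) = (R : ℝ) ^ a := by
  push_cast
  rw [mul_comm 2 a, pow_mul, Real.sqrt_sq (by positivity)]

variable {k : ℕ}

set_option maxHeartbeats 1000000 in
/-- Smoothing of the block law of a level. -/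
theorem level_smooth {R m : ℕ} (hm : 1 ≤ m) (T : Lvl k) {s gE H χ et th hb : ℕ}
    (hn0 : R ^ (s + 4) ≤ T.n) (hn1 : T.n ≤ R ^ (s + 5)) (hS : T.S ≤ (R : ℝ) ^ s)
    (hγ : T.γE = ((R : ℝ)⁻¹) ^ gE) (hη : T.η = ((R : ℝ)⁻¹) ^ H)
    (hR2 : 64 ≤ R) (hR3 : 2 * m ≤ R) (hR4 : 216 * orc k ≤ R)
    (hR5 : 64 * orc k * (48 * orc k + 4 * avc k m + 192 + 63 * (m * 2 ^ m) + 6 * 2 ^ m) ≤ R)
    (h1 : χ + 1 ≤ gE) (h2 : χ ≤ s + 3) (h3 : et ≤ χ) (h4 : 2 * th ≤ et) (h5 : 2 * th + 2 ≤ s + 4)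
    (h6 : s + 4 + et ≤ gE + χ) (h7 : s + 4 ≤ gE + th) (h8 : gE ≤ H)
    (h9 : 4 * χ + 2 * (s + 3 - χ) + 2 ≤ hb) (h10 : hb ≤ H) (h11 : hb ≤ m) :
    Sm T.β ((R : ℝ) ^ (2 * s + 8)) := by
  have hR : 1 ≤ R := by omega
  have hR0 : (0 : ℝ) < R := by exact_mod_cast (show 0 < R by omega)
  have hR2' : (64 : ℝ) ≤ R := by exact_mod_cast hR2
  set ε : ℝ := (R : ℝ)⁻¹ with hε
  have hε0 : 0 < ε := inv_pos.2 hR0
  have hε1 : ε * R = 1 := inv_mul_cancel₀ hR0.ne'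
  have horc := one_le_orc k
  have hcM := cM_pos k
  have hA : 0 ≤ avc k m := by unfold avc; positivity
  set ι := s + 3 - χ with hι
  set c := R ^ (2 * χ) with hc
  set e := R ^ (2 * et) with he
  set w := R ^ (2 * th) with hw
  set a := R ^ (s + 3 + 2 * et) with ha
  set j := R ^ (2 * ι) with hj
  have hpos : ∀ i, 1 ≤ R ^ i := fun i => Nat.one_le_pow _ _ (by omega)
  have hC : ((2 * e + c : ℕ) : ℝ) ≤ 3 * (R : ℝ) ^ (2 * χ) := by
    have : e ≤ c := Nat.pow_le_pow_right (by omega) (by omega)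
    have : ((2 * e + c : ℕ) : ℝ) ≤ ((3 * c : ℕ) : ℝ) := by exact_mod_cast (by omega : 2 * e + c ≤ 3 * c)
    simpa [hc] using this
  have hEη : T.γE + 2 * T.η ≤ 3 * ε ^ gE := by
    rw [hγ, hη]; linarith [eps_anti hR h8]
  have hEη0 : 0 ≤ T.γE + 2 * T.η := by linarith [T.γE_pos, T.η_nonneg]
  have hpad : m * a + m * w ≤ T.n * e := by
    have b1 : m * a + m * w ≤ 2 * m * a := by
      have : w ≤ a := Nat.pow_le_pow_right (by omega) (by omega)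
      have := Nat.mul_le_mul_left m this
      have : 2 * m * a = m * a + m * a := by ring
      omega
    have b2 : 2 * m * a ≤ R ^ (s + 4) * e := by
      rw [ha, he, ← pow_add, show s + 4 + 2 * et = 1 + (s + 3 + 2 * et) by ring, pow_add R 1, pow_one]
      exact Nat.mul_le_mul_right _ hR3
    exact b1.trans (b2.trans (Nat.mul_le_mul_right _ hn0))
  have hsep : m * w < T.n := by
    have b1 : 2 * m * w ≤ R ^ (1 + 2 * th) := by
      rw [hw, pow_add, pow_one]; exact Nat.mul_le_mul_right _ hR3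
    have b2 : R ^ (1 + 2 * th) ≤ R ^ (s + 4) := Nat.pow_le_pow_right (by omega) (by omega)
    have b3 : 1 ≤ m * w := Nat.mul_pos hm (hpos _)
    have : 2 * m * w = m * w + m * w := by ring
    omega
  have hsmall : ((2 * e + c : ℕ) : ℝ) * (orc k * (2 * (T.γE + 2 * T.η)) ^ 2) ≤ 1 / 2 := by
    calc _ ≤ 3 * (R : ℝ) ^ (2 * χ) * (orc k * (2 * (3 * ε ^ gE)) ^ 2) := by gcongr
      _ = 108 * orc k * ((R : ℝ) ^ (2 * χ) * ε ^ (2 * gE)) := by rw [mul_comm 2 gE, pow_mul]; ring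
      _ ≤ 108 * orc k * ε ^ 1 := mul_le_mul_of_nonneg_left (pe hR (by omega)) (by linarith)
      _ ≤ 1 / 2 := by rw [pow_one]; nlinarith
  have hη8 : 8 * ((2 * e + c : ℕ) : ℝ) * T.η ≤ 1 := by
    calc _ ≤ 8 * (3 * (R : ℝ) ^ (2 * χ)) * ε ^ H := by rw [hη]; gcongr
      _ = 24 * ((R : ℝ) ^ (2 * χ) * ε ^ H) := by ring
      _ ≤ 24 * ε ^ 1 := mul_le_mul_of_nonneg_left (pe hR (by omega)) (by norm_num)
      _ ≤ 1 := by rw [pow_one]; nlinarith
  set C1 : ℝ := 48 * orc k + 4 * avc k m with hC1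
  set C2 : ℝ := 192 + 63 * (m * 2 ^ m) + 6 * 2 ^ m with hC2
  have hV : (R : ℝ) ^ ι * T.chunkV c e w m ≤ C1 * ε := by
    unfold Lvl.chunkV
    have hse : Real.sqrt (2 * (e : ℝ) * orc k) ≤ 2 * orc k * (R : ℝ) ^ et := by
      refine Real.sqrt_le_iff.2 ⟨by positivity, ?_⟩
      rw [he]; push_cast
      rw [mul_pow, ← pow_mul, mul_comm et 2]
      have : 2 * orc k ≤ (2 * orc k) ^ 2 := by nlinarith
      calc 2 * (R : ℝ) ^ (2 * et) * orc k = 2 * orc k * (R : ℝ) ^ (2 * et) := by ring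
        _ ≤ _ := by gcongr
    have hsw : Real.sqrt (w : ℝ) = (R : ℝ) ^ th := by rw [hw]; exact sqrt_sq_pow th
    have hsc : Real.sqrt (c : ℝ) = (R : ℝ) ^ χ := by rw [hc]; exact sqrt_sq_pow χ
    rw [hsw, hsc, div_eq_mul_inv, ← inv_pow, ← hε]
    have hgη : T.γE + T.η ≤ 2 * ε ^ gE := by rw [hγ, hη]; linarith [eps_anti hR h8]
    calc (R : ℝ) ^ ι * (8 * Real.sqrt (2 * (e : ℝ) * orc k) * (T.γE + 2 * T.η)
          + avc k m * (T.γE + T.η) * 2 * (R : ℝ) ^ χ * ε ^ th)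
        ≤ (R : ℝ) ^ ι * (8 * (2 * orc k * (R : ℝ) ^ et) * (3 * ε ^ gE)
          + avc k m * (2 * ε ^ gE) * 2 * (R : ℝ) ^ χ * ε ^ th) := by gcongr
      _ = 48 * orc k * ((R : ℝ) ^ (ι + et) * ε ^ gE)
          + 4 * avc k m * ((R : ℝ) ^ (ι + χ) * ε ^ (gE + th)) := by
          rw [pow_add, pow_add, pow_add]; ring
      _ ≤ 48 * orc k * ε ^ 1 + 4 * avc k m * ε ^ 1 := by
          gcongr <;> exact pe hR (by omega)
      _ = _ := by rw [hC1]; ring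
  have hErr : (R : ℝ) ^ (2 * ι) * T.chunkErr c e a w m ≤ C2 * ε := by
    unfold Lvl.chunkErr
    have hrem : (2 * (w : ℝ) * Real.sqrt (T.S / a)) ^ m ≤ 2 ^ m * ε ^ m := by
      rw [← mul_pow]
      refine pow_le_pow_left₀ (by positivity) ?_ m
      calc 2 * (w : ℝ) * Real.sqrt (T.S / a) ≤ 2 * (R : ℝ) ^ (2 * th) * ε ^ (et + 1) := by
            rw [hw, ha]
            push_cast
            have := sqrt_ratio_le hR (t := et + 1) hS (show s + 2 * (et + 1) ≤ s + 3 + 2 * et by omega)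
            push_cast at this
            gcongr
        _ = 2 * ((R : ℝ) ^ (2 * th) * ε ^ (et + 1)) := by ring
        _ ≤ 2 * ε ^ 1 := mul_le_mul_of_nonneg_left (pe hR (by omega)) (by norm_num)
        _ = _ := by rw [pow_one]
    have hm2 : (0 : ℝ) ≤ m * 2 ^ m := by positivity
    calc (R : ℝ) ^ (2 * ι) * (64 * ((2 * e + c : ℕ) : ℝ) * T.η + c * (21 * (m * 2 ^ m)
          * ((2 * e + c : ℕ) : ℝ) * T.η + 6 * (2 * w * Real.sqrt (T.S / a)) ^ m))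
        ≤ (R : ℝ) ^ (2 * ι) * (64 * (3 * (R : ℝ) ^ (2 * χ)) * T.η + (R : ℝ) ^ (2 * χ)
          * (21 * (m * 2 ^ m) * (3 * (R : ℝ) ^ (2 * χ)) * T.η + 6 * (2 ^ m * ε ^ m))) := by
          have : (c : ℝ) = (R : ℝ) ^ (2 * χ) := by rw [hc]; push_cast; rfl
          rw [this]
          have := T.η_nonneg
          gcongr
      _ = 192 * ((R : ℝ) ^ (2 * ι + 2 * χ) * ε ^ H)
          + 63 * (m * 2 ^ m) * ((R : ℝ) ^ (2 * ι + 2 * χ + 2 * χ) * ε ^ H)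
          + 6 * 2 ^ m * ((R : ℝ) ^ (2 * ι + 2 * χ) * ε ^ m) := by
          rw [hη, pow_add, pow_add]; ring
      _ ≤ 192 * ε ^ 1 + 63 * (m * 2 ^ m) * ε ^ 1 + 6 * 2 ^ m * ε ^ 1 := by
          gcongr <;> exact pe hR (by omega)
      _ = _ := by rw [hC2]; ring
  have hErr0 : 0 ≤ T.chunkErr c e a w m := by
    have := T.η_nonneg
    unfold Lvl.chunkErr
    positivity
  have hsum : (R : ℝ) ^ ι * (T.chunkV c e w m + T.chunkErr c e a w m) ≤ (C1 + C2) * ε := by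
    have : (R : ℝ) ^ ι * T.chunkErr c e a w m ≤ (R : ℝ) ^ (2 * ι) * T.chunkErr c e a w m :=
      mul_le_mul_of_nonneg_right (pow_le_pow_right₀ (by linarith) (by omega)) hErr0
    linarith
  have hV0 : 0 ≤ T.chunkV c e w m := by
    unfold Lvl.chunkV
    have := T.γE_pos
    have := T.η_nonneg
    positivity
  have hbig : 64 * orc k * (C1 + C2) * ε ≤ 1 := by
    have : 64 * orc k * (C1 + C2) ≤ R := by
      refine le_trans (le_of_eq ?_) hR5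
      rw [hC1, hC2]; ring
    calc _ ≤ (R : ℝ) * ε := mul_le_mul_of_nonneg_right this hε0.le
      _ = 1 := by rw [mul_comm, hε1]
  have hjc : (j : ℝ) = ((R : ℝ) ^ ι) ^ 2 := by rw [hj]; push_cast; rw [← pow_mul, mul_comm]
  set X := (R : ℝ) ^ ι * (T.chunkV c e w m + T.chunkErr c e a w m) with hX
  have hX0 : 0 ≤ X := by positivity
  have hX1 : 64 * orc k * X ≤ 1 := le_trans
    (by rw [mul_assoc (64 * orc k) (C1 + C2)]; exact mul_le_mul_of_nonneg_left hsum (by linarith)) hbig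
  refine (T.smooth_next (c := c) (e := e) (a := a) (w := w) (m := m) (j := j) (hpos _) hm (hpos _)
    (hpos _) (hpos _) (hpos _) hpad hsep hsmall hη8 ?_ ?_ ?_ ?_).mono ?_
  · have e1 : (j : ℝ) * (orc k * (2 * (T.chunkV c e w m + T.chunkErr c e a w m)) ^ 2)
        = 4 * orc k * X * X := by rw [hjc, hX]; ring
    rw [e1]; nlinarith
  · have e1 : Real.sqrt (2 * (j : ℝ) * orc k) ≤ 2 * orc k * (R : ℝ) ^ ι := by
      refine Real.sqrt_le_iff.2 ⟨by positivity, ?_⟩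
      rw [hjc, mul_pow (2 * orc k)]
      nlinarith [mul_le_mul_of_nonneg_right (show 2 * orc k ≤ (2 * orc k) ^ 2 by nlinarith)
        (sq_nonneg ((R : ℝ) ^ ι))]
    have e2 : 2 * Real.sqrt (2 * (j : ℝ) * orc k) * (T.chunkV c e w m + T.chunkErr c e a w m)
        ≤ 4 * orc k * X := by
      rw [hX]
      calc _ ≤ 2 * (2 * orc k * (R : ℝ) ^ ι) * (T.chunkV c e w m + T.chunkErr c e a w m) := by
            gcongr
        _ = _ := by ring
    have e3 : 4 * (j : ℝ) * T.chunkErr c e a w m ≤ 4 * (C2 * ε) := by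
      rw [mul_assoc, hj]; push_cast; linarith
    have hC1' : 0 ≤ C1 := by rw [hC1]; positivity
    have hC2' : 0 ≤ C2 := by rw [hC2]; positivity
    nlinarith [mul_nonneg hC1' hε0.le, mul_nonneg hC2' hε0.le]
  · calc T.γE + 2 * T.η ≤ 3 * ε ^ gE := hEη
      _ ≤ 3 * ε ^ 1 := mul_le_mul_of_nonneg_left (eps_anti hR (by omega)) (by norm_num)
      _ ≤ 1 / 8 := by rw [pow_one]; nlinarith
  · have hnpos : (0 : ℝ) < T.n := by
      have := hpos (s + 4)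
      exact_mod_cast (show 0 < T.n by omega)
    have hNbig : (R : ℝ) ^ (2 * χ + 2 * ι) ≤ (((2 * e + c) * j : ℕ) : ℝ) := by
      rw [pow_add]
      exact_mod_cast (Nat.mul_le_mul_right j (Nat.le_add_left c (2 * e)))
    have hS0 : T.S / ((T.n * ((2 * e + c) * j) : ℕ) : ℝ)
        ≤ (R : ℝ) ^ s / ((T.n : ℝ) * (R : ℝ) ^ (2 * χ + 2 * ι)) := by
      push_cast at hNbig ⊢
      gcongr
    refine le_trans (mul_le_mul_of_nonneg_left (Real.sqrt_le_sqrt hS0) hnpos.le) ?_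
    rw [← pow_le_pow_iff_left₀ (by positivity) (by norm_num) two_ne_zero, mul_pow,
      Real.sq_sqrt (by positivity)]
    calc (T.n : ℝ) ^ 2 * ((R : ℝ) ^ s / ((T.n : ℝ) * (R : ℝ) ^ (2 * χ + 2 * ι)))
        = (T.n : ℝ) * (R : ℝ) ^ s * ε ^ (2 * χ + 2 * ι) := by
          rw [hε, inv_pow]; field_simp
      _ ≤ ((R ^ (s + 5) : ℕ) : ℝ) * (R : ℝ) ^ s * ε ^ (2 * χ + 2 * ι) := by gcongr
      _ = (R : ℝ) ^ (s + 5 + s) * ε ^ (2 * χ + 2 * ι) := by push_cast; ring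
      _ ≤ ε ^ 1 := pe hR (by omega)
      _ ≤ (1 / 4) ^ 2 := by rw [pow_one]; nlinarith
  · have b1 : (2 * e + c) * j ≤ 3 * R ^ (2 * s + 6) := by
      have : e ≤ c := Nat.pow_le_pow_right (by omega) (by omega)
      have e1 : c * j = R ^ (2 * s + 6) := by
        rw [hc, hj, ← pow_add]; congr 1; omega
      rw [← e1, ← mul_assoc]
      exact Nat.mul_le_mul_right _ (by omega)
    have b1' : (((2 * e + c) * j : ℕ) : ℝ) ≤ 3 * (R : ℝ) ^ (2 * s + 6) := by exact_mod_cast b1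
    have b2 : (1 : ℝ) ≤ (R : ℝ) ^ (2 * s + 6) := one_le_pow₀ (by linarith)
    rw [show 2 * s + 8 = (2 * s + 6) + 2 by ring, pow_add]
    calc 8 * ((((2 * e + c) * j : ℕ) : ℝ) + 1) ≤ 32 * (R : ℝ) ^ (2 * s + 6) := by linarith
      _ = (R : ℝ) ^ (2 * s + 6) * 32 := mul_comm _ _
      _ ≤ (R : ℝ) ^ (2 * s + 6) * (R : ℝ) ^ 2 :=
          mul_le_mul_of_nonneg_left (by nlinarith) (by positivity)

set_option maxHeartbeats 1000000 in
/-- The next level. -/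
theorem level_step {R m : ℕ} (hm : 1 ≤ m) (T : Lvl k) (hφ : Pos T.φ) {s gE g H ω gE' g' H' : ℕ}
    (hn0 : R ^ (s + 4) ≤ T.n) (hS : T.S ≤ (R : ℝ) ^ s)
    (hγE : T.γE = ((R : ℝ)⁻¹) ^ gE) (hγ : T.γ = ((R : ℝ)⁻¹) ^ g) (hη : T.η = ((R : ℝ)⁻¹) ^ H)
    (hsm : Sm T.β ((R : ℝ) ^ (2 * s + 8)))
    (hR2 : 64 ≤ R) (hR3 : 2 * m ≤ R) (hR4 : 2 ^ m ≤ R) (hR5 : 432 * orc k ≤ R)
    (hR6 : 4 * ((2 : ℝ) ^ m + 1) * ((2 * avc k m + 900 * orc k) * 16 ^ 2 ^ m) ≤ R)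
    (hR7 : 2 * ((2 : ℝ) ^ m + 1) * (7200 * (m * 2 ^ m) * 16 ^ 2 ^ m + 12 * 16 ^ 2 ^ m + 200) ≤ R)
    (hR8 : 288 * orc k ≤ R) (hR9 : (2 ^ (m + 1) : ℝ) ^ m * 2 ≤ R)
    (hω : 1 ≤ ω) (h0 : 2 ≤ g + ω) (h1 : 7 * ω + 2 ≤ gE) (h2 : 2 * ω + 2 ≤ s + 4) (h3 : 4 * ω + 3 ≤ 2 * s + 12)
    (h4 : gE ≤ H) (h5 : g ≤ H) (h6 : H' + 8 * ω + 4 ≤ H) (h7 : H' + 4 * ω + 3 ≤ m)
    (h8 : H' + 1 ≤ 2 * (k + 1)) (h9 : g' + 1 ≤ 2 * g + ω) (h10 : gE' + 1 ≤ g + ω) :
    ∃ T' : Lvl k, T'.β = T.β ^ (R ^ (2 * s + 12)) * seg T.β T.D (tm m).1 * T.β ^ (R ^ (2 * s + 12)) ∧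
      T'.φ = T.β ^ (R ^ (2 * s + 12)) * seg T.β T.D (tm m).2 * T.β ^ (R ^ (2 * s + 12)) ∧
      R ^ (2 * s + 12) ≤ T'.n ∧ T'.n ≤ R ^ (2 * s + 13) ∧ T'.S ≤ (R : ℝ) ^ (2 * s + 8) ∧
      T'.γE = ((R : ℝ)⁻¹) ^ gE' ∧ T'.γ = ((R : ℝ)⁻¹) ^ g' ∧ T'.η = ((R : ℝ)⁻¹) ^ H' := by
  have hR : 1 ≤ R := by omega
  have hR0 : (0 : ℝ) < R := by exact_mod_cast (show 0 < R by omega)
  have hR2' : (64 : ℝ) ≤ R := by exact_mod_cast hR2
  set ε : ℝ := (R : ℝ)⁻¹ with hε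
  have hε0 : 0 < ε := inv_pos.2 hR0
  have hε1 : ε * R = 1 := inv_mul_cancel₀ hR0.ne'
  have hpos : ∀ i, 1 ≤ R ^ i := fun i => Nat.one_le_pow _ _ (by omega)
  have horc := one_le_orc k
  have hcM := cM_pos k
  have hA : 0 ≤ avc k m := by unfold avc; positivity
  set M := R ^ (4 * ω + 1) with hM
  set K := 2 ^ m with hK
  have hLle : ((2 * M + K : ℕ) : ℝ) ≤ 3 * (R : ℝ) ^ (4 * ω + 1) := by
    have : K ≤ M := hR4.trans (Nat.le_self_pow (by omega) R)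
    have : ((2 * M + K : ℕ) : ℝ) ≤ ((3 * M : ℕ) : ℝ) := by exact_mod_cast (by omega : 2 * M + K ≤ 3 * M)
    simpa [hM] using this
  have hEη : T.γE + 2 * T.η ≤ 3 * ε ^ gE := by rw [hγE, hη]; linarith [eps_anti hR h4]
  let p : T.Step :=
    { M := M, K := K, a := R ^ (s + 4 + 4 * ω), w := R ^ (2 * ω), m := m
      ha := hpos _, hm := hm, hw := hpos _, hK := Nat.one_le_two_pow
      hpad := by
        have b1 : m * R ^ (2 * ω) ≤ m * R ^ (s + 4 + 4 * ω) :=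
          Nat.mul_le_mul_left _ (Nat.pow_le_pow_right (by omega) (by omega))
        have b2 : 2 * m * R ^ (s + 4 + 4 * ω) ≤ R ^ (s + 4) * M := by
          rw [hM, ← pow_add, show s + 4 + (4 * ω + 1) = 1 + (s + 4 + 4 * ω) by ring, pow_add R 1,
            pow_one]
          exact Nat.mul_le_mul_right _ hR3
        have b3 := Nat.mul_le_mul_right M hn0
        have : 2 * m * R ^ (s + 4 + 4 * ω) = m * R ^ (s + 4 + 4 * ω) + m * R ^ (s + 4 + 4 * ω) := by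
          ring
        omega
      hsep := by
        have b1 : 2 * m * R ^ (2 * ω) ≤ R ^ (1 + 2 * ω) := by
          rw [pow_add, pow_one]; exact Nat.mul_le_mul_right _ hR3
        have b2 : R ^ (1 + 2 * ω) ≤ R ^ (s + 4) := Nat.pow_le_pow_right (by omega) (by omega)
        have b3 : 1 ≤ m * R ^ (2 * ω) := Nat.mul_pos hm (hpos _)
        have : 2 * m * R ^ (2 * ω) = m * R ^ (2 * ω) + m * R ^ (2 * ω) := by ring
        omega
      hsmall := by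
        have := T.γE_pos
        have := T.η_nonneg
        have hcast : ((2 * (2 * M + K) : ℕ) : ℝ) ≤ 6 * (R : ℝ) ^ (4 * ω + 1) := by
          push_cast at hLle ⊢; linarith
        calc ((2 * (2 * M + K) : ℕ) : ℝ) * (orc k * (2 * (T.γE + 2 * T.η)) ^ 2)
            ≤ 6 * (R : ℝ) ^ (4 * ω + 1) * (orc k * (2 * (3 * ε ^ gE)) ^ 2) := by gcongr
          _ = 216 * orc k * ((R : ℝ) ^ (4 * ω + 1) * ε ^ (2 * gE)) := by
              rw [mul_comm 2 gE, pow_mul ε]; ring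
          _ ≤ 216 * orc k * ε ^ 1 := mul_le_mul_of_nonneg_left (pe hR (by omega)) (by linarith)
          _ ≤ 1 / 2 := by rw [pow_one]; nlinarith
      hη := by
        have hcast : ((2 * (2 * M + K) : ℕ) : ℝ) ≤ 6 * (R : ℝ) ^ (4 * ω + 1) := by
          push_cast at hLle ⊢; linarith
        calc 8 * ((2 * (2 * M + K) : ℕ) : ℝ) * T.η ≤ 8 * (6 * (R : ℝ) ^ (4 * ω + 1)) * ε ^ H := by
              rw [hη]; gcongr
          _ = 48 * ((R : ℝ) ^ (4 * ω + 1) * ε ^ H) := by ring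
          _ ≤ 48 * ε ^ 1 := mul_le_mul_of_nonneg_left (pe hR (by omega)) (by norm_num)
          _ ≤ 1 := by rw [pow_one]; nlinarith }
  have hL : (p.L : ℝ) ≤ 3 * (R : ℝ) ^ (4 * ω + 1) := hLle
  have hV : p.V ≤ 72 * orc k * ((R : ℝ) ^ (2 * ω + 1) * ε ^ gE) := by
    have hs : Real.sqrt (2 * ((2 * p.L : ℕ) : ℝ) * orc k) ≤ 12 * orc k * (R : ℝ) ^ (2 * ω + 1) := by
      refine Real.sqrt_le_iff.2 ⟨by positivity, ?_⟩
      push_cast
      calc 2 * (2 * (p.L : ℝ)) * orc k ≤ 2 * (2 * (3 * (R : ℝ) ^ (4 * ω + 1))) * orc k := by gcongr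
        _ = 12 * orc k * (R : ℝ) ^ (4 * ω + 1) := by ring
        _ ≤ (12 * orc k) ^ 2 * (R : ℝ) ^ (4 * ω + 2) := by
            gcongr
            · nlinarith
            · linarith
            · omega
        _ = _ := by rw [mul_pow (12 * orc k), ← pow_mul]; ring_nf
    have h0 : 0 ≤ T.γE + 2 * T.η := by linarith [T.γE_pos, T.η_nonneg]
    calc p.V = 2 * Real.sqrt (2 * ((2 * p.L : ℕ) : ℝ) * orc k) * (T.γE + 2 * T.η) := rfl
      _ ≤ 2 * (12 * orc k * (R : ℝ) ^ (2 * ω + 1)) * (3 * ε ^ gE) := by gcongr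
      _ = _ := by ring
  have hgain : ∀ ρ, 0 ≤ ρ → p.gain ρ ≤ 2 * (2 * avc k m + 900 * orc k) * ε ^ (g + ω) * ρ := by
    intro ρ hρ
    have hw : Real.sqrt ((R ^ (2 * ω) : ℕ) : ℝ) = (R : ℝ) ^ ω := sqrt_sq_pow ω
    have b1 : avc k m * (T.γ + T.η) / Real.sqrt ((R ^ (2 * ω) : ℕ) : ℝ)
        ≤ 2 * avc k m * ε ^ (g + ω) := by
      rw [hw, div_eq_mul_inv, ← inv_pow, pow_add]
      have : T.γ + T.η ≤ 2 * ε ^ g := by rw [hγ, hη]; linarith [eps_anti hR h5]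
      calc avc k m * (T.γ + T.η) * ε ^ ω ≤ avc k m * (2 * ε ^ g) * ε ^ ω := by gcongr
        _ = _ := by ring
    have b2 : 4 * (p.L : ℝ) * p.V * T.γ ≤ 900 * orc k * ε ^ (g + ω) := by
      have := p.V_pos
      have := T.γ_pos
      calc 4 * (p.L : ℝ) * p.V * T.γ
          ≤ 4 * (3 * (R : ℝ) ^ (4 * ω + 1)) * (72 * orc k * ((R : ℝ) ^ (2 * ω + 1) * ε ^ gE)) * ε ^ g := by
            rw [hγ]; gcongr
        _ = 864 * orc k * (((R : ℝ) ^ (4 * ω + 1 + (2 * ω + 1)) * ε ^ gE) * ε ^ g) := by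
            rw [pow_add (R : ℝ)]; ring
        _ ≤ 900 * orc k * (ε ^ ω * ε ^ g) := by
            gcongr
            · linarith
            · exact pe hR (by omega)
        _ = _ := by rw [pow_add]; ring
    unfold Lvl.Step.gain
    calc 2 * ((avc k m * (T.γ + T.η) / Real.sqrt ((R ^ (2 * ω) : ℕ) : ℝ)
          + 4 * (p.L : ℝ) * p.V * T.γ) * ρ)
        ≤ 2 * ((2 * avc k m * ε ^ (g + ω) + 900 * orc k * ε ^ (g + ω)) * ρ) := by gcongr
      _ = _ := by ring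
  set G : ℝ := 16 ^ K with hG
  have hG1 : 1 ≤ G := one_le_pow₀ (by norm_num)
  have hKr : (p.K : ℝ) = 2 ^ m := by simp [p, hK]
  have hR6' : 4 * ((p.K : ℝ) + 1) * ((2 * avc k m + 900 * orc k) * G) ≤ R := by rw [hKr]; exact hR6
  have hgE0 : ((p.K : ℝ) + 1) * p.gain (16 ^ p.K) ≤ ε ^ gE' := by
    calc _ ≤ ((p.K : ℝ) + 1) * (2 * (2 * avc k m + 900 * orc k) * ε ^ (g + ω) * G) :=
          mul_le_mul_of_nonneg_left (hgain _ (by positivity)) (by positivity)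
      _ = 2 * ((p.K : ℝ) + 1) * ((2 * avc k m + 900 * orc k) * G) * ε ^ (g + ω) := by ring
      _ ≤ _ := by
          refine cst_eps hR ?_ h10
          have : 0 ≤ ((p.K : ℝ) + 1) * ((2 * avc k m + 900 * orc k) * G) := by positivity
          linarith
  have hgL0 : 2 * (((p.K : ℝ) + 1) * p.gain (16 ^ p.K * T.γ)) ≤ ε ^ g' := by
    calc _ ≤ 2 * (((p.K : ℝ) + 1) * (2 * (2 * avc k m + 900 * orc k) * ε ^ (g + ω) * (G * T.γ))) :=
          mul_le_mul_of_nonneg_left (mul_le_mul_of_nonneg_left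
            (hgain _ (by have := T.γ_pos; positivity)) (by positivity)) zero_le_two
      _ = 4 * ((p.K : ℝ) + 1) * ((2 * avc k m + 900 * orc k) * G) * ε ^ (2 * g + ω) := by
          rw [hγ, show 2 * g + ω = g + ω + g by ring, pow_add ε (g + ω)]; ring
      _ ≤ _ := cst_eps hR hR6' h9
  have hηV : p.ηV ≤ 48 * ((R : ℝ) ^ (4 * ω + 1) * ε ^ H) := by
    unfold Lvl.Step.ηV
    push_cast
    rw [hη]
    calc 8 * (2 * (p.L : ℝ)) * ε ^ H ≤ 8 * (2 * (3 * (R : ℝ) ^ (4 * ω + 1))) * ε ^ H := by gcongr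
      _ = _ := by ring
  have hrem : p.rem ≤ ε ^ m := by
    unfold Lvl.Step.rem
    refine pow_le_pow_left₀ (by positivity) ?_ m
    calc 2 * ((R ^ (2 * ω) : ℕ) : ℝ) * Real.sqrt (T.S / ((R ^ (s + 4 + 4 * ω) : ℕ) : ℝ))
        ≤ 2 * (R : ℝ) ^ (2 * ω) * ε ^ (2 * ω + 2) := by
          have := sqrt_ratio_le hR (t := 2 * ω + 2) hS
            (show s + 2 * (2 * ω + 2) ≤ s + 4 + 4 * ω by omega)
          push_cast at this ⊢
          gcongr
      _ = 2 * ((R : ℝ) ^ (2 * ω) * ε ^ (2 * ω + 2)) := by ring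
      _ ≤ 2 * ε ^ 2 := mul_le_mul_of_nonneg_left (pe hR (by omega)) (by norm_num)
      _ ≤ ε := by
          rw [show 2 * ε ^ 2 = ε * (2 * ε) by ring]
          exact mul_le_of_le_one_right hε0.le (by nlinarith)
  have herr : ∀ ρ, 0 ≤ ρ → p.gain ρ ≤ ε →
      p.err (16 ^ p.K) ρ ≤ (7200 * (m * 2 ^ m) * G + 12 * G + 200) * ε ^ (H' + 1) := by
    intro ρ hρ hgρ
    have hm2 : (0 : ℝ) ≤ m * 2 ^ m := by positivity
    have hηV0 : 0 ≤ p.ηV := by linarith [p.η_le_ηV.1, T.η_nonneg]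
    have hrem0 : 0 ≤ p.rem := by unfold Lvl.Step.rem; positivity
    have a1 : (p.L : ℝ) * (50 * (m * 2 ^ m) * G * p.ηV + 4 * G * p.rem)
        ≤ 7200 * (m * 2 ^ m) * G * ε ^ (H' + 1) + 12 * G * ε ^ (H' + 1) := by
      calc _ ≤ 3 * (R : ℝ) ^ (4 * ω + 1) * (50 * (m * 2 ^ m) * G
            * (48 * ((R : ℝ) ^ (4 * ω + 1) * ε ^ H)) + 4 * G * ε ^ m) := by gcongr
        _ = 7200 * (m * 2 ^ m) * G * ((R : ℝ) ^ (4 * ω + 1 + (4 * ω + 1)) * ε ^ H)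
            + 12 * G * ((R : ℝ) ^ (4 * ω + 1) * ε ^ m) := by rw [pow_add (R : ℝ)]; ring
        _ ≤ _ := by gcongr <;> exact pe hR (by omega)
    have hpow : ε ^ (2 * (k + 1)) ≤ ε ^ (H' + 1) := eps_anti hR h8
    have a2 : p.gain ρ ^ (2 * (k + 1)) ≤ ε ^ (H' + 1) :=
      (pow_le_pow_left₀ (p.gain_nonneg hρ) hgρ _).trans hpow
    have a3 : (4 * p.V) ^ (2 * (k + 1)) ≤ ε ^ (H' + 1) := by
      refine (pow_le_pow_left₀ (by linarith [p.V_pos]) ?_ _).trans hpow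
      calc 4 * p.V ≤ 288 * orc k * ((R : ℝ) ^ (2 * ω + 1) * ε ^ gE) := by linarith
        _ ≤ 288 * orc k * ε ^ 2 := by
            refine mul_le_mul_of_nonneg_left (pe hR ?_) (by linarith)
            omega
        _ ≤ _ := by
            have := cst_eps hR hR8 (show 1 + 1 ≤ 2 by norm_num)
            rwa [pow_one] at this
    have a4 : 4 * p.ηV ≤ 192 * ε ^ (H' + 1) := by
      have : (R : ℝ) ^ (4 * ω + 1) * ε ^ H ≤ ε ^ (H' + 1) := pe hR (by omega)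
      linarith
    unfold Lvl.Step.err
    have : (0 : ℝ) ≤ ε ^ (H' + 1) := by positivity
    change (p.L : ℝ) * (50 * (m * 2 ^ m) * G * p.ηV + 4 * G * p.rem) + p.gain ρ ^ (2 * (k + 1))
        + ((4 * p.V) ^ (2 * (k + 1)) + 4 * p.ηV) ≤ _
    linarith
  have hsmallg : ∀ ρ, 0 ≤ ρ → ρ ≤ G → p.gain ρ ≤ ε := by
    intro ρ hρ hρG
    refine (hgain ρ hρ).trans ?_
    calc 2 * (2 * avc k m + 900 * orc k) * ε ^ (g + ω) * ρ
        ≤ 2 * (2 * avc k m + 900 * orc k) * ε ^ (g + ω) * G := by gcongr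
      _ = 2 * ((2 * avc k m + 900 * orc k) * G) * ε ^ (g + ω) := by ring
      _ ≤ ε ^ (g + ω - 1) := by
          refine cst_eps hR ?_ (by omega)
          have : 0 ≤ (2 * avc k m + 900 * orc k) * G := by positivity
          have : (0 : ℝ) ≤ p.K := Nat.cast_nonneg _
          nlinarith
      _ ≤ ε ^ 1 := eps_anti hR (by omega)
      _ = ε := pow_one ε
  have hR7' : 2 * ((p.K : ℝ) + 1) * (7200 * (m * 2 ^ m) * G + 12 * G + 200) ≤ R := by
    rw [hKr]; exact hR7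
  have hlin : (2 ^ (m + 1) * Real.sqrt ((R : ℝ) ^ (2 * s + 8) / ((R ^ (2 * s + 10) : ℕ) : ℝ))) ^ m * 2
      ≤ ε ^ H' := by
    calc _ ≤ (2 ^ (m + 1) * ε ^ 1) ^ m * 2 := by
          gcongr
          exact sqrt_ratio_le hR le_rfl (by omega)
      _ = (2 ^ (m + 1)) ^ m * 2 * ε ^ m := by rw [mul_pow, pow_one]; ring
      _ ≤ _ := cst_eps hR hR9 (by omega)
  have hc3 : 3 * M + K ≤ R ^ (2 * s + 12) := by
    have b1 : K ≤ M := hR4.trans (Nat.le_self_pow (by omega) R)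
    have b2 : 4 * M ≤ R ^ (1 + (4 * ω + 1)) := by
      rw [pow_add, pow_one, hM]; exact Nat.mul_le_mul_right _ (by omega)
    have b3 : R ^ (1 + (4 * ω + 1)) ≤ R ^ (2 * s + 12) := Nat.pow_le_pow_right (by omega) (by omega)
    omega
  have hcb : m * R ^ (2 * s + 10) ≤ R ^ (2 * s + 12) := by
    rw [show 2 * s + 12 = 2 + (2 * s + 10) by ring, pow_add R 2]
    exact Nat.mul_le_mul_right _ (le_trans (by omega) (Nat.le_self_pow (by norm_num) R))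
  have hε1' : ε ≤ 1 := inv_le_one_of_one_le₀ (by linarith)
  refine ⟨p.next rfl (R ^ (2 * s + 12)) (R ^ (2 * s + 10)) (hpos _) hc3 hcb _ hsm (by positivity)
    hφ (ε ^ gE') (ε ^ g') (ε ^ H') (by positivity) (by positivity) (pow_le_one₀ hε0.le hε1')
    (pow_le_one₀ hε0.le hε1') (pow_le_one₀ hε0.le hε1') hgE0 hgL0 hlin ?_ ?_,
    rfl, rfl, ?_, ?_, le_rfl, rfl, rfl, rfl⟩
  · calc _ ≤ ((p.K : ℝ) + 1) * ((7200 * (m * 2 ^ m) * G + 12 * G + 200) * ε ^ (H' + 1)) :=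
          mul_le_mul_of_nonneg_left (herr _ (by positivity) (hsmallg _ (by positivity) le_rfl))
            (by positivity)
      _ = ((p.K : ℝ) + 1) * (7200 * (m * 2 ^ m) * G + 12 * G + 200) * ε ^ (H' + 1) := by ring
      _ ≤ _ := by
          refine cst_eps hR ?_ le_rfl
          have : 0 ≤ ((p.K : ℝ) + 1) * (7200 * (m * 2 ^ m) * G + 12 * G + 200) := by positivity
          linarith
  · have hγ1 := T.γ_le
    have := T.γ_pos
    calc _ ≤ 2 * (((p.K : ℝ) + 1) * ((7200 * (m * 2 ^ m) * G + 12 * G + 200) * ε ^ (H' + 1))) :=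
          mul_le_mul_of_nonneg_left (mul_le_mul_of_nonneg_left (herr _ (by positivity)
            (hsmallg _ (by positivity) (mul_le_of_le_one_right (by positivity) hγ1)))
            (by positivity)) zero_le_two
      _ = 2 * ((p.K : ℝ) + 1) * (7200 * (m * 2 ^ m) * G + 12 * G + 200) * ε ^ (H' + 1) := by ring
      _ ≤ _ := cst_eps hR hR7' le_rfl
  · show R ^ (2 * s + 12) ≤ 2 * R ^ (2 * s + 12) + p.K
    omega
  · show 2 * R ^ (2 * s + 12) + p.K ≤ R ^ (2 * s + 13)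
    have : 3 * R ^ (2 * s + 12) ≤ R ^ (2 * s + 13) := by
      rw [pow_succ' R (2 * s + 12)]; exact Nat.mul_le_mul_right _ (by omega)
    have hK' : p.K = K := rfl
    omega

end Vale.Agent.P321
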