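import Mathlib
import Vale.Agent.P321.Algebra
import Vale.Agent.P321.Channel
import Vale.Agent.P321.Super.Master

/-!
The slot `01` and its flawed version `1`.
-/

open scoped BigOperators
open MonoidAlgebra (single)

noncomputable section

namespace Vale.Agent.P321

/-- The slot `01`. -/
def slotB : W := FreeMonoid.of false * FreeMonoid.of true

/-- The flawed slot `1`. -/
def slotF : W := FreeMonoid.of true

theorem slot_decomp {q : ℝ} (hq0 : 0 < q) (hq1 : q < 1) : ∃ (w a : ℝ) (Q G : A),
    0 < w ∧ w < 1 ∧ 0 < a ∧ Pos Q ∧ mass Q = 1 ∧ Pos G ∧ mass G = 1 ∧ Pos (Q - a • G) ∧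
      mu q slotB = (1 - w) • (1 : A) + w • Q ∧ mu q slotF = (1 - w) • (1 : A) + w • G := by
  have hp : 0 < 1 - q := by linarith
  set π0 : ℝ := q ^ 2 / 2 with hπ0
  set a : ℝ := q * q / 2 with ha
  set w : ℝ := 1 - π0 with hw
  have hπpos : 0 < π0 := by positivity
  have hw0 : 0 < w := by rw [hw, hπ0]; nlinarith
  have hw1 : w < 1 := by rw [hw]; linarith
  have hqπ : π0 ≤ q := by rw [hπ0]; nlinarith
  set d0 : A := single (FreeMonoid.of false) (1 : ℝ) with hd0
  set d1 : A := single (FreeMonoid.of true) (1 : ℝ) with hd1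
  have hμb : mu q slotB = (q * q) • (1 : A) + (q * (1 - q)) • d1 + (q * (1 - q)) • d0
      + ((1 - q) * (1 - q)) • (d0 * d1) := by
    rw [slotB, map_mul, mu_of, mu_of, ← hd0, ← hd1]
    simp only [add_mul, mul_add, smul_mul_smul_comm, one_mul, mul_one]
    rw [show (1 - q) * q = q * (1 - q) by ring]
    abel
  have hd0p : Pos d0 := Pos.single zero_le_one
  have hd1p : Pos d1 := Pos.single zero_le_one
  set G : A := (1 / w) • ((q - π0) • (1 : A) + (1 - q) • d1) with hG
  set Q : A := (1 / w) • (mu q slotB - π0 • (1 : A)) with hQ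
  refine ⟨w, a, Q, G, hw0, hw1, by positivity, ?_, ?_, ?_, ?_, ?_, ?_, ?_⟩
  · refine Pos.smul (by positivity) ?_
    have : mu q slotB - π0 • (1 : A) = (q * q - π0) • (1 : A) + (q * (1 - q)) • d1
        + (q * (1 - q)) • d0 + ((1 - q) * (1 - q)) • (d0 * d1) := by
      rw [hμb, sub_smul]; abel
    rw [this]
    refine (((Pos.one.smul ?_).add (hd1p.smul ?_)).add (hd0p.smul ?_)).add
      ((hd0p.mul hd1p).smul ?_)
    · rw [hπ0]; nlinarith
    all_goals positivity
  · simp only [hQ, map_smul, map_sub, smul_eq_mul, mass_one, mu_mass]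
    field_simp
    rw [hw]
  · exact ((Pos.one.smul (by linarith)).add (hd1p.smul hp.le)).smul (by positivity)
  · simp only [hG, map_smul, map_add, smul_eq_mul, mass_one, hd1, mass_single]
    field_simp
    rw [hw]; ring
  · have : Q - a • G = (1 / w) • ((q * q - π0 - a * (q - π0)) • (1 : A)
        + (q * (1 - q) - a * (1 - q)) • d1
        + (q * (1 - q)) • d0 + ((1 - q) * (1 - q)) • (d0 * d1)) := by
      rw [hQ, hG, hμb]; module
    rw [this]
    refine Pos.smul (by positivity) ?_
    refine (((Pos.one.smul ?_).add (hd1p.smul ?_)).add (hd0p.smul ?_)).add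
      ((hd0p.mul hd1p).smul ?_)
    · have : a * (q - π0) ≤ a * 1 := mul_le_mul_of_nonneg_left (by linarith) (by positivity)
      rw [hπ0, ha] at *
      linarith
    · have : a ≤ q := by rw [ha]; nlinarith
      nlinarith
    all_goals positivity
  · rw [hQ, smul_smul, mul_one_div_cancel hw0.ne', one_smul,
      show 1 - w = π0 by rw [hw]; ring]
    abel
  · rw [hG, smul_smul, mul_one_div_cancel hw0.ne', one_smul, slotF, mu_of, ← hd1,
      show 1 - w = π0 by rw [hw]; ring]
    module

/-- The flaw has a bounded density relative to the slot law. -/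
theorem slot_fam {w a : ℝ} {Q G : A} (hw0 : 0 < w) (hw1 : w < 1) (ha : 0 < a) (hQ : Pos Q)
    (hQ1 : mass Q = 1) (hG : Pos G) (hdom : Pos (Q - a • G)) (k : ℕ) :
    Fam k ((1 - w) • (1 : A) + w • Q) (w • (G - Q)) 1 (1 + 1 / a) 0 := by
  set P : A := (1 - w) • (1 : A) + w • Q with hP
  have hPp : Pos P := (Pos.one.smul (by linarith)).add (hQ.smul hw0.le)
  have hP1 : mass P = 1 := by simp [hP, mass_one, hQ1]
  set E : A := w • (G - Q) with hE
  have hbd : ∀ z, |E.coeff z| ≤ (1 + 1 / a) * P.coeff z := by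
    intro z
    have h1 := hdom z
    simp only [MonoidAlgebra.coeff_sub, Finsupp.sub_apply, MonoidAlgebra.coeff_smul_apply,
      smul_eq_mul] at h1
    have hpz : w * Q.coeff z ≤ P.coeff z := by
      have := (Pos.one.smul (sub_nonneg.2 hw1.le)) z
      simp only [hP, MonoidAlgebra.coeff_add, Finsupp.add_apply, MonoidAlgebra.coeff_smul_apply,
        smul_eq_mul] at this ⊢
      linarith
    have hGz : w * G.coeff z ≤ 1 / a * P.coeff z := by
      rw [one_div_mul_eq_div, le_div_iff₀ ha]
      nlinarith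
    simp only [hE, MonoidAlgebra.coeff_smul_apply, MonoidAlgebra.coeff_sub, Finsupp.sub_apply,
      smul_eq_mul]
    rw [abs_le]
    have := hQ z
    have := hG z
    have := hPp z
    have : 0 ≤ 1 / a * P.coeff z := by positivity
    constructor <;> nlinarith
  set f : W → ℝ := fun z => E.coeff z / P.coeff z with hf
  have htilt : tilt f P = E := by
    ext z
    rw [coeff_tilt]
    simp only [hf]
    rcases eq_or_ne (P.coeff z) 0 with h0 | h0
    · have := hbd z
      rw [h0, mul_zero] at this
      rw [h0, mul_zero, abs_eq_zero.1 (le_antisymm this (abs_nonneg _))]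
    · exact div_mul_cancel₀ _ h0
  have hmom : Mom k P f (1 + 1 / a) := by
    unfold Mom
    refine (ev_mono hPp (ψ := fun _ => (1 + 1 / a) ^ (2 * (k + 1))) fun z => ?_).trans
      (le_of_eq (by rw [ev_const, hP1, mul_one]))
    rw [← (even_two_mul (k + 1)).pow_abs (f z)]
    refine pow_le_pow_left₀ (abs_nonneg _) ?_ _
    simp only [hf]
    rw [abs_div, abs_of_nonneg (hPp z)]
    rcases eq_or_lt_of_le (hPp z) with h0 | h0
    · rw [← h0, div_zero]; positivity
    · rw [div_le_iff₀ h0]; exact hbd z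
  intro c hc
  have hd : Dens k P (1 + 1 / a) 0 E := ⟨f, hmom, by rw [htilt, sub_self, l1_zero]⟩
  have hc0 : |c 0| ≤ 1 := by
    rw [← sq_le_one_iff_abs_le_one]; simpa using hc
  have := ((hd.mul hPp hP1 hPp (by positivity) (dens_self (k := k) hP1)).smul (c 0))
  simp only [Finset.range_one, Finset.sum_singleton, pow_zero, one_mul, Nat.sub_zero, pow_one]
  rw [show 2 * 1 = 2 by rfl, pow_two]
  refine this.mono (by positivity) ?_ (by simp)
  rw [mul_one]
  exact mul_le_of_le_one_left (by positivity) hc0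

end Vale.Agent.P321
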