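import Mathlib
import Vale.Agent.P321.Algebra
import Vale.Agent.P321.Channel
import Vale.Agent.P321.Super.Slot
import Vale.Agent.P321.Super.Dipole
import Vale.Agent.P321.Super.Scale

/-!
The first level, built on the slot `01` with one flaw `1` and its translate.
-/

open scoped BigOperators
open Finset

noncomputable section

namespace Vale.Agent.P321

/-- The smoothing property of periodic words with one flaw per period, as used at the first level. -/
def PeriodicSmooth (q : ℝ) : Prop :=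
  ∃ S0 : ℝ, ∃ J0 : ℕ, ∀ L x : ℕ, J0 ≤ L → J0 * Nat.dist (2 * x) L ≤ L →
    Sm (mu q slotB ^ x * mu q slotF * mu q slotB ^ (L - 1 - x)) (S0 * L)

/-- Two words that differ at some common position. -/
def Differ (u v : W) : Prop :=
  ∃ (p : List Bool) (b : Bool) (r1 r2 : List Bool),
    FreeMonoid.toList u = p ++ b :: r1 ∧ FreeMonoid.toList v = p ++ (!b) :: r2

theorem length_pow_word (x : W) (n : ℕ) :
    (FreeMonoid.toList (x ^ n)).length = n * (FreeMonoid.toList x).length := by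
  induction n with
  | zero => simp
  | succ n ih => rw [pow_succ, FreeMonoid.toList_mul, List.length_append, ih]; ring

theorem Differ.ne {u v : W} (h : Differ u v) : u ≠ v := by
  rintro rfl
  obtain ⟨p, b, r1, r2, h1, h2⟩ := h
  rw [h1] at h2
  have := List.append_cancel_left h2
  cases b <;> simp at this

/-- The word with one flawed slot at `x` among `L`. -/
def flawWord (L x : ℕ) : W := slotB ^ x * slotF * slotB ^ (L - 1 - x)

theorem flawWord_length {L x : ℕ} (h : x < L) :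
    (FreeMonoid.toList (flawWord L x)).length = 2 * L - 1 := by
  simp only [flawWord, FreeMonoid.toList_mul, List.length_append, length_pow_word,
    show (FreeMonoid.toList slotB).length = 2 from rfl,
    show (FreeMonoid.toList slotF).length = 1 from rfl]
  omega

theorem flawWord_differ {L x s : ℕ} (hs : 1 ≤ s) :
    Differ (flawWord L (x + s)) (flawWord L x) := by
  obtain ⟨t, rfl⟩ : ∃ t, s = t + 1 := ⟨s - 1, by omega⟩
  refine ⟨FreeMonoid.toList (slotB ^ x), false,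
    true :: (FreeMonoid.toList (slotB ^ t * slotF * slotB ^ (L - 1 - (x + (t + 1))))),
    FreeMonoid.toList (slotB ^ (L - 1 - x)), ?_, ?_⟩
  · rw [flawWord, pow_add, pow_succ']
    simp [FreeMonoid.toList_mul, slotB, FreeMonoid.toList_of]
  · rw [flawWord]
    simp [FreeMonoid.toList_mul, slotF, FreeMonoid.toList_of]

set_option maxHeartbeats 1000000 in
/-- The first level. -/
theorem first_level {q : ℝ} (hq0 : 0 < q) (hq1 : q < 1) (hper : PeriodicSmooth q) (k m H : ℕ)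
    (hm : 1 ≤ m) (hH : H + 2005 ≤ m) : ∃ R0 : ℕ, ∀ R : ℕ, R0 ≤ R →
      ∃ (T : Lvl k) (wB wF : W), T.β = mu q wB ∧ T.φ = mu q wF ∧
        (FreeMonoid.toList wB).length = (FreeMonoid.toList wF).length ∧
        (FreeMonoid.toList wB).length ≤ R ^ (2 * 2002 + 10) ∧ Differ wF wB ∧
        R ^ (2002 + 4) ≤ T.n ∧ T.n ≤ R ^ (2002 + 5) ∧ T.S ≤ (R : ℝ) ^ 2002 ∧
        T.γE = ((R : ℝ)⁻¹) ^ 999 ∧ T.γ = ((R : ℝ)⁻¹) ^ 2999 ∧ T.η = ((R : ℝ)⁻¹) ^ H ∧
        Sm T.β ((R : ℝ) ^ (2 * 2002 + 8)) := by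
  obtain ⟨w, a, Q, G, hw0, hw1, ha, hQ, hQ1, hG, hG1, hdom, hμB, hμF⟩ := slot_decomp hq0 hq1
  obtain ⟨S0, J0, hper⟩ := hper
  set P : A := mu q slotB with hP
  set E : A := mu q slotF - P with hE
  have hPp : Pos P := mu_pos hq0.le hq1.le _
  have hP1 : mass P = 1 := mu_mass _ _
  have hfam : Fam k P E 1 (1 + 1 / a) 0 := by
    have := slot_fam hw0 hw1 ha hQ hQ1 hG hdom k
    rwa [← hμB, show w • (G - Q) = E by rw [hE, hμB, hμF]; module] at this
  have hmE : mass E = 0 := by rw [hE, map_sub, hP1, mu_mass, sub_self]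
  have hsmP : Sm P (4 * ((0 : ℕ) + 1 : ℝ) / (1 - w)) := by
    refine foguel hPp hP1 (C := (1 - w) • (1 : A)) (Pos.one.smul (by linarith)) (by linarith)
      (by simp [mass_one]) 0 ?_ ?_
    · rw [pow_zero, show (1 : A) - (1 - w) • (1 : A) = w • (1 : A) by module]
      exact Pos.one.smul hw0.le
    · rw [zero_add, pow_one, hμB, show (1 - w) • (1 : A) + w • Q - (1 - w) • (1 : A) = w • Q by abel]
      exact hQ.smul hw0.le
  set SP : ℝ := 4 / (1 - w) with hSP
  rw [show 4 * ((0 : ℕ) + 1 : ℝ) / (1 - w) = SP by simp [hSP]] at hsmP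
  set γ0 : ℝ := 1 + 1 / a with hγ0
  have hγ0pos : 0 < γ0 := by positivity
  have hSP0 : 0 ≤ SP := div_nonneg (by norm_num) (by linarith)
  obtain ⟨R0, hR0⟩ : ∃ R0 : ℕ, max (max ((6 * m + m.factorial + 64 + J0 : ℕ) : ℝ) (3 * SP))
      (max (max (avc k m * γ0) (2 * m * 2 ^ m * m.factorial * (avc k m * γ0)))
        (max (3 * S0) ((2 * m * 2 ^ m * m.factorial * γ0 + 4 + γ0) * (3 * 2 ^ m)))) ≤ R0 :=
    ⟨_, Nat.le_ceil _⟩
  refine ⟨R0, fun R hR => ?_⟩
  have hR' : (R0 : ℝ) ≤ R := by exact_mod_cast hR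
  have hall := hR0.trans hR'
  simp only [max_le_iff] at hall
  obtain ⟨⟨c1, c2⟩, ⟨c3, c4⟩, c5, c6⟩ := hall
  have c1' : 6 * m + m.factorial + 64 + J0 ≤ R := by exact_mod_cast c1
  have hR1 : 1 ≤ R := by omega
  have hR0' : (0 : ℝ) < R := by exact_mod_cast (show 0 < R by omega)
  set ε : ℝ := (R : ℝ)⁻¹ with hε
  have hε0 : 0 < ε := inv_pos.2 hR0'
  have hε1 : ε ≤ 1 := inv_le_one_of_one_le₀ (by exact_mod_cast hR1)
  set D := 2 * R ^ 2001 + 1 with hD
  set M := R ^ 2003 with hM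
  set h := R ^ 2001 with hh
  set d := R ^ 2006 with hd
  set s0 := m.factorial with hs0
  have hpow : ∀ i j, i ≤ j → R ^ i ≤ R ^ j := fun i j hij => Nat.pow_le_pow_right (by omega) hij
  have hpow1 : ∀ i j, i + 1 = j → R * R ^ i = R ^ j := fun i j h => by
    subst h; exact (pow_succ' R i).symm
  have hp1 : ∀ i, 1 ≤ R ^ i := fun i => Nat.one_le_pow _ _ (by omega)
  have hsep : m * R ^ 2000 < D := by
    have : m * R ^ 2000 ≤ R * R ^ 2000 := Nat.mul_le_mul_right _ (by omega)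
    rw [hpow1 2000 2001 (by norm_num)] at this; omega
  have hroom : h + m * (s0 + 2 * R ^ 2000) + m + 4 ≤ 2 * D := by
    have b1 : s0 + 2 * R ^ 2000 ≤ 3 * R ^ 2000 := by
      have : R ≤ R ^ 2000 := Nat.le_self_pow (by norm_num) R
      omega
    have b2 : m * (s0 + 2 * R ^ 2000) ≤ m * (3 * R ^ 2000) := Nat.mul_le_mul_left _ b1
    have b3 : m * (3 * R ^ 2000) ≤ R * R ^ 2000 := by
      rw [← mul_assoc]; exact Nat.mul_le_mul_right _ (by omega)
    have b4 : R ≤ R ^ 2001 := Nat.le_self_pow (by norm_num) R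
    rw [hpow1 2000 2001 (by norm_num)] at b3
    omega
  have hpad : m * R ^ 4003 + m * R ^ 2000 + s0 ≤ D * M := by
    have b1 : m * R ^ 2000 ≤ m * R ^ 4003 := Nat.mul_le_mul_left _ (hpow _ _ (by norm_num))
    have b2 : 2 * (m * R ^ 4003) + R ^ 4003 ≤ R * R ^ 4003 := by
      rw [← mul_assoc, ← Nat.succ_mul]; exact Nat.mul_le_mul_right _ (by omega)
    have b3 : R ≤ R ^ 4003 := Nat.le_self_pow (by norm_num) R
    have b4 : R ^ 4004 ≤ D * M := by
      rw [show (4004 : ℕ) = 2001 + 2003 by norm_num, pow_add]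
      exact Nat.mul_le_mul_right _ (by omega)
    rw [hpow1 4003 4004 (by norm_num)] at b2
    omega
  let Tp : Dip k :=
    { P := P, E := E, S := SP, γ0 := γ0, D := D, M := M, h := h, a := R ^ 4003, w := R ^ 2000,
      m := m, posP := hPp, massP := hP1, smooth := hsmP, fam := hfam, mass_E := hmE,
      γ0_pos := hγ0pos, ha := hp1 _, hm := hm, hw := hp1 _, hsep := hsep, hroom := hroom,
      hpad := hpad }
  have hL : (Tp.L : ℝ) ≤ 3 * (R : ℝ) ^ 2003 := by
    have : Tp.L ≤ 3 * M := by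
      have := hp1 2003
      show 2 * M + 1 ≤ 3 * M
      omega
    have : (Tp.L : ℝ) ≤ ((3 * M : ℕ) : ℝ) := by exact_mod_cast this
    simpa [hM] using this
  have hSPR : SP ≤ (R : ℝ) ^ 1 := by rw [pow_one]; linarith
  have hrem : Tp.rem ≤ 2 ^ m * ε ^ m := by
    show (2 * ((R ^ 2000 : ℕ) : ℝ) * Real.sqrt (SP / ((R ^ 4003 : ℕ) : ℝ))) ^ m ≤ _
    rw [← mul_pow]
    refine pow_le_pow_left₀ (by positivity) ?_ m
    calc 2 * ((R ^ 2000 : ℕ) : ℝ) * Real.sqrt (SP / ((R ^ 4003 : ℕ) : ℝ))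
        ≤ 2 * (R : ℝ) ^ 2000 * ε ^ 2001 := by
          have := sqrt_ratio_le hR1 (t := 2001) hSPR (a := 4003) (by norm_num)
          push_cast at this ⊢
          gcongr
      _ = 2 * ((R : ℝ) ^ 2000 * ε ^ 2001) := by ring
      _ ≤ 2 * ε ^ 1 := mul_le_mul_of_nonneg_left (pe hR1 (by norm_num)) (by norm_num)
      _ = _ := by rw [pow_one]
  have hrem0 : 0 ≤ Tp.rem := by unfold Dip.rem; positivity
  have hLrem : (Tp.L : ℝ) * Tp.rem ≤ 3 * 2 ^ m * ε ^ (H + 1) := by
    calc (Tp.L : ℝ) * Tp.rem ≤ 3 * (R : ℝ) ^ 2003 * (2 ^ m * ε ^ m) := by gcongr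
      _ = 3 * 2 ^ m * ((R : ℝ) ^ 2003 * ε ^ m) := by ring
      _ ≤ _ := mul_le_mul_of_nonneg_left (pe hR1 (by omega)) (by positivity)
  have hsw : Real.sqrt ((R ^ 2000 : ℕ) : ℝ) = (R : ℝ) ^ 1000 := by
    rw [show (2000 : ℕ) = 2 * 1000 by norm_num]; exact sqrt_sq_pow 1000
  have hcM := cM_pos k
  have havc : 0 ≤ avc k m := by unfold avc; positivity
  have hdiv : avc k m * γ0 / Real.sqrt ((R ^ 2000 : ℕ) : ℝ) = avc k m * γ0 * ε ^ 1000 := by
    rw [hsw, hε, inv_pow, div_eq_mul_inv]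
  set α := P ^ D with hα
  set ℓ := 2 * M + 1 with hℓ
  have hLeq : Tp.L = ℓ := rfl
  have hN : Tp.N = D * (2 * ℓ) := rfl
  set zE : A := P ^ (D * M + h) * E * P ^ (D - 1 - h + D * M) with hzE
  set zL : A := P ^ (D * M + h + s0) * E * P ^ (D - 1 - h - s0 + D * M) - zE with hzL
  have hs0D : h + s0 + 1 ≤ D := by
    have : R ≤ R ^ 2001 := Nat.le_self_pow (by norm_num) R
    omega
  have htr : ∀ r p, r < ℓ → h + p + 1 ≤ D →
      α ^ r * (P ^ (D * M + h + p) * E * P ^ (D - 1 - h - p + D * M)) * α ^ (ℓ - r)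
        = flawAt P E Tp.N (Tp.pos p r) := by
    intro r p hr hp
    show _ = P ^ (D * (r + M) + h + p) * E * P ^ (D * (2 * ℓ) - 1 - (D * (r + M) + h + p))
    rw [show D * (r + M) + h + p = D * r + (D * M + h + p) by ring, pow_add P (D * r), hα, ← pow_mul,
      ← pow_mul]
    simp only [mul_assoc]
    congr 3
    rw [← pow_add]
    congr 1
    have : D * (2 * ℓ) = D * (ℓ - r) + D * r + D * M + D * M + D := by
      rw [← Nat.mul_add, ← Nat.mul_add, ← Nat.mul_add, ← Nat.mul_succ]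
      congr 1
      omega
    omega
  have hfamE : Fam k α zE ℓ (ε ^ 999) (ε ^ H) := by
    intro c hc
    have h1 := Tp.moved (p := 0) (by show h + 0 + 2 ≤ 2 * D; omega) c hc
    have e : ∑ r ∈ range ℓ, c r • (α ^ r * zE * α ^ (ℓ - r))
        = ∑ r ∈ range Tp.L, c r • flawAt P E Tp.N (Tp.pos 0 r) := by
      refine Finset.sum_congr rfl fun r hr => ?_
      rw [← htr r 0 (Finset.mem_range.1 hr) (by omega)]
      simp only [add_zero, Nat.sub_zero, hzE]
    rw [e, hα, ← pow_mul, ← hN]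
    refine h1.mono (by positivity) ?_ ?_
    · show avc k m * γ0 / Real.sqrt ((R ^ 2000 : ℕ) : ℝ) ≤ _
      rw [hdiv]
      exact cst_eps hR1 c3 (by norm_num)
    · show (Tp.L : ℝ) * Tp.rem * γ0 ≤ _
      calc (Tp.L : ℝ) * Tp.rem * γ0 ≤ 3 * 2 ^ m * ε ^ (H + 1) * γ0 := by gcongr
        _ = 3 * 2 ^ m * γ0 * ε ^ (H + 1) := by ring
        _ ≤ _ := by
            refine cst_eps hR1 (le_trans ?_ c6) le_rfl
            have : 0 ≤ 2 * (m : ℝ) * 2 ^ m * m.factorial * γ0 := by positivity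
            have : 0 ≤ 3 * (2 : ℝ) ^ m := by positivity
            nlinarith
  have hfamL : Fam k α zL ℓ (ε ^ 2999) (ε ^ H) := by
    intro c hc
    have h1 := Tp.dipole c hc
    have e : ∑ r ∈ range ℓ, c r • (α ^ r * zL * α ^ (ℓ - r)) = ∑ r ∈ range Tp.L, c r •
        (flawAt P E Tp.N (Tp.pos s0 r) - flawAt P E Tp.N (Tp.pos 0 r)) := by
      refine Finset.sum_congr rfl fun r hr => ?_
      rw [← htr r 0 (Finset.mem_range.1 hr) (by omega), ← htr r s0 (Finset.mem_range.1 hr) hs0D]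
      simp only [add_zero, Nat.sub_zero, hzL, hzE, mul_sub, sub_mul]
    rw [e, hα, ← pow_mul, ← hN]
    have hlE : l1 E ≤ 2 := by
      rw [hE]
      refine (l1_sub _ _).trans ?_
      rw [l1_eq_mass (mu_pos hq0.le hq1.le _), l1_eq_mass hPp, mu_mass, hP1]; norm_num
    refine h1.mono ?_ ?_ ?_
    · show 0 ≤ 2 * (m : ℝ) * 2 ^ m * m.factorial / ((R ^ 2000 : ℕ) : ℝ)
          * (avc k m * γ0 / Real.sqrt ((R ^ 2000 : ℕ) : ℝ))
      positivity
    · show 2 * (m : ℝ) * 2 ^ m * m.factorial / ((R ^ 2000 : ℕ) : ℝ)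
          * (avc k m * γ0 / Real.sqrt ((R ^ 2000 : ℕ) : ℝ)) ≤ _
      rw [hdiv, div_eq_mul_inv]
      push_cast
      rw [← inv_pow, ← hε]
      calc 2 * (m : ℝ) * 2 ^ m * m.factorial * ε ^ 2000 * (avc k m * γ0 * ε ^ 1000)
          = 2 * (m : ℝ) * 2 ^ m * m.factorial * (avc k m * γ0) * ε ^ (2000 + 1000) := by
            rw [pow_add]; ring
        _ ≤ _ := cst_eps hR1 c4 (by norm_num)
    · show 2 * (m : ℝ) * 2 ^ m * m.factorial / ((R ^ 2000 : ℕ) : ℝ) * ((Tp.L : ℝ) * Tp.rem * γ0)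
          + 2 * ((Tp.L : ℝ) * Tp.rem * l1 E) ≤ _
      have hw1' : (1 : ℝ) ≤ ((R ^ 2000 : ℕ) : ℝ) := by exact_mod_cast hp1 2000
      have hdle : 2 * (m : ℝ) * 2 ^ m * m.factorial / ((R ^ 2000 : ℕ) : ℝ)
          ≤ 2 * (m : ℝ) * 2 ^ m * m.factorial := div_le_self (by positivity) hw1'
      have hX : 0 ≤ (Tp.L : ℝ) * Tp.rem := mul_nonneg (Nat.cast_nonneg _) hrem0
      calc _ ≤ 2 * (m : ℝ) * 2 ^ m * m.factorial * (3 * 2 ^ m * ε ^ (H + 1) * γ0)
            + 2 * (3 * 2 ^ m * ε ^ (H + 1) * 2) := by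
            refine add_le_add (mul_le_mul hdle (mul_le_mul_of_nonneg_right hLrem hγ0pos.le)
              (mul_nonneg hX hγ0pos.le) (by positivity)) (mul_le_mul_of_nonneg_left ?_ zero_le_two)
            exact mul_le_mul hLrem hlE (l1_nonneg _) (by positivity)
        _ = (2 * (m : ℝ) * 2 ^ m * m.factorial * γ0 + 4) * (3 * 2 ^ m) * ε ^ (H + 1) := by ring
        _ ≤ _ := by
            refine cst_eps hR1 (le_trans ?_ c6) le_rfl
            exact mul_le_mul_of_nonneg_right (by linarith) (by positivity)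
  -- the two words
  set Ls := D * (2 * d + ℓ) with hLs
  set x := D * (d + M) + h with hx
  have hLsx : Ls = 2 * x + 1 := by rw [hLs, hx, hℓ, hD, hh]; ring
  have hsx : x + s0 < Ls := by
    have : R ≤ R ^ 2001 := Nat.le_self_pow (by norm_num) R
    omega
  have hF : mu q slotF = P + E := by rw [hE]; abel
  have hmu : ∀ y, mu q (flawWord Ls y) = P ^ y * mu q slotF * P ^ (Ls - 1 - y) := fun y => by
    rw [flawWord, map_mul, map_mul, map_pow, map_pow]
  have hαn : α ^ (2 * d + ℓ) = P ^ Ls := by rw [hα, ← pow_mul]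
  have hsplit : ∀ y, y < Ls → mu q (flawWord Ls y) = P ^ Ls + P ^ y * E * P ^ (Ls - 1 - y) := by
    intro y hy
    rw [hmu, hF, mul_add, add_mul, ← pow_succ, ← pow_add, show y + 1 + (Ls - 1 - y) = Ls by omega]
  have hcore : ∀ p, h + p + 1 ≤ D →
      α ^ d * (P ^ (D * M + h + p) * E * P ^ (D - 1 - h - p + D * M)) * α ^ d
        = P ^ (x + p) * E * P ^ (Ls - 1 - (x + p)) := by
    intro p hp
    rw [show x + p = D * d + (D * M + h + p) by rw [hx]; ring, pow_add P (D * d), hα, ← pow_mul]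
    simp only [mul_assoc]
    congr 3
    rw [← pow_add]
    congr 1
    have : Ls = D * d + D * d + D * M + D * M + D := by rw [hLs, hℓ]; ring
    omega
  have hdℓ : ℓ ≤ d := by
    have : 3 * R ^ 2003 ≤ R * R ^ 2003 := Nat.mul_le_mul_right _ (by omega)
    have h2 := hpow 2004 2006 (by norm_num)
    rw [hpow1 2003 2004 (by norm_num)] at this
    have := hp1 2003
    omega
  let T : Lvl k :=
    { α := α, β := mu q (flawWord Ls x), φ := mu q (flawWord Ls (x + s0)), zE := zE, zL := zL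
      n := 2 * d + ℓ, d := d, ℓ := ℓ, S := SP * D, γE := ε ^ 999, γ := ε ^ 2999, η := ε ^ H
      posα := hPp.pow _, massα := mass_pow_one hP1 _, posβ := mu_pos hq0.le hq1.le _
      massβ := mu_mass _ _, massφ := mu_mass _ _
      smooth := fun i hi => by
        have hDi : 1 ≤ D * i := Nat.mul_pos (by omega) hi
        have := hsmP.shift hPp hP1 hDi D
        rw [hα, ← pow_mul, mul_sub, mul_one, ← pow_add]
        refine this.trans (le_of_eq ?_)
        have hDpos : (0 : ℝ) < D := by exact_mod_cast (show 0 < D by omega)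
        have hi' : (0 : ℝ) < i := by exact_mod_cast hi
        push_cast
        rw [show SP * (D : ℝ) / i = (D : ℝ) ^ 2 * (SP / (D * i)) by field_simp,
          Real.sqrt_mul (by positivity), Real.sqrt_sq hDpos.le]
      hn := rfl, hℓ := by omega, hℓd := hdℓ
      hE := by
        have e := hcore 0 (by omega)
        simp only [add_zero, Nat.sub_zero] at e
        rw [hzE, hαn, e, hsplit x (by omega), show P ^ Ls + P ^ x * E * P ^ (Ls - 1 - x) - P ^ Ls
          - P ^ x * E * P ^ (Ls - 1 - x) = 0 by abel, l1_zero]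
        positivity
      hD := by
        have e := hcore 0 (by omega)
        simp only [add_zero, Nat.sub_zero] at e
        rw [hzL, mul_sub, sub_mul, hzE, e, hcore s0 hs0D, hsplit x (by omega), hsplit _ hsx,
          show ∀ u v z : A, z + u - (z + v) - (u - v) = 0 from fun u v z => by abel, l1_zero]
        positivity
      mass_zE := by rw [hzE, mass_mul, mass_mul, hmE]; ring
      mass_zL := by rw [hzL, hzE, map_sub, mass_mul, mass_mul, mass_mul, mass_mul, hmE]; ring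
      famE := hfamE, famL := hfamL
      γE_pos := by positivity, γ_pos := by positivity
      γE_le := pow_le_one₀ hε0.le hε1, γ_le := pow_le_one₀ hε0.le hε1
      η_le := pow_le_one₀ hε0.le hε1 }
  have hn0 : R ^ 2006 ≤ 2 * d + ℓ := by omega
  have hn1 : 2 * d + ℓ ≤ R ^ 2007 := by
    have : 3 * R ^ 2006 ≤ R * R ^ 2006 := Nat.mul_le_mul_right _ (by omega)
    rw [hpow1 2006 2007 (by norm_num)] at this; omega
  have hD3 : D ≤ 3 * R ^ 2001 := by have := hp1 2001; omega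
  have hLsle : Ls ≤ 3 * R ^ 4008 := by
    calc Ls ≤ 3 * R ^ 2001 * R ^ 2007 := Nat.mul_le_mul hD3 hn1
      _ = 3 * R ^ 4008 := by rw [mul_assoc, ← pow_add]
  refine ⟨T, flawWord Ls x, flawWord Ls (x + s0), rfl, rfl, ?_, ?_, ?_, hn0, hn1, ?_, rfl, rfl, rfl,
    ?_⟩
  · rw [flawWord_length (by omega), flawWord_length hsx]
  · rw [flawWord_length (by omega)]
    have : 6 * R ^ 4008 ≤ R * R ^ 4008 := Nat.mul_le_mul_right _ (by omega)
    have h2 := hpow 4009 4014 (by norm_num)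
    rw [hpow1 4008 4009 (by norm_num)] at this
    show 2 * Ls - 1 ≤ R ^ 4014
    omega
  · exact flawWord_differ (Nat.factorial_pos m)
  · show SP * (D : ℝ) ≤ (R : ℝ) ^ 2002
    have hD3' : (D : ℝ) ≤ 3 * (R : ℝ) ^ 2001 := by exact_mod_cast hD3
    calc SP * (D : ℝ) ≤ SP * (3 * (R : ℝ) ^ 2001) := mul_le_mul_of_nonneg_left hD3' hSP0
      _ = (3 * SP) * (R : ℝ) ^ 2001 := by ring
      _ ≤ (R : ℝ) * (R : ℝ) ^ 2001 := mul_le_mul_of_nonneg_right c2 (by positivity)
      _ = _ := by rw [← pow_succ']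
  · have hbig : R ≤ Ls := by
      have : R ≤ R ^ 2006 := Nat.le_self_pow (by norm_num) R
      have : 1 * (2 * d + ℓ) ≤ Ls := Nat.mul_le_mul_right _ (by omega)
      omega
    have hdist : J0 * Nat.dist (2 * x) Ls ≤ Ls := by
      rw [Nat.dist_eq_sub_of_le (by omega), show Ls - 2 * x = 1 by omega, mul_one]
      omega
    have := hper Ls x (by omega) hdist
    show Sm (mu q (flawWord Ls x)) _
    rw [hmu]
    refine this.mono ?_
    have hLsR : (Ls : ℝ) ≤ 3 * (R : ℝ) ^ 4008 := by exact_mod_cast hLsle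
    have hLs0 : (0 : ℝ) ≤ Ls := Nat.cast_nonneg _
    have h12 : (R : ℝ) ^ 4009 ≤ (R : ℝ) ^ (2 * 2002 + 8) :=
      pow_le_pow_right₀ (by exact_mod_cast hR1) (by norm_num)
    rcases le_total S0 0 with h' | h'
    · exact (mul_nonpos_of_nonpos_of_nonneg h' hLs0).trans (by positivity)
    · calc S0 * Ls ≤ S0 * (3 * (R : ℝ) ^ 4008) := mul_le_mul_of_nonneg_left hLsR h'
        _ = (3 * S0) * (R : ℝ) ^ 4008 := by ring
        _ ≤ (R : ℝ) * (R : ℝ) ^ 4008 := mul_le_mul_of_nonneg_right c5 (by positivity)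
        _ = (R : ℝ) ^ 4009 := by rw [← pow_succ']
        _ ≤ _ := h12

end Vale.Agent.P321
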