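import Mathlib
import Vale.Agent.P321.Algebra
import Vale.Agent.P321.Binomial
import Vale.Agent.P321.Ortho
import Vale.Agent.P321.Super.Smooth
import Vale.Agent.P321.Super.Moment

/-!
The law of a word of slots, split by the number of tokens and expanded in the perturbation `G - Q`.

A slot is flagged (`true`) or clean (`false`); it emits a token with probability `w`, distributed as
`G` when flagged and as `Q` otherwise.
-/

open scoped BigOperators
open Finset

noncomputable section

namespace Vale.Agent.P321.Per

/-! ### Sums over Boolean patterns of a given length -/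

/-- The sum of `F` over all patterns of length `N`. -/
def sumU {β : Type*} [AddCommMonoid β] : ℕ → (List Bool → β) → β
  | 0, F => F []
  | N + 1, F => sumU N (fun u => F (false :: u)) + sumU N fun u => F (true :: u)

theorem sumU_congr {β : Type*} [AddCommMonoid β] : ∀ (N : ℕ) {F G : List Bool → β},
    (∀ u, u.length = N → F u = G u) → sumU N F = sumU N G
  | 0, _, _, h => h [] rfl
  | N + 1, _, _, h => by
    simp only [sumU]
    rw [sumU_congr N fun u hu => h (false :: u) (by simp [hu]),
      sumU_congr N fun u hu => h (true :: u) (by simp [hu])]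

theorem sumU_zero {β : Type*} [AddCommMonoid β] : ∀ N : ℕ, sumU N (fun _ => (0 : β)) = 0
  | 0 => rfl
  | N + 1 => by simp [sumU, sumU_zero N]

theorem sumU_add {β : Type*} [AddCommMonoid β] : ∀ (N : ℕ) (F G : List Bool → β),
    sumU N (fun u => F u + G u) = sumU N F + sumU N G
  | 0, _, _ => rfl
  | N + 1, F, G => by simp only [sumU, sumU_add N]; abel

theorem sumU_map {β γ : Type*} [AddCommMonoid β] [AddCommMonoid γ] (h : β →+ γ) :
    ∀ (N : ℕ) (F : List Bool → β), h (sumU N F) = sumU N fun u => h (F u)
  | 0, _ => rfl
  | N + 1, F => by simp only [sumU, map_add, sumU_map h N]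

theorem sumU_finset {β ι : Type*} [AddCommMonoid β] (N : ℕ) (s : Finset ι)
    (F : ι → List Bool → β) : sumU N (fun u => ∑ i ∈ s, F i u) = ∑ i ∈ s, sumU N (F i) := by
  classical
  induction s using Finset.induction with
  | empty => simp [sumU_zero]
  | insert i s hi ih => simp only [Finset.sum_insert hi, sumU_add, ih]

theorem sumU_mul (N : ℕ) (r : ℝ) (F : List Bool → ℝ) :
    sumU N (fun u => r * F u) = r * sumU N F :=
  (sumU_map (AddMonoidHom.mulLeft r) N F).symm

theorem sumU_nonneg : ∀ (N : ℕ) {F : List Bool → ℝ}, (∀ u, 0 ≤ F u) → 0 ≤ sumU N F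
  | 0, _, h => h []
  | N + 1, _, h => add_nonneg (sumU_nonneg N fun u => h _) (sumU_nonneg N fun u => h _)

theorem sumU_mono : ∀ (N : ℕ) {F G : List Bool → ℝ},
    (∀ u, u.length = N → F u ≤ G u) → sumU N F ≤ sumU N G
  | 0, _, _, h => h [] rfl
  | N + 1, _, _, h => add_le_add (sumU_mono N fun u hu => h _ (by simp [hu]))
      (sumU_mono N fun u hu => h _ (by simp [hu]))

/-- Cauchy-Schwarz for pattern sums. -/
theorem sumU_sq_le : ∀ (N : ℕ) {H A B : List Bool → ℝ}, (∀ u, 0 ≤ A u) → (∀ u, 0 ≤ B u) →
    (∀ u, H u ^ 2 ≤ A u * B u) → sumU N H ^ 2 ≤ sumU N A * sumU N B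
  | 0, _, _, _, _, _, h => h []
  | N + 1, H, A, B, hA, hB, h => by
    simp only [sumU]
    have h1 := sumU_sq_le N (H := fun u => H (false :: u)) (fun u => hA _) (fun u => hB _)
      (fun u => h _)
    have h2 := sumU_sq_le N (H := fun u => H (true :: u)) (fun u => hA _) (fun u => hB _)
      (fun u => h _)
    set x := sumU N fun u => H (false :: u)
    set y := sumU N fun u => H (true :: u)
    set a := sumU N fun u => A (false :: u)
    set b := sumU N fun u => B (false :: u)
    set c := sumU N fun u => A (true :: u)
    set d := sumU N fun u => B (true :: u)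
    have ha : 0 ≤ a := sumU_nonneg N fun u => hA _
    have hb : 0 ≤ b := sumU_nonneg N fun u => hB _
    have hc : 0 ≤ c := sumU_nonneg N fun u => hA _
    have hd : 0 ≤ d := sumU_nonneg N fun u => hB _
    have h3 : (2 * (x * y)) ^ 2 ≤ (a * d + b * c) ^ 2 := by
      calc (2 * (x * y)) ^ 2 = 4 * (x ^ 2 * y ^ 2) := by ring
        _ ≤ 4 * (a * b * (c * d)) := by
          refine mul_le_mul_of_nonneg_left ?_ (by norm_num)
          exact mul_le_mul h1 h2 (sq_nonneg _) (mul_nonneg ha hb)
        _ ≤ _ := by nlinarith [sq_nonneg (a * d - b * c)]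
    have h4 := abs_le_of_sq_le_sq h3 (by positivity)
    nlinarith [le_abs_self (2 * (x * y))]

/-- Split a sum by the position of the first `true`. -/
theorem sumU_first {β : Type*} [AddCommMonoid β] : ∀ (N : ℕ) (F : List Bool → β),
    sumU N F = F (List.replicate N false) + ∑ j ∈ range N,
      sumU (N - 1 - j) fun u => F (List.replicate j false ++ true :: u)
  | 0, F => by simp [sumU]
  | N + 1, F => by
    rw [sumU, sumU_first N, Finset.sum_range_succ', List.replicate_succ, add_assoc]
    congr 2
    refine Finset.sum_congr rfl fun j hj => ?_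
    rw [show N + 1 - 1 - (j + 1) = N - 1 - j by simp at hj; omega]
    simp [List.replicate_succ]

/-- The number of `true` entries. -/
def nt : List Bool → ℕ
  | [] => 0
  | c :: u => (if c then 1 else 0) + nt u

theorem nt_replicate : ∀ n : ℕ, nt (List.replicate n false) = 0
  | 0 => rfl
  | n + 1 => by simp [List.replicate_succ, nt, nt_replicate n]

theorem nt_append (u v : List Bool) : nt (u ++ v) = nt u + nt v := by
  induction u with
  | nil => simp [nt]
  | cons c u ih => simp [nt, ih, add_assoc]

/-! ### Slots, tokens and laws -/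

variable (w : ℝ) (Q G : A)

/-- The token law of a slot. -/
def tok (b : Bool) : A := if b then G else Q

/-- The token, or its perturbation. -/
def ptok (c : Bool) : A := if c then G - Q else Q

/-- The law of one slot. -/
def slot (b : Bool) : A := (1 - w) • (1 : A) + w • tok Q G b

/-- The law of a word of slots. -/
def law : List Bool → A
  | [] => 1
  | b :: e => slot w Q G b * law e

theorem law_append : ∀ e e' : List Bool, law w Q G (e ++ e') = law w Q G e * law w Q G e'
  | [], _ => by simp [law]
  | b :: e, e' => by simp [law, law_append e e', mul_assoc]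

theorem law_replicate : ∀ n : ℕ,
    law w Q G (List.replicate n false) = ((1 - w) • (1 : A) + w • Q) ^ n
  | 0 => by simp [law]
  | n + 1 => by simp [List.replicate_succ, law, law_replicate n, pow_succ', slot, tok]

/-- The part of the law carrying exactly `N` tokens. -/
def lawL : List Bool → ℕ → A
  | [], 0 => 1
  | [], _ + 1 => 0
  | _ :: e, 0 => (1 - w) • lawL e 0
  | b :: e, N + 1 => (1 - w) • lawL e (N + 1) + w • (tok Q G b * lawL e N)

theorem lawL_eq_zero : ∀ (e : List Bool) (N : ℕ), e.length < N → lawL w Q G e N = 0
  | [], 0, h => absurd h (by simp)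
  | [], N + 1, _ => rfl
  | b :: e, 0, h => absurd h (by simp)
  | b :: e, N + 1, h => by
    simp only [List.length_cons] at h
    simp [lawL, lawL_eq_zero e (N + 1) (by omega), lawL_eq_zero e N (by omega)]

theorem sum_lawL : ∀ (e : List Bool) (K : ℕ), e.length < K →
    ∑ N ∈ range K, lawL w Q G e N = law w Q G e
  | [], K + 1, _ => by simp [sum_range_succ', lawL, law]
  | [], 0, h => absurd h (by simp)
  | _ :: _, 0, h => absurd h (by simp)
  | b :: e, K + 1, h => by
    simp only [List.length_cons] at h
    rw [sum_range_succ']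
    simp only [lawL, sum_add_distrib, ← smul_sum, ← mul_sum]
    rw [sum_lawL e K (by omega), add_right_comm, ← smul_add,
      ← sum_range_succ' (fun N => lawL w Q G e N) K, sum_lawL e (K + 1) (by omega), law, slot,
      add_mul, smul_mul_assoc, smul_mul_assoc, one_mul]

/-- The product of perturbed tokens. -/
def pat : List Bool → A
  | [] => 1
  | c :: u => ptok Q G c * pat u

theorem pat_replicate : ∀ n : ℕ, pat Q G (List.replicate n false) = Q ^ n
  | 0 => by simp [pat]
  | n + 1 => by simp [List.replicate_succ, pat, ptok, pat_replicate n, pow_succ']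

/-- The coefficient of a pattern: the probability that the tokens marked in it are all flagged
and that there are exactly that many tokens. -/
def cf : List Bool → List Bool → ℝ
  | [], u => if u = [] then 1 else 0
  | _ :: e, [] => (1 - w) * cf e []
  | b :: e, c :: u => (1 - w) * cf e (c :: u) + (if b || !c then w * cf e u else 0)

theorem cf_nonneg (h0 : 0 ≤ w) (h1 : w ≤ 1) : ∀ e u : List Bool, 0 ≤ cf w e u
  | [], u => by simp only [cf]; split <;> norm_num
  | b :: e, [] => mul_nonneg (by linarith) (cf_nonneg h0 h1 e [])
  | b :: e, c :: u => by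
    simp only [cf]
    refine add_nonneg (mul_nonneg (by linarith) (cf_nonneg h0 h1 e _)) ?_
    split
    · exact mul_nonneg h0 (cf_nonneg h0 h1 e u)
    · exact le_rfl

theorem cf_clean : ∀ (e : List Bool) (N : ℕ), cf w e (List.replicate N false) = bp w e.length N
  | [], 0 => by simp [cf, bp]
  | [], N + 1 => by simp [cf, bp, List.replicate_succ]
  | b :: e, 0 => by
    have := cf_clean e 0
    simp only [List.replicate_zero] at this
    simp [cf, bp, this]
  | b :: e, N + 1 => by
    rw [List.replicate_succ, cf, ← List.replicate_succ, cf_clean e (N + 1), cf_clean e N]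
    simp [bp]

theorem lawL_expand : ∀ (e : List Bool) (N : ℕ),
    lawL w Q G e N = sumU N fun u => cf w e u • pat Q G u
  | [], 0 => by simp [lawL, sumU, cf, pat]
  | [], N + 1 => by
    rw [lawL, sumU_congr (N + 1) (G := fun _ => (0 : A)) fun u hu => ?_, sumU_zero]
    have : u ≠ [] := fun h => by simp [h] at hu
    simp [cf, this]
  | b :: e, 0 => by simp [lawL, sumU, cf, lawL_expand e 0, smul_smul]
  | b :: e, N + 1 => by
    have hs : ∀ (c : Bool) (r : ℝ), (sumU N fun u => (r * cf w e u) • pat Q G (c :: u))
        = r • (ptok Q G c * sumU N fun u => cf w e u • pat Q G u) := by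
      intro c r
      refine Eq.trans ?_ (sumU_map ((DistribSMul.toAddMonoidHom A r).comp
        (AddMonoidHom.mulLeft (ptok Q G c))) N _).symm
      refine sumU_congr N fun u _ => ?_
      simp [pat, smul_smul, mul_smul_comm]
    rw [lawL, lawL_expand e (N + 1), lawL_expand e N, sumU, sumU]
    simp only [cf, add_smul, sumU_add]
    have h1 : ∀ c : Bool, (sumU N fun u => ((1 - w) * cf w e (c :: u)) • pat Q G (c :: u))
        = (1 - w) • sumU N fun u => cf w e (c :: u) • pat Q G (c :: u) := by
      intro c
      refine Eq.trans ?_ (sumU_map (DistribSMul.toAddMonoidHom A (1 - w)) N _).symm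
      exact sumU_congr N fun u _ => by simp [smul_smul]
    rw [h1, h1]
    cases b
    · simp only [Bool.false_or, Bool.not_false, Bool.not_true, Bool.false_eq_true, ↓reduceIte,
        zero_smul, sumU_zero, add_zero, hs]
      simp only [tok, ptok, Bool.false_eq_true, ↓reduceIte, smul_add]
      abel
    · simp only [Bool.true_or, ↓reduceIte, hs]
      simp only [tok, ptok, Bool.false_eq_true, ↓reduceIte, smul_add, sub_mul, smul_sub]
      abel

theorem pos_tok (hQ : Pos Q) (hG : Pos G) (b : Bool) : Pos (tok Q G b) := by
  unfold tok; split <;> assumption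

theorem pos_lawL (h0 : 0 ≤ w) (h1 : w ≤ 1) (hQ : Pos Q) (hG : Pos G) :
    ∀ (e : List Bool) (N : ℕ), Pos (lawL w Q G e N)
  | [], 0 => Pos.one
  | [], _ + 1 => Pos.zero
  | b :: e, 0 => (pos_lawL h0 h1 hQ hG e 0).smul (by linarith)
  | b :: e, N + 1 => ((pos_lawL h0 h1 hQ hG e (N + 1)).smul (by linarith)).add
      (((pos_tok Q G hQ hG b).mul (pos_lawL h0 h1 hQ hG e N)).smul h0)

theorem mass_lawL (hQ1 : mass Q = 1) (hG1 : mass G = 1) :
    ∀ (e : List Bool) (N : ℕ), mass (lawL w Q G e N) = bp w e.length N
  | [], 0 => by simp [lawL, bp, mass_one]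
  | [], N + 1 => by simp [lawL, bp]
  | b :: e, 0 => by simp [lawL, bp, mass_lawL hQ1 hG1 e 0]
  | b :: e, N + 1 => by
    have ht : mass (tok Q G b) = 1 := by unfold tok; split <;> assumption
    simp [lawL, bp, mass_mul, ht, mass_lawL hQ1 hG1 e (N + 1), mass_lawL hQ1 hG1 e N]

/-! ### Orthogonality -/

theorem pat_orth {a : ℝ} (hQ : Pos Q) (hQ1 : mass Q = 1) (hG : Pos G) (hG1 : mass G = 1)
    (ha : 0 < a) (hdom : Pos (Q - a • G)) : ∀ (N : ℕ) (φ : W → ℝ),
    sumU N (fun u => a ^ nt u * ev φ (pat Q G u) ^ 2) ≤ ev (fun z => φ z ^ 2) (Q ^ N)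
  | 0, φ => by simp [sumU, pat, nt, ev_one]
  | N + 1, φ => by
    set h : List Bool → W → ℝ := fun u z => ev (fun v => φ (z * v)) (pat Q G u) with hh
    have e1 : sumU (N + 1) (fun u => a ^ nt u * ev φ (pat Q G u) ^ 2) = sumU N (fun u =>
        a ^ nt u * ev (h u) Q ^ 2 + a ^ nt u * (a * ev (h u) (G - Q) ^ 2)) := by
      rw [sumU, ← sumU_add]
      refine sumU_congr N fun u _ => ?_
      simp only [pat, ptok, nt, ev_mul, hh, Bool.false_eq_true, ↓reduceIte, zero_add, pow_add,
        pow_one]
      ring
    rw [e1]
    calc _ ≤ sumU N (fun u => a ^ nt u * ev (fun z => h u z ^ 2) Q) := by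
          refine sumU_mono N fun u _ => ?_
          have := one_step hQ1 hG hG1 ha hdom (h u)
          rw [le_div_iff₀ ha] at this
          have hp : 0 ≤ a ^ nt u := by positivity
          rw [← mul_add]
          refine mul_le_mul_of_nonneg_left ?_ hp
          linarith
      _ = ev (fun z => sumU N fun u => a ^ nt u * h u z ^ 2) Q := by
          rw [ev_apply]
          simp only [ev_apply, ← sumU_mul]
          rw [← sumU_finset]
          refine sumU_congr N fun u _ => ?_
          rw [Finset.mul_sum]
          exact Finset.sum_congr rfl fun z _ => by ring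
      _ ≤ ev (fun z => ev (fun v => φ (z * v) ^ 2) (Q ^ N)) Q :=
          ev_mono hQ fun z => pat_orth hQ hQ1 hG hG1 ha hdom N fun v => φ (z * v)
      _ = _ := by rw [pow_succ' Q N, ev_mul]

/-! ### Marginals -/

/-- The probability that all the tokens marked in a pattern are flagged. -/
def marg : List Bool → List Bool → ℝ
  | [], u => if nt u = 0 then 1 else 0
  | _ :: _, [] => 1
  | b :: e, c :: u => (1 - w) * marg e (c :: u) + (if b || !c then w * marg e u else 0)

theorem marg_mem (h0 : 0 ≤ w) (h1 : w ≤ 1) : ∀ e u : List Bool,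
    0 ≤ marg w e u ∧ marg w e u ≤ 1
  | [], u => by simp only [marg]; split <;> norm_num
  | b :: e, [] => by simp [marg]
  | b :: e, c :: u => by
    obtain ⟨p, q⟩ := marg_mem h0 h1 e (c :: u)
    obtain ⟨p', q'⟩ := marg_mem h0 h1 e u
    simp only [marg]
    split <;> constructor <;> nlinarith

theorem marg_nil : ∀ e : List Bool, marg w e [] = 1
  | [] => rfl
  | _ :: _ => rfl

theorem cf_append_le (h0 : 0 ≤ w) (h1 : w ≤ 1) (U : ℕ) {Mx : ℝ} (hMx : ∀ i, bp w U i ≤ Mx) :
    ∀ e u : List Bool, cf w (e ++ List.replicate U false) u ≤ Mx * marg w e u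
  | [], u => by
    have hclean : ∀ (n : ℕ) (v : List Bool), nt v ≠ 0 → cf w (List.replicate n false) v = 0 := by
      intro n
      induction n with
      | zero =>
        intro v hv
        rcases v with _ | ⟨c, v⟩
        · simp [nt] at hv
        · simp [cf]
      | succ n ih =>
        intro v hv
        rcases v with _ | ⟨c, v⟩
        · simp [nt] at hv
        cases c
        · have hv' : nt v ≠ 0 := by simpa [nt] using hv
          simp [List.replicate_succ, cf, ih (false :: v) hv, ih v hv']
        · simp [List.replicate_succ, cf, ih (true :: v) hv]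
    by_cases hu : nt u = 0
    · have : u = List.replicate u.length false := by
        clear hMx hclean
        induction u with
        | nil => rfl
        | cons c u ih =>
          cases c
          · simp only [nt, Bool.false_eq_true, ↓reduceIte, zero_add] at hu
            rw [List.length_cons, List.replicate_succ, ← ih hu]
          · simp [nt] at hu
      rw [this, List.nil_append, cf_clean, List.length_replicate, ← this]
      simp [marg, hu, hMx u.length]
    · rw [List.nil_append, hclean U u hu]
      simp [marg, hu]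
  | b :: e, [] => by
    simp only [List.cons_append, cf, marg]
    have h := cf_append_le h0 h1 U hMx e []
    rw [marg_nil] at h
    have h' := cf_nonneg w h0 h1 (e ++ List.replicate U false) []
    nlinarith
  | b :: e, c :: u => by
    simp only [List.cons_append, cf, marg, mul_add]
    refine add_le_add ?_ ?_
    · rw [mul_left_comm]
      exact mul_le_mul_of_nonneg_left (cf_append_le h0 h1 U hMx e _) (by linarith)
    · split
      · rw [mul_left_comm]
        exact mul_le_mul_of_nonneg_left (cf_append_le h0 h1 U hMx e u) h0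
      · simp

end Vale.Agent.P321.Per
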