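import Mathlib
import Vale.Agent.P321.Super.PeriodicExpansion

/-!
A periodically flawed word followed by clean padding is close to a clean word.

The renewal decomposition of the marginals at the first marked token bounds the weighted square sum,
and the padding makes every coefficient small.
-/

open scoped BigOperators
open Finset

noncomputable section

namespace Vale.Agent.P321.Per

/-! ### Binomial weights as functions of the number of trials -/

section Weights

variable {w : ℝ}

theorem bp_le_inv_sqrt (h0 : 0 < w) (h1 : w < 1) (U i : ℕ) :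
    bp w U i ≤ 1 / Real.sqrt ((U + 1) * (w * (1 - w))) := by
  rcases lt_or_ge U i with hi | hi
  · rw [bp_eq_zero w U i hi]; positivity
  have e : ∀ k, ∑ l ∈ range (k + 1), (bp w U l - bs w U l) = bp w U k := by
    intro k
    induction k with
    | zero => simp [bs]
    | succ k ih => rw [sum_range_succ, ih]; simp [bs]
  rw [← e i]
  refine le_trans (sum_le_sum fun l _ => ?_)
    ((sum_le_sum_of_subset_of_nonneg (t := range (U + 2)) (fun l hl => by simp at hl ⊢; omega)
      fun l _ _ => abs_nonneg _).trans (sum_abs_bp_sub h0 h1 U))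
  rw [abs_sub_comm]; exact le_abs_self _

theorem bp_le_level (h0 : 0 < w) (h1 : w < 1) (g j : ℕ) :
    bp w g j ≤ 1 / Real.sqrt ((j + 1) * (w * (1 - w))) := by
  rcases lt_or_ge g j with h | h
  · rw [bp_eq_zero w g j h]; positivity
  refine (bp_le_inv_sqrt h0 h1 g j).trans ?_
  have : 0 < (w * (1 - w)) := mul_pos h0 (by linarith)
  gcongr

theorem sum_trials_bp (h0 : 0 < w) (h1 : w < 1) : ∀ j R : ℕ,
    w * ∑ g ∈ range R, bp w g j ≤ 1
  | 0, 0 => by simp
  | 0, R + 1 => by
    rw [sum_range_succ', mul_add, mul_sum]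
    have := sum_trials_bp h0 h1 0 R
    rw [mul_sum] at this
    simp only [bp, mul_one, mul_left_comm w (1 - w), ← mul_sum]
    rw [← mul_sum] at this
    nlinarith
  | j + 1, 0 => by simp
  | j + 1, R + 1 => by
    have ih := sum_trials_bp h0 h1 j R
    have hb : 0 ≤ bp w R (j + 1) := bp_nonneg w h0.le h1.le _ _
    have e : ∑ g ∈ range (R + 1), bp w g (j + 1)
        = (1 - w) * ∑ g ∈ range R, bp w g (j + 1) + w * ∑ g ∈ range R, bp w g j := by
      rw [sum_range_succ', mul_sum, mul_sum, ← sum_add_distrib]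
      simp [bp]
    have e' : ∑ g ∈ range (R + 1), bp w g (j + 1)
        = ∑ g ∈ range R, bp w g (j + 1) + bp w R (j + 1) := sum_range_succ _ _
    have hrec : w * ∑ g ∈ range (R + 1), bp w g (j + 1) ≤ w * ∑ g ∈ range R, bp w g j := by
      nlinarith
    linarith

theorem bp_trials_up (h1 : w < 1) (h0 : 0 < w) (g j : ℕ) (h : ((g : ℝ) + 1) * w ≤ j) :
    bp w g j ≤ bp w (g + 1) j := by
  rcases lt_or_ge g j with hgj | hgj
  · rw [bp_eq_zero w g j hgj]; exact bp_nonneg w h0.le h1.le _ _
  have e := bp_succ_mul_sub w g j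
  have hj : (j : ℝ) ≤ g := by exact_mod_cast hgj
  have hb := bp_nonneg w h0.le h1.le g j
  refine le_of_mul_le_mul_right ?_ (show (0 : ℝ) < (g : ℝ) + 1 - j by linarith)
  rw [e]; nlinarith

theorem bp_trials_down (h1 : w < 1) (h0 : 0 < w) (g j : ℕ) (h : (j : ℝ) ≤ ((g : ℝ) + 1) * w) :
    bp w (g + 1) j ≤ bp w g j := by
  have e := bp_succ_mul_sub w g j
  have hb := bp_nonneg w h0.le h1.le g j
  have hg : (0 : ℝ) ≤ g := Nat.cast_nonneg g
  refine le_of_mul_le_mul_right ?_ (show (0 : ℝ) < (g : ℝ) + 1 - j by nlinarith)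
  rw [e]; nlinarith

/-- Sampling a unimodal function along a progression. -/
theorem sum_progression_le (f : ℕ → ℝ) (m : ℕ) {B : ℝ} (hf : ∀ g, 0 ≤ f g) (hB : ∀ g, f g ≤ B)
    (hup : ∀ g, g < m → f g ≤ f (g + 1)) (hdown : ∀ g, m ≤ g → f (g + 1) ≤ f g)
    (L : ℕ) (hL : 1 ≤ L) (x M : ℕ) :
    ∑ k ∈ range M, f (x + k * L) ≤ (∑ g ∈ range (x + M * L), f g) / L + 2 * B := by
  have htv : ∀ R, ∑ g ∈ range R, |f (g + 1) - f g| ≤ if R ≤ m then f R else 2 * B - f R := by
    intro R
    induction R with
    | zero => simp [hf 0]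
    | succ R ih =>
      rw [sum_range_succ]
      rcases lt_or_ge R m with h | h
      · rw [if_pos h.le] at ih
        rw [if_pos (by omega), abs_of_nonneg (by linarith [hup R h])]
        linarith
      · rw [if_neg (by omega), abs_of_nonpos (by linarith [hdown R h])]
        by_cases h' : R ≤ m
        · rw [if_pos h'] at ih; linarith [hB R]
        · rw [if_neg h'] at ih; linarith
  have htv' : ∀ R, ∑ g ∈ range R, |f (g + 1) - f g| ≤ 2 * B := by
    intro R
    refine (htv R).trans ?_
    split <;> linarith [hf R, hB R]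
  have hblock : ∀ y : ℕ, (L : ℝ) * f y ≤ ∑ i ∈ range L, f (y + i)
      + L * ∑ i ∈ range L, |f (y + i + 1) - f (y + i)| := by
    intro y
    have hstep : ∀ i ≤ L, f y ≤ f (y + i) + ∑ l ∈ range L, |f (y + l + 1) - f (y + l)| := by
      intro i hi
      have h2 : f y - f (y + i) ≤ ∑ l ∈ range i, |f (y + l + 1) - f (y + l)| := by
        clear hi
        induction i with
        | zero => simp
        | succ i ih =>
          rw [sum_range_succ, show y + (i + 1) = y + i + 1 from rfl]
          linarith [neg_abs_le (f (y + i + 1) - f (y + i))]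
      have h3 : ∑ l ∈ range i, |f (y + l + 1) - f (y + l)|
          ≤ ∑ l ∈ range L, |f (y + l + 1) - f (y + l)| :=
        sum_le_sum_of_subset_of_nonneg (fun l hl => by simp at hl ⊢; omega) fun l _ _ => abs_nonneg _
      linarith
    calc (L : ℝ) * f y = ∑ _i ∈ range L, f y := by simp
      _ ≤ ∑ i ∈ range L, (f (y + i) + ∑ l ∈ range L, |f (y + l + 1) - f (y + l)|) :=
        sum_le_sum fun i hi => hstep i (by simp at hi; omega)
      _ = _ := by simp [sum_add_distrib]
  have hsum : (L : ℝ) * ∑ k ∈ range M, f (x + k * L) ≤ ∑ g ∈ range (x + M * L), f g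
      + L * ∑ g ∈ range (x + M * L), |f (g + 1) - f g| := by
    induction M with
    | zero =>
      simp only [range_zero, sum_empty, mul_zero, zero_mul, add_zero]
      have := sum_nonneg fun g (_ : g ∈ range x) => hf g
      positivity
    | succ M ih =>
      rw [sum_range_succ, mul_add, show x + (M + 1) * L = x + M * L + L by ring,
        sum_range_add, sum_range_add _ (x + M * L) L]
      have := hblock (x + M * L)
      linarith
  have hLpos : (0 : ℝ) < L := by exact_mod_cast hL
  rw [div_add' _ _ _ hLpos.ne', le_div_iff₀ hLpos]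
  nlinarith [htv' (x + M * L)]

theorem sum_trials_progression (h0 : 0 < w) (h1 : w < 1) (L : ℕ) (hL : 1 ≤ L) (x M j : ℕ) :
    ∑ k ∈ range M, bp w (x + k * L) j
      ≤ 1 / (w * L) + 2 * (1 / Real.sqrt ((j + 1) * (w * (1 - w)))) := by
  refine (sum_progression_le (fun g => bp w g j) ⌊(j : ℝ) / w⌋₊ (fun g => bp_nonneg w h0.le h1.le g j)
    (fun g => bp_le_level h0 h1 g j) (fun g hg => bp_trials_up h1 h0 g j ?_)
    (fun g hg => bp_trials_down h1 h0 g j ?_) L hL x M).trans ?_
  · have h : ((g + 1 : ℕ) : ℝ) ≤ (j : ℝ) / w :=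
      (Nat.cast_le.2 hg).trans (Nat.floor_le (by positivity))
    rw [le_div_iff₀ h0] at h
    push_cast at h
    linarith
  · have h : (j : ℝ) / w < (g : ℝ) + 1 :=
      (Nat.lt_floor_add_one _).trans_le (by gcongr)
    rw [div_lt_iff₀ h0] at h
    linarith
  · rw [← div_div]
    gcongr
    rw [le_div_iff₀ h0, mul_comm]
    exact sum_trials_bp h0 h1 j _

theorem sum_inv_sqrt (M : ℕ) : ∑ k ∈ range M, 1 / Real.sqrt ((k : ℝ) + 1) ≤ 2 * Real.sqrt M := by
  induction M with
  | zero => simp
  | succ M ih =>
    rw [sum_range_succ]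
    push_cast
    have a := Real.sq_sqrt (show (0 : ℝ) ≤ M by positivity)
    have b := Real.sq_sqrt (show (0 : ℝ) ≤ (M : ℝ) + 1 by positivity)
    have hb : 0 < Real.sqrt ((M : ℝ) + 1) := Real.sqrt_pos.2 (by positivity)
    have : 1 / Real.sqrt ((M : ℝ) + 1) ≤ 2 * (Real.sqrt ((M : ℝ) + 1) - Real.sqrt M) := by
      rw [div_le_iff₀ hb]
      nlinarith [sq_nonneg (Real.sqrt ((M : ℝ) + 1) - Real.sqrt M)]
    linarith

/-- The bound on the overlap of a progression with itself. -/
def ovb (w : ℝ) (g₀ L M : ℕ) : ℝ :=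
  2 / Real.sqrt (w * (1 - w)) *
    (1 / Real.sqrt ((g₀ : ℝ) + 1) + 2 * Real.sqrt M / Real.sqrt L) + (M : ℝ) / L

theorem sum_sq_trials (h0 : 0 < w) (h1 : w < 1) (L : ℕ) (hL : 1 ≤ L) {g₀ g : ℕ} (hg : g₀ ≤ g)
    {m M : ℕ} (hm : m ≤ M) (R : ℕ) :
    ∑ j ∈ range R, (∑ k ∈ range m, w * bp w (g + k * L) j) ^ 2 ≤ ovb w g₀ L M := by
  have hc : 0 < w * (1 - w) := mul_pos h0 (by linarith)
  have hL0 : (0 : ℝ) < L := by exact_mod_cast hL
  set T : ℕ → ℝ := fun j => ∑ k ∈ range m, bp w (g + k * L) j with hT
  have hT0 : ∀ j, 0 ≤ T j := fun j => sum_nonneg fun k _ => bp_nonneg w h0.le h1.le _ _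
  have hTs : ∑ j ∈ range R, T j ≤ M := by
    rw [sum_comm]
    calc _ ≤ ∑ _k ∈ range m, (1 : ℝ) := sum_le_sum fun k _ => sum_bp_le_one w h0.le h1.le _ _
      _ = m := by simp
      _ ≤ M := by exact_mod_cast hm
  have hTq : ∑ j ∈ range R, T j / Real.sqrt (j + 1)
      ≤ 1 / Real.sqrt w * (1 / Real.sqrt ((g₀ : ℝ) + 1) + 2 * Real.sqrt M / Real.sqrt L) := by
    calc ∑ j ∈ range R, T j / Real.sqrt (j + 1)
        = ∑ k ∈ range m, ∑ j ∈ range R, bp w (g + k * L) j / Real.sqrt (j + 1) := by
          simp only [hT, sum_div]; exact sum_comm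
      _ ≤ ∑ k ∈ range m, 1 / Real.sqrt (((g + k * L : ℕ) : ℝ) + 1) * (1 / Real.sqrt w) := by
          refine sum_le_sum fun k _ => (sum_bp_inv_sqrt h0 h1.le _ _).trans (le_of_eq ?_)
          rw [Real.sqrt_mul (by positivity), div_mul_div_comm, one_mul]
      _ ≤ _ := by
          rw [← sum_mul, mul_comm]
          refine mul_le_mul_of_nonneg_left ?_ (by positivity)
          rcases Nat.eq_zero_or_pos m with rfl | hm0
          · simp; positivity
          obtain ⟨m', rfl⟩ : ∃ m', m = m' + 1 := ⟨m - 1, by omega⟩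
          rw [sum_range_succ', add_comm]
          refine add_le_add ?_ ?_
          · simp only [zero_mul, add_zero]
            gcongr
          · calc ∑ k ∈ range m', 1 / Real.sqrt (((g + (k + 1) * L : ℕ) : ℝ) + 1)
                ≤ ∑ k ∈ range m', 1 / Real.sqrt ((k : ℝ) + 1) * (1 / Real.sqrt L) := by
                  refine sum_le_sum fun k _ => ?_
                  rw [div_mul_div_comm, one_mul, ← Real.sqrt_mul (by positivity)]
                  gcongr
                  push_cast
                  nlinarith [Nat.cast_nonneg (α := ℝ) g]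
              _ ≤ 2 * Real.sqrt m' * (1 / Real.sqrt L) := by
                  rw [← sum_mul]; gcongr; exact sum_inv_sqrt m'
              _ ≤ _ := by
                  rw [mul_one_div]
                  gcongr
                  exact_mod_cast (by omega : m' ≤ M)
  have hw1 : w ^ 2 / Real.sqrt w ≤ 1 := by
    rw [div_le_one (Real.sqrt_pos.2 h0)]
    refine Real.le_sqrt_of_sq_le ?_
    nlinarith [pow_le_one₀ (n := 3) h0.le h1.le]
  calc ∑ j ∈ range R, (∑ k ∈ range m, w * bp w (g + k * L) j) ^ 2
      ≤ ∑ j ∈ range R, w ^ 2 * (1 / (w * L) * T j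
          + 2 / Real.sqrt (w * (1 - w)) * (T j / Real.sqrt (j + 1))) := by
        refine sum_le_sum fun j _ => ?_
        rw [← mul_sum, mul_pow]
        refine mul_le_mul_of_nonneg_left ?_ (sq_nonneg w)
        have hj := sum_trials_progression h0 h1 L hL g m j
        calc T j ^ 2 ≤ (1 / (w * L) + 2 * (1 / Real.sqrt ((j + 1) * (w * (1 - w))))) * T j := by
              rw [pow_two]; exact mul_le_mul_of_nonneg_right hj (hT0 j)
          _ = _ := by rw [Real.sqrt_mul (by positivity)]; field_simp
    _ = w ^ 2 / (w * L) * ∑ j ∈ range R, T j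
          + w ^ 2 * (2 / Real.sqrt (w * (1 - w))) * ∑ j ∈ range R, T j / Real.sqrt (j + 1) := by
        rw [mul_sum, mul_sum, ← sum_add_distrib]
        exact sum_congr rfl fun j _ => by ring
    _ ≤ w ^ 2 / (w * L) * M + w ^ 2 * (2 / Real.sqrt (w * (1 - w))) *
          (1 / Real.sqrt w * (1 / Real.sqrt ((g₀ : ℝ) + 1) + 2 * Real.sqrt M / Real.sqrt L)) := by
        gcongr
    _ ≤ _ := by
        rw [ovb, add_comm]
        refine add_le_add ?_ ?_
        · set Z := 1 / Real.sqrt ((g₀ : ℝ) + 1) + 2 * Real.sqrt M / Real.sqrt L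
          have hZ : 0 ≤ 2 / Real.sqrt (w * (1 - w)) * Z := by positivity
          calc _ = w ^ 2 / Real.sqrt w * (2 / Real.sqrt (w * (1 - w)) * Z) := by ring
            _ ≤ 1 * (2 / Real.sqrt (w * (1 - w)) * Z) := mul_le_mul_of_nonneg_right hw1 hZ
            _ = _ := one_mul _
        · rw [pow_two, mul_div_mul_left _ _ h0.ne', div_mul_eq_mul_div]
          gcongr
          exact mul_le_of_le_one_left (Nat.cast_nonneg M) h1.le

end Weights

/-! ### The renewal bound -/

/-- `M` flags, the first after `g` clean slots, then one every `L` slots. -/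
def prog : ℕ → ℕ → ℕ → List Bool
  | _, _, 0 => []
  | g, L, M + 1 => List.replicate g false ++ true :: prog (L - 1) L M

theorem length_prog : ∀ (g L M : ℕ), 1 ≤ L → (prog g L (M + 1)).length = g + 1 + M * L
  | g, L, 0, _ => by simp [prog]
  | g, L, M + 1, hL => by
    rw [prog, List.length_append, List.length_cons, List.length_replicate,
      length_prog (L - 1) L M hL, show L - 1 + 1 = L by omega]
    ring

theorem marg_prog (w : ℝ) (L : ℕ) (hL : 1 ≤ L) : ∀ (M g j : ℕ) (u : List Bool),
    marg w (prog g L M) (List.replicate j false ++ true :: u)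
      = ∑ k ∈ range M, w * bp w (g + k * L) j * marg w (prog (L - 1) L (M - k - 1)) u := by
  intro M
  induction M with
  | zero => intro g j u; simp [prog, marg, nt_append, nt]
  | succ M ihM =>
    intro g
    induction g with
    | zero =>
      intro j u
      have hidx : ∀ k, 0 + (k + 1) * L = (L - 1 + k * L) + 1 := by
        intro k
        rw [Nat.succ_mul]
        omega
      rw [prog, List.replicate_zero, List.nil_append, sum_range_succ']
      simp only [show ∀ k, M + 1 - (k + 1) - 1 = M - k - 1 from fun k => by omega, zero_mul,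
        add_zero, Nat.sub_zero, Nat.add_sub_cancel, hidx]
      cases j with
      | zero =>
        have h := ihM (L - 1) 0 u
        simp only [List.replicate_zero, List.nil_append] at h
        simp only [List.replicate_zero, List.nil_append, marg, Bool.true_or, ↓reduceIte, h, bp,
          mul_one, mul_sum]
        congr 1
        exact sum_congr rfl fun k _ => by ring
      | succ j =>
        simp only [List.replicate_succ, List.cons_append, marg, Bool.true_or, ↓reduceIte]
        rw [← List.cons_append, ← List.replicate_succ, ihM, ihM, mul_sum, mul_sum, ← sum_add_distrib]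
        simp only [bp, mul_zero, zero_mul, add_zero]
        exact sum_congr rfl fun k _ => by ring
    | succ g ihg =>
      intro j u
      have hp : prog (g + 1) L (M + 1) = false :: prog g L (M + 1) := by
        simp [prog, List.replicate_succ]
      simp only [hp, show ∀ k, g + 1 + k * L = (g + k * L) + 1 from fun k => by ring]
      cases j with
      | zero =>
        have h := ihg 0 u
        simp only [List.replicate_zero, List.nil_append] at h
        simp only [List.replicate_zero, List.nil_append, marg, Bool.false_or, Bool.not_true,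
          Bool.false_eq_true, ↓reduceIte, add_zero, h, bp, mul_sum]
        exact sum_congr rfl fun k _ => by ring
      | succ j =>
        simp only [List.replicate_succ, List.cons_append, marg, Bool.false_or, Bool.not_false,
          ↓reduceIte]
        rw [← List.cons_append, ← List.replicate_succ, ihg, ihg, mul_sum, mul_sum, ← sum_add_distrib]
        simp only [bp]
        exact sum_congr rfl fun k _ => by ring

theorem renewal (w a : ℝ) (h0 : 0 < w) (h1 : w < 1) (ha : 0 < a) (L : ℕ) (hL : 1 ≤ L)
    (g₀ : ℕ) (hg₀ : g₀ ≤ L - 1) : ∀ (M : ℕ), ovb w g₀ L M ≤ a / 2 → ∀ (g : ℕ), g₀ ≤ g → ∀ N : ℕ,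
    ∑ j ∈ range N, sumU (N - 1 - j) (fun u =>
        marg w (prog g L M) (List.replicate j false ++ true :: u) ^ 2 * a⁻¹ ^ (nt u + 1))
      ≤ 2 * ovb w g₀ L M / a := by
  intro M
  induction M using Nat.strong_induction_on with
  | _ M ih =>
    intro hB g hg N
    have hY : ∀ m, m < M → ∀ n, sumU n (fun u => marg w (prog (L - 1) L m) u ^ 2 * a⁻¹ ^ nt u)
        ≤ 2 := by
      intro m hm n
      have hmono : ovb w g₀ L m ≤ ovb w g₀ L M := by
        unfold ovb; gcongr
      rw [sumU_first]
      have hz : ∑ j ∈ range n, sumU (n - 1 - j) (fun u =>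
          marg w (prog (L - 1) L m) (List.replicate j false ++ true :: u) ^ 2
            * a⁻¹ ^ nt (List.replicate j false ++ true :: u)) ≤ 1 := by
        have := ih m hm (hmono.trans hB) (L - 1) hg₀ n
        refine le_trans (le_of_eq ?_) (this.trans ?_)
        · simp [nt_append, nt_replicate, nt, add_comm]
        · rw [div_le_one ha]; linarith
      obtain ⟨p, q⟩ := marg_mem w h0.le h1.le (prog (L - 1) L m) (List.replicate n false)
      simp only [nt_replicate, pow_zero, mul_one] at hz ⊢
      have := pow_le_one₀ (n := 2) p q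
      linarith
    calc ∑ j ∈ range N, sumU (N - 1 - j) (fun u =>
          marg w (prog g L M) (List.replicate j false ++ true :: u) ^ 2 * a⁻¹ ^ (nt u + 1))
        ≤ ∑ j ∈ range N, 2 / a * (∑ k ∈ range M, w * bp w (g + k * L) j) ^ 2 := by
          refine sum_le_sum fun j _ => ?_
          set T := ∑ k ∈ range M, w * bp w (g + k * L) j with hT
          have hc : ∀ k, 0 ≤ w * bp w (g + k * L) j := fun k =>
            mul_nonneg h0.le (bp_nonneg w h0.le h1.le _ _)
          calc sumU (N - 1 - j) (fun u =>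
                marg w (prog g L M) (List.replicate j false ++ true :: u) ^ 2 * a⁻¹ ^ (nt u + 1))
              ≤ sumU (N - 1 - j) (fun u => T / a * ∑ k ∈ range M, w * bp w (g + k * L) j *
                  (marg w (prog (L - 1) L (M - k - 1)) u ^ 2 * a⁻¹ ^ nt u)) := by
                refine sumU_mono _ fun u _ => ?_
                rw [marg_prog w L hL]
                have hcs := Finset.sum_sq_le_sum_mul_sum_of_sq_le_mul (range M)
                  (f := fun k => w * bp w (g + k * L) j)
                  (g := fun k => w * bp w (g + k * L) j * marg w (prog (L - 1) L (M - k - 1)) u ^ 2)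
                  (r := fun k => w * bp w (g + k * L) j * marg w (prog (L - 1) L (M - k - 1)) u)
                  (fun k _ => hc k) (fun k _ => mul_nonneg (hc k) (sq_nonneg _))
                  fun k _ => le_of_eq (by ring)
                rw [← hT] at hcs
                refine (mul_le_mul_of_nonneg_right hcs (by positivity)).trans (le_of_eq ?_)
                rw [mul_sum, mul_sum, sum_mul]
                exact sum_congr rfl fun k _ => by rw [pow_succ]; ring
            _ = T / a * ∑ k ∈ range M, w * bp w (g + k * L) j * sumU (N - 1 - j)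
                  (fun u => marg w (prog (L - 1) L (M - k - 1)) u ^ 2 * a⁻¹ ^ nt u) := by
                rw [sumU_mul, sumU_finset]
                simp only [sumU_mul]
            _ ≤ T / a * ∑ k ∈ range M, w * bp w (g + k * L) j * 2 := by
                refine mul_le_mul_of_nonneg_left (sum_le_sum fun k hk => ?_)
                  (div_nonneg (sum_nonneg fun k _ => hc k) ha.le)
                exact mul_le_mul_of_nonneg_left (hY _ (by simp at hk; omega) _) (hc k)
            _ = _ := by rw [← sum_mul, hT]; ring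
      _ ≤ 2 / a * ovb w g₀ L M := by
          rw [← mul_sum]
          exact mul_le_mul_of_nonneg_left (sum_sq_trials h0 h1 L hL hg le_rfl N) (by positivity)
      _ = _ := by ring

/-! ### The padded lemma -/

theorem card_window (c r : ℝ) (hr : 0 ≤ r) (n : ℕ) :
    (((range n).filter fun N : ℕ => |(N : ℝ) - c| ≤ r).card : ℝ) ≤ 2 * r + 1 := by
  rcases ((range n).filter fun N : ℕ => |(N : ℝ) - c| ≤ r).eq_empty_or_nonempty with h | ⟨N₀, hN₀⟩
  · rw [h]; simp; linarith
  set lo := ⌈c - r⌉₊
  set hi := ⌊c + r⌋₊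
  have hsub : ((range n).filter fun N : ℕ => |(N : ℝ) - c| ≤ r) ⊆ Finset.Icc lo hi := by
    intro N hN
    simp only [mem_filter, abs_le] at hN
    exact Finset.mem_Icc.2 ⟨Nat.ceil_le.2 (by linarith [hN.2.1]),
      Nat.le_floor (by linarith [hN.2.2])⟩
  have hle : lo ≤ hi := (Finset.mem_Icc.1 (hsub hN₀)).1.trans (Finset.mem_Icc.1 (hsub hN₀)).2
  have hcr : 0 ≤ c + r := by
    have := (abs_le.1 (mem_filter.1 hN₀).2).2
    linarith [Nat.cast_nonneg (α := ℝ) N₀]
  calc _ ≤ ((Finset.Icc lo hi).card : ℝ) := by exact_mod_cast card_le_card hsub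
    _ = (hi : ℝ) + 1 - lo := by
        rw [Nat.card_Icc, Nat.cast_sub (by omega)]; push_cast; ring
    _ ≤ _ := by linarith [Nat.le_ceil (c - r), Nat.floor_le hcr]

theorem padded {w a : ℝ} {Q G : A} (h0 : 0 < w) (h1 : w < 1) (ha : 0 < a) (hQ : Pos Q)
    (hQ1 : mass Q = 1) (hG : Pos G) (hG1 : mass G = 1) (hdom : Pos (Q - a • G))
    {L x : ℕ} (hx : x + 1 ≤ L) (M U : ℕ) (hB : ovb w x L M ≤ a / 2) {r : ℝ} (hr : 0 < r) :
    let n := (prog x L M ++ List.replicate U false).length
    l1 (law w Q G (prog x L M ++ List.replicate U false) - ((1 - w) • (1 : A) + w • Q) ^ n)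
      ≤ 1 / (2 * r ^ 2) + (2 * r * Real.sqrt n + 1)
          * (1 / Real.sqrt ((U + 1) * (w * (1 - w))) * Real.sqrt (2 * ovb w x L M / a)) := by
  intro n
  set E := prog x L M ++ List.replicate U false with hE
  set Mx := 1 / Real.sqrt (((U : ℝ) + 1) * (w * (1 - w))) with hMx
  set Z := Real.sqrt (2 * ovb w x L M / a) with hZ
  refine l1_le_of_forall fun φ hφ => ?_
  have hMx0 : 0 ≤ Mx := by positivity
  have hV : ∀ N, ev (fun z => φ z ^ 2) (Q ^ N) ≤ 1 := fun N => by
    refine (ev_mono (hQ.pow _) (ψ := fun _ => (1 : ℝ)) fun z => ?_).trans_eq ?_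
    · rw [← sq_abs]; exact pow_le_one₀ (abs_nonneg _) (hφ z)
    · rw [ev_const, mass_pow, hQ1]; simp
  have hin : ∀ N, ev φ (lawL w Q G E N) - bp w n N * ev φ (Q ^ N) ≤ Mx * Z := by
    intro N
    set H : List Bool → ℝ := fun u => if nt u = 0 then 0 else cf w E u * ev φ (pat Q G u) with hH
    have hev : ev φ (lawL w Q G E N) - bp w n N * ev φ (Q ^ N) = sumU N H := by
      rw [lawL_expand, show ev φ (sumU N fun u => cf w E u • pat Q G u)
        = sumU N fun u => ev φ (cf w E u • pat Q G u) from sumU_map (ev φ).toAddMonoidHom N _,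
        sumU_first, sumU_first N H]
      simp only [map_smul, smul_eq_mul, cf_clean, pat_replicate, hH, nt_replicate, nt_append, nt,
        ↓reduceIte, zero_add]
      simp [n, hE]
    set A' : List Bool → ℝ := fun u =>
      if nt u = 0 then 0 else Mx ^ 2 * (marg w (prog x L M) u ^ 2 * a⁻¹ ^ nt u) with hA'
    have hsq := sumU_sq_le N (H := H) (A := A') (B := fun u => a ^ nt u * ev φ (pat Q G u) ^ 2)
      (fun u => by simp only [hA']; split <;> positivity) (fun u => by positivity) fun u => by
        simp only [hH, hA']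
        split
        · simp
        · have hle := cf_append_le w h0.le h1.le U (bp_le_inv_sqrt h0 h1 U) (prog x L M) u
          have hcf := cf_nonneg w h0.le h1.le E u
          have hap : a⁻¹ ^ nt u * a ^ nt u = 1 := by rw [← mul_pow, inv_mul_cancel₀ ha.ne', one_pow]
          calc (cf w E u * ev φ (pat Q G u)) ^ 2 = cf w E u ^ 2 * ev φ (pat Q G u) ^ 2 := by ring
            _ ≤ (Mx * marg w (prog x L M) u) ^ 2 * ev φ (pat Q G u) ^ 2 :=
              mul_le_mul_of_nonneg_right (pow_le_pow_left₀ hcf hle 2) (sq_nonneg _)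
            _ = Mx ^ 2 * marg w (prog x L M) u ^ 2 * (a⁻¹ ^ nt u * a ^ nt u)
                  * ev φ (pat Q G u) ^ 2 := by rw [hap]; ring
            _ = _ := by ring
    have hA : sumU N A' ≤ Mx ^ 2 * (2 * ovb w x L M / a) := by
      rw [sumU_first]
      simp only [hA', nt_replicate, nt_append, nt, ↓reduceIte, zero_add]
      refine le_trans (le_of_eq ?_)
        (mul_le_mul_of_nonneg_left (renewal w a h0 h1 ha L (by omega) x (by omega) M hB x le_rfl N)
          (sq_nonneg Mx))
      rw [mul_sum]
      refine sum_congr rfl fun j _ => ?_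
      rw [← sumU_mul]
      exact sumU_congr _ fun u _ => by rw [if_neg (by omega), add_comm 1]
    have hA0 : 0 ≤ sumU N A' := sumU_nonneg N fun u => by simp only [hA']; split <;> positivity
    have hB1 := (pat_orth Q G hQ hQ1 hG hG1 ha hdom N φ).trans (hV N)
    have : sumU N H ^ 2 ≤ Mx ^ 2 * (2 * ovb w x L M / a) :=
      (hsq.trans (mul_le_of_le_one_right hA0 hB1)).trans hA
    rw [hev]
    refine (Real.le_sqrt_of_sq_le this).trans_eq ?_
    rw [Real.sqrt_mul (sq_nonneg _), Real.sqrt_sq hMx0]
  have hout : ∀ N, ev φ (lawL w Q G E N) - bp w n N * ev φ (Q ^ N) ≤ 2 * bp w n N := by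
    intro N
    have a1 := (le_abs_self _).trans (abs_ev_le (X := lawL w Q G E N) hφ)
    have a2 := (neg_le_abs _).trans (abs_ev_le (X := Q ^ N) hφ)
    rw [l1_eq_mass (pos_lawL w Q G h0.le h1.le hQ hG E N), mass_lawL w Q G hQ1 hG1] at a1
    rw [l1_eq_mass (hQ.pow N), mass_pow, hQ1, one_pow] at a2
    have := mul_le_mul_of_nonneg_left a2 (bp_nonneg w h0.le h1.le n N)
    simp only [one_mul] at a1
    linarith
  rcases Nat.eq_zero_or_pos n with hn | hn
  · have hnil : E = [] := List.length_eq_zero_iff.1 hn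
    rw [hnil, hn]
    simp only [law, pow_zero, sub_self, map_zero]
    positivity
  have hn' : (0 : ℝ) < n := by exact_mod_cast hn
  set c : ℝ := n * w
  set S := (range (n + 1)).filter fun N : ℕ => |(N : ℝ) - c| ≤ r * Real.sqrt n
  have e : ev φ (law w Q G E - ((1 - w) • (1 : A) + w • Q) ^ n)
      = ∑ N ∈ range (n + 1), (ev φ (lawL w Q G E N) - bp w n N * ev φ (Q ^ N)) := by
    rw [map_sub, ← sum_lawL w Q G E (n + 1) (Nat.lt_succ_self _), slot_pow w Q n (n + 1) (by omega),
      map_sum, map_sum, ← sum_sub_distrib]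
    simp
  rw [e]
  calc ∑ N ∈ range (n + 1), (ev φ (lawL w Q G E N) - bp w n N * ev φ (Q ^ N))
      ≤ ∑ N ∈ range (n + 1), ((if |(N : ℝ) - c| ≤ r * Real.sqrt n then Mx * Z else 0)
          + 2 / (r ^ 2 * n) * (bp w n N * ((N : ℝ) - c) ^ 2)) := by
        refine sum_le_sum fun N _ => ?_
        have hb := bp_nonneg w h0.le h1.le n N
        by_cases h : |(N : ℝ) - c| ≤ r * Real.sqrt n
        · rw [if_pos h]
          have : 0 ≤ 2 / (r ^ 2 * n) * (bp w n N * ((N : ℝ) - c) ^ 2) := by positivity
          linarith [hin N]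
        · rw [if_neg h, zero_add]
          have h2 : r ^ 2 * n ≤ ((N : ℝ) - c) ^ 2 := by
            rw [← sq_abs ((N : ℝ) - c)]
            calc r ^ 2 * (n : ℝ) = (r * Real.sqrt n) ^ 2 := by
                  rw [mul_pow, Real.sq_sqrt hn'.le]
              _ ≤ _ := pow_le_pow_left₀ (by positivity) (not_le.1 h).le 2
          refine (hout N).trans ?_
          rw [div_mul_eq_mul_div, le_div_iff₀ (by positivity), mul_assoc]
          exact mul_le_mul_of_nonneg_left (mul_le_mul_of_nonneg_left h2 hb) zero_le_two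
    _ = (S.card : ℝ) * (Mx * Z) + 2 / (r ^ 2 * n) * ((n : ℝ) * (w * (1 - w))) := by
        rw [sum_add_distrib, ← sum_filter, ← Finset.mul_sum _ _ (2 / (r ^ 2 * (n : ℝ))),
          (bp_moments w n (n + 1) (by omega)).2.1, sum_const, nsmul_eq_mul]
    _ ≤ (2 * r * Real.sqrt n + 1) * (Mx * Z) + 1 / (2 * r ^ 2) := by
        refine add_le_add (mul_le_mul_of_nonneg_right ?_ (by positivity)) ?_
        · rw [mul_assoc]; exact card_window c _ (by positivity) _
        · rw [show 2 / (r ^ 2 * (n : ℝ)) * ((n : ℝ) * (w * (1 - w))) = 2 * (w * (1 - w)) / r ^ 2 by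
            field_simp, div_le_div_iff₀ (by positivity) (by positivity)]
          nlinarith [mul_nonneg (sq_nonneg r) (sq_nonneg (1 - 2 * w))]
    _ = _ := add_comm _ _

end Vale.Agent.P321.Per
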