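import Mathlib
import Vale.Agent.P321.Super.PeriodicPadded

/-!
Smoothness of the powers of one period with a single flawed slot.

A short run of periods is close to a clean word. One extra period is absorbed by cutting it into a
bounded number of pieces, each followed by a rotated run of periods; this gives a common part of
`β ^ s` and `β ^ (s + 1)`, hence smoothness by `foguel`.
-/

open scoped BigOperators
open Finset

noncomputable section

namespace Vale.Agent.P321.Per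

/-! ### Reversal -/

/-- Reversal of the words. -/
def rev (X : A) : A := MonoidAlgebra.mapDomain FreeMonoid.reverse X

theorem ev_rev (φ : W → ℝ) (X : A) : ev φ (rev X) = ev (fun z => φ (FreeMonoid.reverse z)) X := by
  unfold rev
  induction X using MonoidAlgebra.induction_linear with
  | zero => simp
  | add X Y hX hY => rw [MonoidAlgebra.mapDomain_add, map_add, map_add, hX, hY]
  | single m r => simp

theorem rev_rev (X : A) : rev (rev X) = X :=
  ext_ev fun φ => by simp [ev_rev]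

theorem rev_add (X Y : A) : rev (X + Y) = rev X + rev Y :=
  ext_ev fun φ => by simp [ev_rev]

theorem rev_sub (X Y : A) : rev (X - Y) = rev X - rev Y :=
  ext_ev fun φ => by simp [ev_rev]

theorem rev_smul (r : ℝ) (X : A) : rev (r • X) = r • rev X :=
  ext_ev fun φ => by simp [ev_rev]

theorem rev_one : rev (1 : A) = 1 :=
  ext_ev fun φ => by
    rw [ev_rev, ev_one, ev_one]
    rfl

theorem rev_mul (X Y : A) : rev (X * Y) = rev Y * rev X :=
  ext_ev fun φ => by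
    rw [ev_rev, ev2_prod, ev2_prod, ev2_swap]
    unfold ev2
    simp [ev_rev, FreeMonoid.reverse_mul]

theorem rev_pow (X : A) : ∀ n : ℕ, rev (X ^ n) = rev X ^ n
  | 0 => by simp [rev_one]
  | n + 1 => by rw [pow_succ, rev_mul, rev_pow X n, pow_succ']

theorem pos_rev {X : A} (hX : Pos X) : Pos (rev X) := fun z => by
  rw [coeff_eq_ev, ev_rev]
  exact ev_nonneg hX fun _ => delta_nonneg _ _

theorem mass_rev (X : A) : mass (rev X) = mass X := by simp [mass, ev_rev]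

theorem l1_rev (X : A) : l1 (rev X) = l1 X := by
  have h : ∀ Y : A, l1 (rev Y) ≤ l1 Y := fun Y => l1_le_of_forall fun φ hφ => by
    rw [ev_rev]
    exact (le_abs_self _).trans ((abs_ev_le fun z => hφ _).trans_eq (one_mul _))
  exact le_antisymm (h X) (by simpa [rev_rev] using h (rev X))

/-! ### One period -/

variable (w : ℝ) (Q G : A)

/-- The clean slot. -/
def cs : A := (1 - w) • (1 : A) + w • Q

/-- A word with a single flawed slot. -/
def one1 (x y : ℕ) : A := cs w Q ^ x * cs w G * cs w Q ^ y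

theorem slot_eq (b : Bool) : slot w Q G b = cs w (tok Q G b) := rfl

theorem law_prog_mul (x y : ℕ) : ∀ M : ℕ,
    law w Q G (prog (x + y) (x + 1 + y) M) * cs w Q ^ y = cs w Q ^ y * one1 w Q G x y ^ M
  | 0 => by simp [prog, law]
  | M + 1 => by
    rw [prog, law_append, law_replicate, law, show x + 1 + y - 1 = x + y by omega, mul_assoc,
      mul_assoc, law_prog_mul x y M, pow_succ']
    simp only [slot_eq, tok, ↓reduceIte, one1, ← mul_assoc]
    rw [show ((1 - w) • (1 : A) + w • Q) = cs w Q from rfl, ← pow_add, add_comm x y]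

theorem law_period (x y V M : ℕ) :
    law w Q G (prog x (x + 1 + y) (M + 1) ++ List.replicate (y + V) false)
      = one1 w Q G x y ^ (M + 1) * cs w Q ^ V := by
  rw [law_append, law_replicate, show ((1 - w) • (1 : A) + w • Q) = cs w Q from rfl, pow_add,
    prog, law_append, law_replicate, law, show x + 1 + y - 1 = x + y by omega, ← mul_assoc,
    mul_assoc (_ : A) _ (cs w Q ^ y), mul_assoc (slot w Q G true), law_prog_mul, pow_succ' (one1 w Q G x y)]
  simp only [slot_eq, tok, ↓reduceIte, one1, ← mul_assoc]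
  rw [show ((1 - w) • (1 : A) + w • Q) = cs w Q from rfl]

theorem rev_one1 (x y : ℕ) : rev (one1 w Q G x y) = one1 w (rev Q) (rev G) y x := by
  simp only [one1, cs, rev_mul, rev_pow, rev_add, rev_smul, rev_one, mul_assoc]

variable {w Q G}

theorem pos_cs (h0 : 0 ≤ w) (h1 : w ≤ 1) (hQ : Pos Q) : Pos (cs w Q) :=
  (Pos.one.smul (by linarith)).add (hQ.smul h0)

theorem mass_cs (hQ1 : mass Q = 1) : mass (cs w Q) = 1 := by simp [cs, mass_one, hQ1]

theorem pos_one1 (h0 : 0 ≤ w) (h1 : w ≤ 1) (hQ : Pos Q) (hG : Pos G) (x y : ℕ) :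
    Pos (one1 w Q G x y) :=
  (((pos_cs h0 h1 hQ).pow x).mul (pos_cs h0 h1 hG)).mul ((pos_cs h0 h1 hQ).pow y)

theorem mass_one1 (hQ1 : mass Q = 1) (hG1 : mass G = 1) (x y : ℕ) :
    mass (one1 w Q G x y) = 1 := by
  simp [one1, mass_mul, mass_pow, mass_cs hQ1, mass_cs hG1]

/-- A periodic run followed by a long clean word. -/
theorem padded_period {a : ℝ} (h0 : 0 < w) (h1 : w < 1) (ha : 0 < a) (hQ : Pos Q) (hQ1 : mass Q = 1)
    (hG : Pos G) (hG1 : mass G = 1) (hdom : Pos (Q - a • G)) (x y V M : ℕ) {K : ℝ} (hK : 1 ≤ K)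
    (hn : (((M + 1) * (x + 1 + y) + V : ℕ) : ℝ) ≤ K * (((y + V : ℕ) : ℝ) + 1))
    (hB : K * ovb w x (x + 1 + y) (M + 1) ≤ a * (w * (1 - w)) / (2 * 288 ^ 2)) :
    l1 ((one1 w Q G x y ^ (M + 1) - cs w Q ^ ((M + 1) * (x + 1 + y))) * cs w Q ^ V) ≤ 1 / 12 := by
  set L := x + 1 + y with hL
  set B := ovb w x L (M + 1) with hBdef
  set c := w * (1 - w) with hc
  have hc0 : 0 < c := mul_pos h0 (by linarith)
  have hc1 : c ≤ 1 := by rw [hc]; nlinarith [sq_nonneg (1 - 2 * w)]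
  have hB0 : 0 ≤ B := by rw [hBdef, ovb]; positivity
  have hBa : B ≤ a / 2 := by
    refine (le_mul_of_one_le_left hB0 hK).trans (hB.trans ?_)
    rw [div_le_div_iff₀ (by positivity) (by norm_num)]
    nlinarith
  have hlen : (prog x L (M + 1) ++ List.replicate (y + V) false).length = (M + 1) * L + V := by
    rw [List.length_append, length_prog x L M (by omega), List.length_replicate, hL]; ring
  have h := padded h0 h1 ha hQ hQ1 hG hG1 hdom (show x + 1 ≤ L by omega) (M + 1) (y + V) hBa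
    (r := 4) (by norm_num)
  simp only [hlen, ← hc, ← hBdef] at h
  rw [law_period w Q G x y V M, show ((1 - w) • (1 : A) + w • Q) = cs w Q from rfl,
    pow_add (cs w Q) ((M + 1) * L) V, ← sub_mul] at h
  refine h.trans ?_
  set n : ℝ := (((M + 1) * L + V : ℕ) : ℝ) with hndef
  set U : ℝ := ((y + V : ℕ) : ℝ) + 1 with hUdef
  have hn1 : 1 ≤ n := by
    rw [hndef]; exact_mod_cast Nat.le_add_right_of_le (Nat.mul_pos (Nat.succ_pos M) (by omega))
  have hU : 0 < U := by rw [hUdef]; positivity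
  have hs : 2 * 4 * Real.sqrt n + 1 ≤ 12 * Real.sqrt n := by
    have : 1 ≤ Real.sqrt n := Real.one_le_sqrt.2 hn1
    linarith
  have hkey : Real.sqrt n * (1 / Real.sqrt (U * c) * Real.sqrt (2 * B / a)) ≤ 1 / 288 := by
    rw [div_mul_eq_mul_div, one_mul, ← Real.sqrt_div' _ (by positivity),
      ← Real.sqrt_mul (by positivity), show (1 : ℝ) / 288 = Real.sqrt ((1 / 288) ^ 2) by
        rw [Real.sqrt_sq (by norm_num)]]
    refine Real.sqrt_le_sqrt ?_
    calc n * (2 * B / a / (U * c)) ≤ K * U * (2 * B / a / (U * c)) :=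
          mul_le_mul_of_nonneg_right hn (by positivity)
      _ = 2 * (K * B) / (a * c) := by field_simp
      _ ≤ _ := by
          rw [div_le_iff₀ (by positivity)]
          linarith
  have hpos : 0 ≤ 1 / Real.sqrt (U * c) * Real.sqrt (2 * B / a) := by positivity
  nlinarith [mul_le_mul_of_nonneg_right hs hpos]

/-- Combining the two halves of a run. -/
theorem halves {w a : ℝ} {Q G : A} (h0 : 0 < w) (h1 : w < 1) (ha : 0 < a) (hQ : Pos Q)
    (hQ1 : mass Q = 1) (hG : Pos G) (hG1 : mass G = 1) (hdom : Pos (Q - a • G)) (x y M₁ M₂ : ℕ)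
    (hpos : 1 ≤ M₁) (h12 : M₁ ≤ M₂) (h21 : M₂ ≤ 2 * M₁)
    (hb₁ : 3 * ovb w x (x + 1 + y) M₁ ≤ a * (w * (1 - w)) / (2 * 288 ^ 2))
    (hb₂ : 3 * ovb w y (y + 1 + x) M₂ ≤ a * (w * (1 - w)) / (2 * 288 ^ 2))
    (i₁ : l1 (one1 w Q G x y ^ M₁ - cs w Q ^ (M₁ * (x + 1 + y))) ≤ 1 / 4)
    (i₂ : l1 (one1 w Q G x y ^ M₂ - cs w Q ^ (M₂ * (x + 1 + y))) ≤ 1 / 4) :
    l1 (one1 w Q G x y ^ (M₁ + M₂) - cs w Q ^ ((M₁ + M₂) * (x + 1 + y))) ≤ 1 / 4 := by
  obtain ⟨m₁, rfl⟩ : ∃ m, M₁ = m + 1 := ⟨M₁ - 1, by omega⟩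
  obtain ⟨m₂, rfl⟩ : ∃ m, M₂ = m + 1 := ⟨M₂ - 1, by omega⟩
  have A₁ : l1 ((one1 w Q G x y ^ (m₁ + 1) - cs w Q ^ ((m₁ + 1) * (x + 1 + y)))
      * cs w Q ^ ((m₂ + 1) * (x + 1 + y))) ≤ 1 / 12 := by
    refine padded_period h0 h1 ha hQ hQ1 hG hG1 hdom x y _ m₁ (K := 3) (by norm_num) ?_ hb₁
    have : (m₁ + 1) * (x + 1 + y) ≤ (m₂ + 1) * (x + 1 + y) := Nat.mul_le_mul_right _ h12
    exact_mod_cast (by omega : (m₁ + 1) * (x + 1 + y) + (m₂ + 1) * (x + 1 + y)
      ≤ 3 * (y + (m₂ + 1) * (x + 1 + y) + 1))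
  have A₂ : l1 (cs w Q ^ ((m₁ + 1) * (x + 1 + y))
      * (one1 w Q G x y ^ (m₂ + 1) - cs w Q ^ ((m₂ + 1) * (x + 1 + y)))) ≤ 1 / 12 := by
    have hrevP : rev (cs w Q) = cs w (rev Q) := by simp [cs, rev_add, rev_smul, rev_one]
    rw [← l1_rev, rev_mul, rev_sub, rev_pow, rev_pow, rev_pow, rev_one1, hrevP,
      show x + 1 + y = y + 1 + x by omega]
    refine padded_period h0 h1 ha (pos_rev hQ) (by rw [mass_rev, hQ1]) (pos_rev hG)
      (by rw [mass_rev, hG1]) (by rw [← rev_smul, ← rev_sub]; exact pos_rev hdom) y x _ m₂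
      (K := 3) (by norm_num) ?_ hb₂
    have : (m₂ + 1) * (y + 1 + x) ≤ 2 * ((m₁ + 1) * (y + 1 + x)) := by
      rw [← mul_assoc]; exact Nat.mul_le_mul_right _ h21
    exact_mod_cast (by omega : (m₂ + 1) * (y + 1 + x) + (m₁ + 1) * (y + 1 + x)
      ≤ 3 * (x + (m₁ + 1) * (y + 1 + x) + 1))
  generalize one1 w Q G x y = β at *
  generalize cs w Q = P at *
  generalize x + 1 + y = L at *
  have e : β ^ (m₁ + 1 + (m₂ + 1)) - P ^ ((m₁ + 1 + (m₂ + 1)) * L)
      = (β ^ (m₁ + 1) - P ^ ((m₁ + 1) * L)) * P ^ ((m₂ + 1) * L)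
        + P ^ ((m₁ + 1) * L) * (β ^ (m₂ + 1) - P ^ ((m₂ + 1) * L))
        + (β ^ (m₁ + 1) - P ^ ((m₁ + 1) * L)) * (β ^ (m₂ + 1) - P ^ ((m₂ + 1) * L)) := by
    rw [pow_add β, add_mul (m₁ + 1), pow_add P]
    noncomm_ring
  rw [e]
  have h3 := (l1_mul _ _).trans (mul_le_mul i₁ i₂ (l1_nonneg _) (by norm_num))
  have h12 := (l1_add _ _).trans (add_le_add A₁ A₂)
  refine (l1_add _ _).trans ?_
  linarith

/-- A short periodic run is close to a clean word. -/
theorem flawed (w a : ℝ) (h0 : 0 < w) (h1 : w < 1) (ha : 0 < a) :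
    ∃ τ : ℝ, 0 < τ ∧ ∀ η : ℝ, 0 < η → ∃ J₀ : ℕ, ∀ Q G : A, Pos Q → mass Q = 1 → Pos G →
      mass G = 1 → Pos (Q - a • G) → ∀ x y M : ℕ, J₀ ≤ x + 1 + y →
        η * (x + 1 + y : ℕ) ≤ x → η * (x + 1 + y : ℕ) ≤ y → (M : ℝ) ≤ τ * (x + 1 + y : ℕ) →
          l1 (one1 w Q G x y ^ M - cs w Q ^ (M * (x + 1 + y))) ≤ 1 / 4 := by
  set δ : ℝ := a * (w * (1 - w)) / (2 * 288 ^ 2) with hδ
  set c₂ : ℝ := 2 / Real.sqrt (w * (1 - w)) with hc₂
  have hc0 : 0 < w * (1 - w) := mul_pos h0 (by linarith)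
  have hδ0 : 0 < δ := by positivity
  have hc20 : 0 < c₂ := by positivity
  set τ : ℝ := min 1 ((δ / (6 * (2 * c₂ + 1))) ^ 2) with hτ
  have hτ0 : 0 < τ := lt_min one_pos (by positivity)
  have hτ1 : (2 * c₂ + 1) * Real.sqrt τ ≤ δ / 6 := by
    have : Real.sqrt τ ≤ δ / (6 * (2 * c₂ + 1)) :=
      (Real.sqrt_le_sqrt (min_le_right _ _)).trans_eq (Real.sqrt_sq (by positivity))
    calc (2 * c₂ + 1) * Real.sqrt τ ≤ (2 * c₂ + 1) * (δ / (6 * (2 * c₂ + 1))) :=
          mul_le_mul_of_nonneg_left this (by positivity)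
      _ = δ / 6 := by field_simp
  refine ⟨τ, hτ0, fun η hη => ?_⟩
  set K₁ : ℝ := 1 / η + 1 with hK₁
  set D : ℝ := max ((K₁ * (c₂ / Real.sqrt η + 2 * c₂ + 1) / δ) ^ 2) (36 * c₂ ^ 2 / (δ ^ 2 * η))
    with hD
  refine ⟨⌈D⌉₊ + 1, fun Q G hQ hQ1 hG hG1 hdom x y M hL hx hy hM => ?_⟩
  have hovb : ∀ (x y m : ℕ), η * (x + 1 + y : ℕ) ≤ x → ovb w x (x + 1 + y) m ≤
      c₂ / Real.sqrt (η * (x + 1 + y : ℕ))
        + 2 * c₂ * Real.sqrt ((m : ℝ) / (x + 1 + y : ℕ)) + (m : ℝ) / (x + 1 + y : ℕ) := by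
    intro x y m hx
    set L : ℝ := ((x + 1 + y : ℕ) : ℝ) with hLdef
    rw [ovb, mul_add, ← hc₂, ← hLdef, Real.sqrt_div (Nat.cast_nonneg m), mul_one_div]
    have hLpos : 0 < L := by positivity
    have : c₂ / Real.sqrt ((x : ℝ) + 1) ≤ c₂ / Real.sqrt (η * L) := by
      gcongr
      linarith
    have e : c₂ * (2 * Real.sqrt m / Real.sqrt L) = 2 * c₂ * (Real.sqrt m / Real.sqrt L) := by ring
    linarith
  induction M using Nat.strong_induction_on generalizing Q G x y with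
  | _ M ih =>
    set L : ℕ := x + 1 + y with hLdef
    have hLD : D ≤ L := (Nat.le_ceil D).trans (by exact_mod_cast (by omega : ⌈D⌉₊ ≤ L))
    have hL0 : (0 : ℝ) < L := by rw [hLdef]; positivity
    have hsqL : 0 < Real.sqrt L := Real.sqrt_pos.2 hL0
    rcases Nat.lt_or_ge M 2 with hM2 | hM2
    · interval_cases M
      · simp [l1_zero]
      have hb := hovb x y 1 hx
      rw [← hLdef, Nat.cast_one] at hb
      have hbig : K₁ * (c₂ / Real.sqrt η + 2 * c₂ + 1) / δ ≤ Real.sqrt L :=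
        Real.le_sqrt_of_sq_le ((le_max_left _ _).trans hLD)
      have hone : (1 : ℝ) / L ≤ 1 / Real.sqrt L := by
        gcongr
        refine (Real.sqrt_le_left hL0.le).2 ?_
        have : (1 : ℝ) ≤ L := by exact_mod_cast (by omega : 1 ≤ L)
        nlinarith
      have hKB : K₁ * ovb w x L 1 ≤ δ := by
        have e1 : c₂ / Real.sqrt (η * L) + 2 * c₂ * Real.sqrt (1 / L) + 1 / Real.sqrt L
            = (c₂ / Real.sqrt η + 2 * c₂ + 1) / Real.sqrt L := by
          rw [Real.sqrt_mul hη.le, Real.sqrt_div zero_le_one, Real.sqrt_one]; field_simp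
        calc K₁ * ovb w x L 1 ≤ K₁ * ((c₂ / Real.sqrt η + 2 * c₂ + 1) / Real.sqrt L) := by
              refine mul_le_mul_of_nonneg_left ?_ (by positivity)
              linarith
          _ ≤ δ := by
              rw [div_le_iff₀ hδ0] at hbig
              rw [← mul_div_assoc, div_le_iff₀ hsqL]
              linarith
      have := padded_period h0 h1 ha hQ hQ1 hG hG1 hdom x y 0 0 (K := K₁)
        (by rw [hK₁]; linarith [show 0 ≤ 1 / η by positivity]) ?_ hKB
      · simp only [zero_add, one_mul, pow_zero, mul_one, ← hLdef] at this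
        simp only [one_mul]
        linarith
      · simp only [zero_add, one_mul, add_zero, ← hLdef, hK₁]
        rw [add_mul, one_mul]
        have : (L : ℝ) ≤ 1 / η * ((y : ℝ) + 1) := by
          rw [div_mul_eq_mul_div, le_div_iff₀ hη, mul_comm]; linarith
        linarith [Nat.cast_nonneg (α := ℝ) y]
    have hτm : ∀ m, m ≤ M → (m : ℝ) ≤ τ * L := fun m hm => (Nat.cast_le.2 hm).trans hM
    have hbig : ∀ (x y : ℕ), x + 1 + y = L → η * (L : ℝ) ≤ x → ∀ m : ℕ, m ≤ M →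
        3 * ovb w x L m ≤ δ := by
      intro x' y' he hx' m hm
      have hb := hovb x' y' m (he.symm ▸ hx')
      rw [he] at hb
      have h2 : (m : ℝ) / L ≤ τ := by
        rw [div_le_iff₀ hL0]
        exact (Nat.cast_le.2 hm).trans hM
      have h3 : c₂ / Real.sqrt (η * L) ≤ δ / 6 := by
        have : 36 * c₂ ^ 2 / (δ ^ 2 * η) ≤ L := (le_max_right _ _).trans hLD
        rw [div_le_iff₀ (by positivity)] at this
        rw [div_le_div_iff₀ (by positivity) (by norm_num)]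
        calc c₂ * 6 = Real.sqrt ((c₂ * 6) ^ 2) := (Real.sqrt_sq (by positivity)).symm
          _ ≤ Real.sqrt (δ ^ 2 * (η * L)) := Real.sqrt_le_sqrt (by linarith)
          _ = δ * Real.sqrt (η * L) := by rw [Real.sqrt_mul (by positivity), Real.sqrt_sq hδ0.le]
      have h4 : 2 * c₂ * Real.sqrt ((m : ℝ) / L) + (m : ℝ) / L ≤ (2 * c₂ + 1) * Real.sqrt τ := by
        have hτle : τ ≤ 1 := min_le_left _ _
        have : τ ≤ Real.sqrt τ := Real.le_sqrt_of_sq_le (by nlinarith)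
        have := mul_le_mul_of_nonneg_left (Real.sqrt_le_sqrt h2) (show 0 ≤ 2 * c₂ by positivity)
        linarith
      linarith
    have i₁ := ih (M / 2) (by omega) Q G hQ hQ1 hG hG1 hdom x y hL hx hy (hτm _ (by omega))
    have i₂ := ih (M - M / 2) (by omega) Q G hQ hQ1 hG hG1 hdom x y hL hx hy (hτm _ (by omega))
    have := halves h0 h1 ha hQ hQ1 hG hG1 hdom x y (M / 2) (M - M / 2) (by omega) (by omega)
      (by omega) (hbig x y rfl hx _ (by omega))
      (by rw [show y + 1 + x = L by omega]; exact hbig y x (by omega) hy _ (by omega)) i₁ i₂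
    rwa [show M / 2 + (M - M / 2) = M by omega] at this

/-! ### Common parts -/

/-- `X` and `Y` have a common part of mass at least `θ`. -/
def Ov (θ : ℝ) (X Y : A) : Prop := ∃ C : A, Pos C ∧ θ ≤ mass C ∧ Pos (X - C) ∧ Pos (Y - C)

theorem ov_of_l1 {X Y : A} (hX : Pos X) (hY : Pos Y) (hX1 : mass X = 1) (hY1 : mass Y = 1)
    (h : l1 (X - Y) ≤ 1) : Ov (1 / 2) X Y := by
  set f : W → ℝ := fun z => (sgn (X - Y) z + 1) / 2 with hf
  refine ⟨X - tilt f (X - Y), fun z => ?_, ?_, fun z => ?_, fun z => ?_⟩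
  · simp only [MonoidAlgebra.coeff_sub, Finsupp.sub_apply, coeff_tilt, hf, sgn]
    have := hX z
    have := hY z
    rcases em (0 ≤ X.coeff z - Y.coeff z) with hz | hz <;> simp only [hz, ↓reduceIte] <;>
      linarith
  · rw [map_sub, hX1]
    have e : mass (tilt f (X - Y)) = (l1 (X - Y) + mass (X - Y)) / 2 := by
      rw [mass, ev_tilt]
      have : (fun z => f z * 1) = fun z => (1 / 2) * (sgn (X - Y) z + 1) := by
        funext z; simp only [hf]; ring
      rw [this, ev_smul_test, ev_congr_add, ev_sgn]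
      ring
    rw [e, map_sub, hX1, hY1]
    linarith
  · simp only [MonoidAlgebra.coeff_sub, Finsupp.sub_apply, coeff_tilt, hf, sgn]
    rcases em (0 ≤ X.coeff z - Y.coeff z) with hz | hz <;> simp only [hz, ↓reduceIte] <;>
      linarith
  · simp only [MonoidAlgebra.coeff_sub, Finsupp.sub_apply, coeff_tilt, hf, sgn]
    rcases em (0 ≤ X.coeff z - Y.coeff z) with hz | hz <;> simp only [hz, ↓reduceIte] <;>
      linarith

theorem Ov.mul {θ θ' : ℝ} {X Y X' Y' : A} (h : Ov θ X Y) (h' : Ov θ' X' Y') (hθ : 0 ≤ θ)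
    (hθ' : 0 ≤ θ') : Ov (θ * θ') (X * X') (Y * Y') := by
  obtain ⟨C, hC, hm, hx, hy⟩ := h
  obtain ⟨C', hC', hm', hx', hy'⟩ := h'
  refine ⟨C * C', hC.mul hC', ?_, ?_, ?_⟩
  · rw [mass_mul]; exact mul_le_mul hm hm' hθ' (hθ.trans hm)
  · have hX' : Pos X' := by simpa using hx'.add hC'
    rw [show X * X' - C * C' = (X - C) * X' + C * (X' - C') by noncomm_ring]
    exact (hx.mul hX').add (hC.mul hx')
  · have hY' : Pos Y' := by simpa using hy'.add hC'
    rw [show Y * Y' - C * C' = (Y - C) * Y' + C * (Y' - C') by noncomm_ring]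
    exact (hy.mul hY').add (hC.mul hy')

/-- Insert one piece and a rotated run. -/
theorem chain_step {θ : ℝ} (hθ : 0 ≤ θ) {β pre piece R : A} {m t : ℕ}
    (hov : Ov θ (β ^ m * pre) (β ^ m)) (hchunk : Ov (1 / 2) (piece * R ^ t) (β ^ t))
    (hrot : pre * piece * R = β * (pre * piece)) :
    Ov (θ / 2) (β ^ (m + t) * (pre * piece)) (β ^ (m + t)) := by
  have h := hov.mul hchunk hθ (by norm_num)
  have hs : pre * piece * R ^ t = β ^ t * (pre * piece) :=
    ((SemiconjBy.pow_right (show SemiconjBy (pre * piece) R β from hrot)) t).eq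
  rw [← pow_add, mul_one_div] at h
  rwa [pow_add β m t, mul_assoc (β ^ m) (β ^ t), ← hs, ← mul_assoc, ← mul_assoc, ← pow_add β m t,
    mul_assoc (β ^ m * pre)]

theorem sm_cs {w : ℝ} {Q : A} (h0 : 0 < w) (h1 : w < 1) (hQ : Pos Q) (hQ1 : mass Q = 1) :
    Sm (cs w Q) (4 / (1 - w)) := by
  have := foguel (T := cs w Q) (C := (1 - w) • (1 : A)) (pos_cs h0.le h1.le hQ) (mass_cs hQ1)
    (Pos.one.smul (by linarith)) (θ := 1 - w) (by linarith) (by simp [mass_one]) 0
    (by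
      rw [pow_zero, show (1 : A) - (1 - w) • (1 : A) = w • (1 : A) by module]
      exact Pos.one.smul h0.le)
    (by rw [zero_add, pow_one, cs, add_sub_cancel_left]; exact hQ.smul h0.le)
  simpa using this

/-- A piece followed by a rotated run has a common part with a run. -/
theorem chunk_ov {P R β piece : A} {SP τ : ℝ} {L J t ℓ : ℕ} (hP : Pos P) (hP1 : mass P = 1)
    (hRp : Pos R) (hR1 : mass R = 1) (hβp : Pos β) (hβ1 : mass β = 1) (hpp : Pos piece)
    (hpm : mass piece = 1) (hsm : Sm P SP) (hSP : 0 < SP) (hτ : 0 < τ)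
    (hJ : 8 * Real.sqrt (2 * SP / τ) ≤ J) (htL : τ * L / 2 ≤ t) (ht : 1 ≤ t) (hL : 0 < L)
    (hpl : l1 (piece - P ^ ℓ) ≤ 1 / 4) (hℓ : ℓ * J ≤ 2 * L)
    (hR : l1 (R ^ t - P ^ (t * L)) ≤ 1 / 4) (hβ : l1 (β ^ t - P ^ (t * L)) ≤ 1 / 4) :
    Ov (1 / 2) (piece * R ^ t) (β ^ t) := by
  refine ov_of_l1 (hpp.mul (hRp.pow t)) (hβp.pow t)
    (by rw [mass_mul, hpm, mass_pow, hR1, one_pow, one_mul]) (by rw [mass_pow, hβ1, one_pow]) ?_
  have hLR : (0 : ℝ) < L := by exact_mod_cast hL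
  have htR : (1 : ℝ) ≤ t := by exact_mod_cast ht
  have hshift : l1 (P ^ (t * L + ℓ) - P ^ (t * L)) ≤ 1 / 4 := by
    refine (hsm.shift hP hP1 (Nat.mul_pos ht hL) ℓ).trans ?_
    have hℓ' : (ℓ : ℝ) * J ≤ 2 * L := by exact_mod_cast hℓ
    have hs : Real.sqrt (SP / ((t * L : ℕ) : ℝ)) ≤ Real.sqrt (2 * SP / τ) / L := by
      rw [show Real.sqrt (2 * SP / τ) / L = Real.sqrt (2 * SP / τ / (L : ℝ) ^ 2) by
        rw [Real.sqrt_div' (2 * SP / τ) (sq_nonneg (L : ℝ)), Real.sqrt_sq hLR.le]]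
      refine Real.sqrt_le_sqrt ?_
      push_cast
      rw [div_div, div_le_div_iff₀ (by positivity) (by positivity)]
      nlinarith [mul_le_mul_of_nonneg_left htL (show 0 ≤ SP * L by positivity)]
    calc (ℓ : ℝ) * Real.sqrt (SP / ((t * L : ℕ) : ℝ))
        ≤ ℓ * (Real.sqrt (2 * SP / τ) / L) := mul_le_mul_of_nonneg_left hs (Nat.cast_nonneg ℓ)
      _ ≤ ℓ * ((J / 8) / L) := by gcongr; linarith
      _ = ℓ * J / (8 * L) := by ring
      _ ≤ _ := by rw [div_le_iff₀ (by positivity)]; linarith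
  have e : piece * R ^ t - β ^ t = (piece - P ^ ℓ) * R ^ t + P ^ ℓ * (R ^ t - P ^ (t * L))
      + (P ^ (t * L + ℓ) - P ^ (t * L)) + (P ^ (t * L) - β ^ t) := by
    rw [add_comm (t * L) ℓ, pow_add]; noncomm_ring
  rw [e]
  have b1 : l1 ((piece - P ^ ℓ) * R ^ t) ≤ 1 / 4 := by
    refine (l1_mul _ _).trans ?_
    rw [l1_eq_mass (hRp.pow t), mass_pow, hR1, one_pow, mul_one]; exact hpl
  have b2 : l1 (P ^ ℓ * (R ^ t - P ^ (t * L))) ≤ 1 / 4 := (l1_pow_mul_le hP hP1 _ ℓ).trans hR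
  have b4 : l1 (P ^ (t * L) - β ^ t) ≤ 1 / 4 := by rw [← l1_neg, neg_sub]; exact hβ
  have c12 := (l1_add _ _).trans (add_le_add b1 b2)
  have c123 := (l1_add _ _).trans (add_le_add c12 hshift)
  refine (l1_add _ _).trans ((add_le_add c123 b4).trans ?_)
  norm_num

/-- Rotation of one period. -/
theorem rot (w : ℝ) (Q G : A) {x y d : ℕ} (hd : d ≤ y) :
    one1 w Q G x (y - d) * one1 w Q G (x + d) (y - d)
      = one1 w Q G x y * one1 w Q G x (y - d) := by
  simp only [one1, pow_add, ← mul_assoc]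
  rw [mul_assoc (cs w Q ^ x * cs w G) (cs w Q ^ (y - d)) (cs w Q ^ x), ← pow_add,
    mul_assoc (cs w Q ^ x * cs w G) (cs w Q ^ (y - d + x)) (cs w Q ^ d), ← pow_add,
    mul_assoc (cs w Q ^ x * cs w G) (cs w Q ^ y) (cs w Q ^ x), ← pow_add,
    show y - d + x + d = y + x by omega]

/-- The clean pieces on the left. -/
theorem chain_left (w : ℝ) (Q G : A) {x y h u t : ℕ} (hx : h * u ≤ x)
    (hch : ∀ p q : ℕ, p + 1 + q = x + 1 + y → x - h * u ≤ p → y - h * u ≤ q →
      Ov (1 / 2) (cs w Q ^ u * one1 w Q G p q ^ t) (one1 w Q G x y ^ t)) :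
    ∀ k ≤ h, Ov ((1 / 2) ^ k) (one1 w Q G x y ^ (k * t) * cs w Q ^ (k * u))
      (one1 w Q G x y ^ (k * t)) := by
  intro k hk
  induction k with
  | zero => refine ⟨1, Pos.one, by simp [mass_one], ?_, ?_⟩ <;> simp [Pos.zero]
  | succ k ih =>
    have hku : (k + 1) * u ≤ h * u := Nat.mul_le_mul_right u hk
    have hc := hch (x - (k + 1) * u) (y + (k + 1) * u) (by omega) (by omega) (by omega)
    have hrot : cs w Q ^ (k * u) * cs w Q ^ u * one1 w Q G (x - (k + 1) * u) (y + (k + 1) * u)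
        = one1 w Q G x y * (cs w Q ^ (k * u) * cs w Q ^ u) := by
      rw [← pow_add, show k * u + u = (k + 1) * u by ring, one1, one1]
      rw [← mul_assoc, ← mul_assoc, ← pow_add, show (k + 1) * u + (x - (k + 1) * u) = x by omega,
        pow_add, ← mul_assoc]
    have := chain_step (by positivity) (ih (by omega)) hc hrot
    rw [← pow_add, show k * t + t = (k + 1) * t by ring,
      show k * u + u = (k + 1) * u by ring] at this
    rwa [pow_succ, mul_one_div]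

/-- Inserting one whole period piece by piece. -/
theorem chain (w : ℝ) (Q G : A) {x y h u t : ℕ} (hx : h * u ≤ x) (hy : h * u ≤ y)
    (hch : ∀ p q : ℕ, p + 1 + q = x + 1 + y → x - h * u ≤ p → y - h * u ≤ q →
      Ov (1 / 2) (cs w Q ^ u * one1 w Q G p q ^ t) (one1 w Q G x y ^ t))
    (hm : Ov (1 / 2) (one1 w Q G (x - h * u) (y - h * u)
      * one1 w Q G (x + h * u) (y - h * u) ^ t) (one1 w Q G x y ^ t)) :
    ∀ k ≤ h, Ov ((1 / 2) ^ (h + 1 + k))
      (one1 w Q G x y ^ ((h + 1 + k) * t) * one1 w Q G x (y - (h - k) * u))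
      (one1 w Q G x y ^ ((h + 1 + k) * t)) := by
  intro k hk
  induction k with
  | zero =>
    have hpre : cs w Q ^ (h * u) * one1 w Q G (x - h * u) (y - h * u)
        = one1 w Q G x (y - h * u) := by
      simp only [one1, ← mul_assoc, ← pow_add]
      rw [show h * u + (x - h * u) = x by omega]
    have := chain_step (by positivity) (chain_left w Q G hx hch h le_rfl) hm
      (by rw [hpre]; exact rot w Q G hy)
    rw [hpre, show h * t + t = (h + 1) * t by ring] at this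
    rw [Nat.add_zero, Nat.sub_zero, pow_succ, mul_one_div]
    exact this
  | succ k ih =>
    obtain ⟨d, hd⟩ : ∃ d, h = k + 1 + d := ⟨h - (k + 1), by omega⟩
    have hsub : h - k = d + 1 ∧ h - (k + 1) = d := by omega
    have hdu : (d + 1) * u ≤ h * u := Nat.mul_le_mul_right u (by omega)
    rw [Nat.succ_mul] at hdu
    have hc := hch (x + d * u) (y - d * u) (by omega) (by omega) (by omega)
    have hpre : one1 w Q G x (y - (h - k) * u) * cs w Q ^ u = one1 w Q G x (y - d * u) := by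
      simp only [one1, mul_assoc, ← pow_add, hsub.1, Nat.succ_mul]
      rw [show y - (d * u + u) + u = y - d * u by omega]
    have := chain_step (by positivity) (ih (by omega)) hc
      (by rw [hpre]; exact rot w Q G (show d * u ≤ y by omega))
    rw [hpre, show (h + 1 + k) * t + t = (h + 1 + (k + 1)) * t by ring] at this
    rw [hsub.2, show h + 1 + (k + 1) = h + 1 + k + 1 by ring, pow_succ, mul_one_div]
    exact this

/-- Room on one side of the flaw. -/
theorem room {J L x h u : ℕ} (hJ : J = 2 * h + 1) (hu : u * J ≤ L) (hu' : L < u * J + J)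
    (hL : 8 * J * J + 8 * J ≤ L) (hxa : 2 * J * L ≤ 4 * J * x + L + 4 * J) :
    h * u ≤ x ∧ L ≤ 8 * J * (x - h * u) := by
  have e : 2 * (h * u) + u = u * J := by rw [hJ]; ring
  have hmul : J * (4 * (h * u)) + 2 * L ≤ 2 * J * L + 2 * J := by nlinarith
  have hle : h * u ≤ x := by nlinarith
  refine ⟨hle, ?_⟩
  obtain ⟨d, hd⟩ := Nat.exists_eq_add_of_le hle
  rw [hd, Nat.add_sub_cancel_left]
  nlinarith

/-- The length of the flawed piece. -/
theorem middle {J L Jf x y h u : ℕ} {τ : ℝ} (hJ : J = 2 * h + 1) (hu : u * J ≤ L)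
    (hu' : L < u * J + J) (hLJ : 8 * J * J + 8 * J ≤ L) (hJf : J * Jf ≤ L)
    (hxy : x + 1 + y = L) (hx : h * u ≤ x) (hy : h * u ≤ y) (hτ : 0 < τ)
    (hτL : 2 * (J : ℝ) ≤ τ * L) :
    (x - h * u + 1 + (y - h * u)) * J ≤ 2 * L ∧ Jf ≤ x - h * u + 1 + (y - h * u) ∧
      ((1 : ℕ) : ℝ) ≤ τ * (x - h * u + 1 + (y - h * u) : ℕ) := by
  obtain ⟨n, hn⟩ : ∃ n, n = x - h * u + 1 + (y - h * u) := ⟨_, rfl⟩
  rw [← hn]
  have hJpos : 0 < J := by omega
  have e : 2 * (h * u) + u = u * J := by rw [hJ]; ring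
  have hlen : n + 2 * (h * u) = L := by omega
  have hge : L ≤ n * J := by
    obtain ⟨d, hd⟩ : ∃ d, n = u + d := ⟨n - u, by omega⟩
    have : d ≤ d * J := Nat.le_mul_of_pos_right d hJpos
    rw [hd, add_mul]
    omega
  have hnu : n < u + J := by omega
  refine ⟨?_, ?_, ?_⟩
  · have : n * J ≤ (u + J) * J := Nat.mul_le_mul_right J hnu.le
    rw [add_mul] at this
    have e4 : 8 * J * J = 8 * (J * J) := by ring
    omega
  · rw [mul_comm J Jf] at hJf
    exact Nat.le_of_mul_le_mul_right (hJf.trans hge) hJpos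
  · have h1 : (L : ℝ) ≤ (n : ℝ) * J := by exact_mod_cast hge
    have h2 := mul_le_mul_of_nonneg_left h1 hτ.le
    have h3 : (1 : ℝ) ≤ J := by exact_mod_cast hJpos
    rw [Nat.cast_one]
    nlinarith

/-- The position of the flaw away from the ends. -/
theorem central {J L x : ℕ} (h8 : 8 * J * Nat.dist (2 * x) L ≤ L) :
    2 * J * L ≤ 4 * J * x + L ∧ 4 * J * x ≤ 2 * J * L + L := by
  rcases le_total (2 * x) L with hle | hle
  · rw [Nat.dist_eq_sub_of_le hle] at h8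
    obtain ⟨d, hd'⟩ := Nat.exists_eq_add_of_le hle
    rw [hd', Nat.add_sub_cancel_left] at h8
    constructor <;> nlinarith
  · rw [Nat.dist_eq_sub_of_le_right hle] at h8
    obtain ⟨d, hd'⟩ := Nat.exists_eq_add_of_le hle
    rw [hd', Nat.add_sub_cancel_left] at h8
    constructor <;> nlinarith

end Vale.Agent.P321.Per

namespace Vale.Agent.P321

open Per

/-- The powers of one period with a flawed slot near the middle are smooth. -/
theorem periodic_smooth {w a : ℝ} (hw0 : 0 < w) (hw1 : w < 1) (ha : 0 < a) {Q G : A}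
    (hQ : Pos Q) (hQ1 : mass Q = 1) (hG : Pos G) (hG1 : mass G = 1) (hdom : Pos (Q - a • G)) :
    ∃ S0 : ℝ, ∃ J0 : ℕ, ∀ L x : ℕ, J0 ≤ L → J0 * Nat.dist (2 * x) L ≤ L →
      Sm (((1 - w) • (1 : A) + w • Q) ^ x * ((1 - w) • (1 : A) + w • G)
          * ((1 - w) • (1 : A) + w • Q) ^ (L - 1 - x)) (S0 * L) := by
  obtain ⟨τ, hτ, hfl⟩ := flawed w a hw0 hw1 ha
  have hPp : Pos (cs w Q) := pos_cs hw0.le hw1.le hQ
  have hP1 : mass (cs w Q) = 1 := mass_cs hQ1
  set SP : ℝ := 4 / (1 - w) with hSP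
  have hSP0 : 0 < SP := div_pos (by norm_num) (by linarith)
  have hsmP : Sm (cs w Q) SP := sm_cs hw0 hw1 hQ hQ1
  set h : ℕ := ⌈8 * Real.sqrt (2 * SP / τ)⌉₊ with hh
  obtain ⟨J, hJ⟩ : ∃ J, J = 2 * h + 1 := ⟨_, rfl⟩
  have hh8 : 8 * Real.sqrt (2 * SP / τ) ≤ J := by
    refine (Nat.le_ceil _).trans ?_
    rw [← hh]; exact_mod_cast (by omega : h ≤ J)
  obtain ⟨Jf, hJf⟩ := hfl (1 / (8 * (J : ℝ)))
    (div_pos one_pos (mul_pos (by norm_num) (by exact_mod_cast (by omega : 0 < J))))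
  refine ⟨4 * (J * τ + 1) * 2 ^ J,
    8 * J + 8 * J * J + J * Jf + J * ⌈2 / τ⌉₊ + 1, fun L x hL hd => ?_⟩
  have hJpos : 0 < J := by omega
  obtain ⟨u, huJ, huJ'⟩ : ∃ u, u * J ≤ L ∧ L < u * J + J :=
    ⟨L / J, Nat.div_mul_le_self L J, Nat.lt_div_mul_add hJpos⟩
  obtain ⟨hxa, hxb⟩ := central (J := J) (le_trans (Nat.mul_le_mul_right _ (by omega)) hd)
  have hLJ : 8 * J * J + 8 * J ≤ L := by omega
  have hxL : x + 1 ≤ L := by
    by_contra hc
    have : 4 * J * L ≤ 4 * J * x := Nat.mul_le_mul_left _ (by omega)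
    nlinarith
  obtain ⟨y, hy⟩ : ∃ y, L - 1 - x = y := ⟨_, rfl⟩
  rw [hy]
  have hxy : x + 1 + y = L := by omega
  have hxu := room (x := x) hJ huJ huJ' hLJ (by omega)
  have hyu := room (x := y) hJ huJ huJ' hLJ (by rw [← hxy] at hxb ⊢; nlinarith)
  have hJR : (0 : ℝ) < J := by exact_mod_cast hJpos
  obtain ⟨t, ht⟩ : ∃ t, t = ⌊τ * L⌋₊ := ⟨_, rfl⟩
  have hbigτ : 2 / τ * J ≤ L := by
    calc 2 / τ * (J : ℝ) ≤ (⌈2 / τ⌉₊ : ℝ) * J := by gcongr; exact Nat.le_ceil _
      _ = ((J * ⌈2 / τ⌉₊ : ℕ) : ℝ) := by push_cast; ring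
      _ ≤ L := by exact_mod_cast (by omega : J * ⌈2 / τ⌉₊ ≤ L)
  have hτL : 2 * (J : ℝ) ≤ τ * L := by
    rw [div_mul_eq_mul_div, div_le_iff₀ hτ] at hbigτ; linarith
  have hJ1 : (1 : ℝ) ≤ J := by exact_mod_cast hJpos
  have htL : τ * L / 2 ≤ t := by
    have : τ * L < t + 1 := by rw [ht]; exact Nat.lt_floor_add_one _
    linarith
  have htle : (t : ℝ) ≤ τ * L := by rw [ht]; exact Nat.floor_le (by positivity)
  have htpos : 1 ≤ t := by
    have : (1 : ℝ) ≤ t := le_trans (by linarith) htL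
    exact_mod_cast this
  -- periodic runs with an admissible flaw position are close to clean words
  have hrun : ∀ p q m : ℕ, Jf ≤ p + 1 + q → p + 1 + q ≤ L → L ≤ 8 * J * p → L ≤ 8 * J * q →
      (m : ℝ) ≤ τ * (p + 1 + q : ℕ) →
      l1 (one1 w Q G p q ^ m - cs w Q ^ (m * (p + 1 + q))) ≤ 1 / 4 := by
    intro p q m h1 h2 h3 h4 h5
    have hh : ∀ z : ℕ, L ≤ 8 * J * z → 1 / (8 * (J : ℝ)) * ((p + 1 + q : ℕ) : ℝ) ≤ z := by
      intro z hz
      rw [div_mul_eq_mul_div, one_mul, div_le_iff₀ (by positivity)]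
      calc ((p + 1 + q : ℕ) : ℝ) ≤ ((8 * J * z : ℕ) : ℝ) := by exact_mod_cast h2.trans hz
        _ = _ := by push_cast; ring
    exact hJf Q G hQ hQ1 hG hG1 hdom p q m h1 (hh p h3) (hh q h4) h5
  have hJfL : Jf ≤ L := by
    have : Jf ≤ J * Jf := Nat.le_mul_of_pos_left _ hJpos
    omega
  have hrunt : ∀ p q : ℕ, p + 1 + q = L → x - h * u ≤ p → y - h * u ≤ q →
      l1 (one1 w Q G p q ^ t - cs w Q ^ (t * L)) ≤ 1 / 4 := by
    intro p q hpq hp hq
    have := hrun p q t (by omega) (by omega) (hxu.2.trans (Nat.mul_le_mul_left _ hp))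
      (hyu.2.trans (Nat.mul_le_mul_left _ hq)) (by rw [hpq]; exact htle)
    rwa [hpq] at this
  have hp1 := fun p q => pos_one1 hw0.le hw1.le hQ hG p q
  have hm1 := fun p q => mass_one1 (w := w) hQ1 hG1 p q
  have hchunk : ∀ (piece : A) (ℓ p q : ℕ), Pos piece → mass piece = 1 →
      l1 (piece - cs w Q ^ ℓ) ≤ 1 / 4 → ℓ * J ≤ 2 * L → p + 1 + q = L → x - h * u ≤ p →
      y - h * u ≤ q → Ov (1 / 2) (piece * one1 w Q G p q ^ t) (one1 w Q G x y ^ t) :=
    fun piece ℓ p q hpp hpm hpl hℓ hpq hp hq => chunk_ov hPp hP1 (hp1 p q) (hm1 p q) (hp1 x y)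
      (hm1 x y) hpp hpm hsmP hSP0 hτ hh8 htL htpos (by omega) hpl hℓ (hrunt p q hpq hp hq)
      (hrunt x y hxy (by omega) (by omega))
  have hch : ∀ p q : ℕ, p + 1 + q = x + 1 + y → x - h * u ≤ p → y - h * u ≤ q →
      Ov (1 / 2) (cs w Q ^ u * one1 w Q G p q ^ t) (one1 w Q G x y ^ t) := fun p q hpq =>
    hchunk _ u p q (hPp.pow u) (mass_pow_one hP1 u) (by simp [l1_zero]) (by omega) (by omega)
  have hm : Ov (1 / 2) (one1 w Q G (x - h * u) (y - h * u)
      * one1 w Q G (x + h * u) (y - h * u) ^ t) (one1 w Q G x y ^ t) := by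
    obtain ⟨hle, hJf', hone⟩ := middle hJ huJ huJ' hLJ (show J * Jf ≤ L by omega) hxy hxu.1 hyu.1
      hτ hτL
    have hxl := hxu.1
    have hyl := hyu.1
    refine hchunk _ (x - h * u + 1 + (y - h * u)) _ _ (hp1 _ _) (hm1 _ _) ?_ hle (by omega)
      (by omega) le_rfl
    have := hrun (x - h * u) (y - h * u) 1 hJf' (by omega) hxu.2 hyu.2 hone
    simpa using this
  obtain ⟨C, hC, hCm, hC1, hC0⟩ := chain w Q G hxu.1 hyu.1 hch hm h le_rfl
  rw [Nat.sub_self, zero_mul, Nat.sub_zero, ← pow_succ] at hC1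
  rw [show h + 1 + h = J by omega] at hC0 hC1 hCm
  have hsm := foguel (hp1 x y) (hm1 x y) hC (θ := (1 / 2) ^ J) (by positivity) hCm (J * t) hC0 hC1
  refine (hsm.mono ?_ : Sm (one1 w Q G x y) _)
  rw [div_pow, one_pow, div_div_eq_mul_div, div_one]
  push_cast
  have hL1 : (1 : ℝ) ≤ L := by exact_mod_cast (by omega : 1 ≤ L)
  have : (J : ℝ) * t + 1 ≤ (J * τ + 1) * L := by nlinarith
  calc 4 * ((J : ℝ) * t + 1) * 2 ^ J ≤ 4 * ((J * τ + 1) * L) * 2 ^ J := by gcongr
    _ = _ := by ring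

end Vale.Agent.P321
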