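import Mathlib
import Vale.Agent.P321.Algebra
import Vale.Agent.P321.Channel
import Vale.Agent.P321.Super.Scale
import Vale.Agent.P321.Super.First
import Vale.Agent.P321.Super.Periodic

/-!
Induction on the levels.
-/

open scoped BigOperators
open Finset

noncomputable section

namespace Vale.Agent.P321

theorem periodic_slot {q : ℝ} (hq0 : 0 < q) (hq1 : q < 1) : PeriodicSmooth q := by
  obtain ⟨w, a, Q, G, hw0, hw1, ha, hQ, hQ1, hG, hG1, hdom, hμB, hμF⟩ := slot_decomp hq0 hq1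
  obtain ⟨S0, J0, h⟩ := periodic_smooth hw0 hw1 ha hQ hQ1 hG hG1 hdom
  refine ⟨S0, J0, fun L x hL hx => ?_⟩
  rw [hμB, hμF]
  exact h L x hL hx

/-- Words of blocks following a pattern. -/
def segWord (wB wF : W) : List Bool → W
  | [] => 1
  | b :: e => (if b then wF else wB) * segWord wB wF e

theorem mu_segWord (q : ℝ) (wB wF : W) : ∀ e,
    mu q (segWord wB wF e) = seg (mu q wB) (mu q wF - mu q wB) e
  | [] => by simp [segWord, seg]
  | b :: e => by
    cases b <;> simp [segWord, seg, mu_segWord q wB wF e]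

theorem segWord_length {wB wF : W}
    (h : (FreeMonoid.toList wB).length = (FreeMonoid.toList wF).length) : ∀ e,
    (FreeMonoid.toList (segWord wB wF e)).length = e.length * (FreeMonoid.toList wB).length
  | [] => by simp [segWord]
  | b :: e => by
    cases b <;> simp [segWord, FreeMonoid.toList_mul, segWord_length h e, ← h] <;> ring

theorem differ_next {wB wF : W} (h : Differ wF wB) (m c : ℕ) :
    Differ (wB ^ c * segWord wB wF (tm m).2 * wB ^ c)
      (wB ^ c * segWord wB wF (tm m).1 * wB ^ c) := by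
  obtain ⟨p, b, r1, r2, h1, h2⟩ := h
  obtain ⟨e1, e2, he1, he2⟩ := tm_head m
  refine ⟨FreeMonoid.toList (wB ^ c) ++ p, !b,
    r2 ++ FreeMonoid.toList (segWord wB wF e2) ++ FreeMonoid.toList (wB ^ c),
    r1 ++ FreeMonoid.toList (segWord wB wF e1) ++ FreeMonoid.toList (wB ^ c), ?_, ?_⟩
  · rw [he2]
    simp [segWord, FreeMonoid.toList_mul, h2, List.append_assoc]
  · rw [he1]
    simp [segWord, FreeMonoid.toList_mul, h1, List.append_assoc]

/-- Smoothing exponent of level `i`. -/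
def sExp (i : ℕ) : ℕ := 2010 * 2 ^ i - 8

/-- Visibility exponent of the periodic block of level `i`. -/
def eExp : ℕ → ℕ
  | 0 => 999
  | i + 1 => 3100 * 2 ^ i

/-- Visibility exponent of the flaw of level `i`. -/
def gExp (i : ℕ) : ℕ := 2 ^ i * (2999 + 60 * i)

/-- Everything known about level `i`. -/
def Level (q : ℝ) (k R i H : ℕ) : Prop :=
  ∃ (T : Lvl k) (wB wF : W), T.β = mu q wB ∧ T.φ = mu q wF ∧
    (FreeMonoid.toList wB).length = (FreeMonoid.toList wF).length ∧
    (FreeMonoid.toList wB).length ≤ R ^ (2 * sExp i + 10) ∧ Differ wF wB ∧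
    R ^ (sExp i + 4) ≤ T.n ∧ T.n ≤ R ^ (sExp i + 5) ∧ T.S ≤ (R : ℝ) ^ sExp i ∧
    T.γE = ((R : ℝ)⁻¹) ^ eExp i ∧ T.γ = ((R : ℝ)⁻¹) ^ gExp i ∧ T.η = ((R : ℝ)⁻¹) ^ H ∧
    Sm T.β ((R : ℝ) ^ (2 * sExp i + 8))

theorem sExp_succ (i : ℕ) : sExp (i + 1) = 2 * sExp i + 8 := by
  unfold sExp
  have : 1 ≤ 2 ^ i := Nat.one_le_two_pow
  rw [pow_succ]
  omega

theorem gExp_succ (i : ℕ) : gExp (i + 1) + 1 ≤ 2 * gExp i + 130 * 2 ^ i := by
  have hP : 1 ≤ 2 ^ i := Nat.one_le_two_pow
  have e1 : gExp (i + 1) = 6118 * 2 ^ i + 120 * (2 ^ i * i) := by unfold gExp; rw [pow_succ]; ring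
  have e2 : gExp i = 2999 * 2 ^ i + 60 * (2 ^ i * i) := by unfold gExp; ring
  omega

theorem eExp_step (i : ℕ) : 7 * (130 * 2 ^ i) + 2 ≤ eExp i ∧ eExp i ≤ gExp i + 3100 * 2 ^ i := by
  cases i with
  | zero => simp [eExp]
  | succ i =>
    have hP : 1 ≤ 2 ^ i := Nat.one_le_two_pow
    simp only [eExp, pow_succ]
    omega

set_option maxHeartbeats 1000000 in
/-- All levels up to `J`, for all large `R`. -/
theorem levels {q : ℝ} (hq0 : 0 < q) (hq1 : q < 1) (J : ℕ) :
    ∃ k Hf : ℕ, gExp J ≤ Hf ∧ ∀ᶠ R : ℕ in Filter.atTop, Level q k R J Hf := by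
  set Q := 2 ^ J with hQ
  have hQ1 : 1 ≤ Q := Nat.one_le_two_pow
  set B := 1100 * Q with hB
  set Hf := Q * (30000 + 60 * J) with hHf
  set m := Hf + J * B + 2005 + 600 * Q with hm
  refine ⟨m, Hf, ?_, ?_⟩
  · unfold gExp
    rw [hHf, ← hQ]
    exact Nat.mul_le_mul_left _ (by omega)
  have hm1 : 1 ≤ m := by omega
  obtain ⟨R0, h0⟩ := first_level hq0 hq1 (periodic_slot hq0 hq1) m m (Hf + J * B) hm1 (by omega)
  obtain ⟨R1, hR1⟩ : ∃ R1 : ℕ,
      max (max (max (216 * orc m) (64 * orc m * (48 * orc m + 4 * avc m m + 192 + 63 * (m * 2 ^ m)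
          + 6 * 2 ^ m)))
        (max (432 * orc m) (288 * orc m)))
      (max (max (4 * ((2 : ℝ) ^ m + 1) * ((2 * avc m m + 900 * orc m) * 16 ^ 2 ^ m))
          (2 * ((2 : ℝ) ^ m + 1) * (7200 * (m * 2 ^ m) * 16 ^ 2 ^ m + 12 * 16 ^ 2 ^ m + 200)))
        (max ((2 ^ (m + 1) : ℝ) ^ m * 2) ((64 + 2 * m + 2 ^ m : ℕ) : ℝ))) ≤ R1 :=
    ⟨_, Nat.le_ceil _⟩
  rw [Filter.eventually_atTop]
  refine ⟨max R0 R1, fun R hR => ?_⟩
  have hR' : (R1 : ℝ) ≤ R := by exact_mod_cast le_trans (le_max_right _ _) hR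
  have hall := hR1.trans hR'
  simp only [max_le_iff] at hall
  obtain ⟨⟨⟨c1, c2⟩, c3, c4⟩, ⟨c5, c6⟩, c7, c8⟩ := hall
  have c8' : 64 + 2 * m + 2 ^ m ≤ R := by exact_mod_cast c8
  have hpm : 1 ≤ 2 ^ m := Nat.one_le_two_pow
  suffices h : ∀ i, i ≤ J → Level q m R i (Hf + (J - i) * B) by simpa using h J le_rfl
  intro i
  induction i with
  | zero =>
    intro _
    simpa [Level, sExp, eExp, gExp] using h0 R (le_trans (le_max_left _ _) hR)
  | succ i ih =>
    intro hi
    obtain ⟨T, wB, wF, hβ, hφ, hlen, hL, hdiff, hn0, hn1, hS, hγE, hγ, hη, hsm⟩ := ih (by omega)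
    obtain ⟨P, hP⟩ : ∃ P, P = 2 ^ i := ⟨_, rfl⟩
    have hPQ : 2 * P ≤ Q := by
      rw [hP, hQ, ← pow_succ']; exact Nat.pow_le_pow_right (by norm_num) hi
    have hP1 : 1 ≤ P := hP ▸ Nat.one_le_two_pow
    have hgQ : gExp i ≤ Q * (30000 + 60 * J) := by
      unfold gExp
      exact Nat.mul_le_mul (Nat.pow_le_pow_right (by norm_num) (by omega)) (by omega)
    obtain ⟨hE1, hE2⟩ := eExp_step i
    have hs1 := sExp_succ i
    have hg1 := gExp_succ i
    have hg0 : 2999 * P ≤ gExp i := by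
      rw [hP, mul_comm]; exact Nat.mul_le_mul_left _ (by omega)
    have hH : (J - i) * B = (J - (i + 1)) * B + B := by
      rw [← Nat.succ_mul]; congr 1; omega
    have hJi : (J - i) * B ≤ J * B := Nat.mul_le_mul_right _ (Nat.sub_le _ _)
    have hQJ : Hf = 30000 * Q + 60 * (Q * J) := by rw [hHf]; ring
    have hs : sExp i = 2010 * P - 8 := by rw [hP]; rfl
    have he1 : eExp (i + 1) = 3100 * P := by rw [hP]; rfl
    have heH : eExp i ≤ Hf + (J - i) * B := by
      cases i with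
      | zero => simp [eExp]; omega
      | succ j =>
        have : eExp (j + 1) = 3100 * 2 ^ j := rfl
        rw [pow_succ] at hP
        omega
    rw [← hP] at hE1 hE2 hg1
    obtain ⟨T', hβ', hφ', hn0', hn1', hS', hγE', hγ', hη'⟩ := level_step (R := R) (m := m) hm1 T
      (by rw [hφ]; exact mu_pos hq0.le hq1.le _) (ω := 130 * P) (gE' := 3100 * P)
      (g' := gExp (i + 1)) (H' := Hf + (J - (i + 1)) * B) hn0 hS hγE hγ hη hsm (by omega) (by omega)
      (by omega) c3 c5 c6 c4 c7 (by omega) (by omega) (by omega) (by omega) (by omega) heH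
      (by omega) (by omega) (by omega) (by omega) (by omega) (by omega)
    have hs' : 2 * sExp i + 12 = sExp (i + 1) + 4 := by omega
    have hs'' : 2 * sExp i + 13 = sExp (i + 1) + 5 := by omega
    rw [hs'] at hn0' hβ' hφ'
    rw [hs''] at hn1'
    rw [← hs1] at hS'
    have hsm' := level_smooth (R := R) (m := m) hm1 T' (s := sExp (i + 1)) (gE := 3100 * P)
      (H := Hf + (J - (i + 1)) * B) (χ := 3000 * P) (et := 2000 * P) (th := 1000 * P)
      (hb := 14040 * P) hn0' hn1' hS' hγE' hη' (by omega) (by omega) c1 c2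
      (by omega) (by omega) (by omega) (by omega) (by omega) (by omega) (by omega) (by omega)
      (by omega) (by omega) (by omega)
    set c := R ^ (sExp (i + 1) + 4) with hc
    refine ⟨T', wB ^ c * segWord wB wF (tm m).1 * wB ^ c, wB ^ c * segWord wB wF (tm m).2 * wB ^ c,
      ?_, ?_, ?_, ?_, differ_next hdiff m c, hn0', hn1', hS', ?_, hγ', hη', hsm'⟩
    · rw [hβ', map_mul, map_mul, map_pow, mu_segWord, Lvl.D, ← hβ, ← hφ]
    · rw [hφ', map_mul, map_mul, map_pow, mu_segWord, Lvl.D, ← hβ, ← hφ]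
    · simp only [FreeMonoid.toList_mul, List.length_append, segWord_length hlen, (tm_length m).1,
        (tm_length m).2]
    · simp only [FreeMonoid.toList_mul, List.length_append, segWord_length hlen, (tm_length m).1,
        length_pow_word]
      set Lb := (FreeMonoid.toList wB).length with hLb
      calc c * Lb + 2 ^ m * Lb + c * Lb = (2 * c + 2 ^ m) * Lb := by ring
        _ ≤ R ^ (sExp (i + 1) + 5) * R ^ (2 * sExp i + 10) := by
            refine Nat.mul_le_mul ?_ hL
            rw [pow_succ' R (sExp (i + 1) + 4), ← hc]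
            have h3 : 3 * c ≤ R * c := Nat.mul_le_mul_right _ (by omega)
            have h4 : R ≤ c := Nat.le_self_pow (by omega) R
            omega
        _ ≤ _ := by
            rw [← pow_add]; exact Nat.pow_le_pow_right (by omega) (by omega)
    · rw [hγE', he1]

end Vale.Agent.P321
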